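import Crest.Agent.R224.Basic

/-! Row 224: basic lemmas on the completed space, cuts and separation. -/

namespace Crest.Agent.R224

open Crest.Agent.Lib.KyFan Set Filter Topology
open scoped Pointwise

variable {G : Type} [Group G] {Y : Type} [MetricSpace Y] [MulAction G Y] {T : Finset G} {o : Y}

namespace ApiAux

theorem exists_pos_le {ι : Type} {E : Set ι} (hE : E.Finite) {f : ι → ℝ} (hf : ∀ a ∈ E, 0 < f a) :
    ∃ ε : ℝ, 0 < ε ∧ ∀ a ∈ E, ε ≤ f a := by
  rcases E.eq_empty_or_nonempty with rfl | hne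
  · exact ⟨1, one_pos, by simp⟩
  · obtain ⟨a, ha, h⟩ := exists_min_image E f hE hne
    exact ⟨f a, hf a ha, h⟩

omit [MetricSpace Y] in
theorem two_iff {τ : Fin 3 → Zt G o} {x : G} {A : Zt G o → Prop} : Two τ x A ↔
    (A (x • τ 0) ∧ A (x • τ 1)) ∨ (A (x • τ 0) ∧ A (x • τ 2)) ∨ (A (x • τ 1) ∧ A (x • τ 2)) := by
  constructor
  · rintro ⟨i, j, hij, h1, h2⟩
    fin_cases i <;> fin_cases j <;> simp_all
  · rintro (h | h | h)
    · exact ⟨0, 1, by decide, h⟩
    · exact ⟨0, 2, by decide, h⟩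
    · exact ⟨1, 2, by decide, h⟩

end ApiAux

/-! ### metric facts -/

theorem Sp.cont (h : Sp T o) (g : G) : Continuous fun y : Y => g • y := (h.uc g).continuous

theorem Sp.inj (h : Sp T o) {a b : G} (hab : a • o = b • o) : a = b := by
  by_contra hne
  obtain ⟨ε, hε, h1⟩ := h.iso a
  have := h1 b (Ne.symm hne)
  rw [hab, dist_self] at this
  exact absurd hε this.not_gt

/-- uniform isolation radius on a finite set of vertices. -/
theorem Sp.iso_finite (h : Sp T o) {E : Set G} (hE : E.Finite) :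
    ∃ ε : ℝ, 0 < ε ∧ ∀ a ∈ E, ∀ b : G, b ≠ a → ε ≤ dist (a • o) (b • o) := by
  choose f hf hf' using h.iso
  obtain ⟨ε, hε, h1⟩ := ApiAux.exists_pos_le hE (f := f) fun a _ => hf a
  exact ⟨ε, hε, fun a ha b hb => (h1 a ha).trans (hf' a b hb)⟩

/-- bounded word distance far out is small. -/
theorem Sp.shrink (h : Sp T o) {F : Set G} (hF : F.Finite) {ε : ℝ} (hε : 0 < ε) :
    {x : G | ∃ e ∈ F, ε ≤ dist (x • o) ((x * e) • o)}.Finite := by
  refine (hF.biUnion (t := fun e => {x : G | ε ≤ dist (x • o) ((x * e) • o)}) fun e _ => ?_).subset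
    fun x ⟨e, he, hx⟩ => mem_biUnion he hx
  have := (h.l2 e).tendsto_cofinite_zero.eventually_lt_const (pow_pos hε 2)
  refine (eventually_cofinite.1 this).subset fun x hx => ?_
  exact (pow_le_pow_left₀ hε.le hx 2).not_gt

theorem Sp.shrink_near (h : Sp T o) (R : ℕ) {ε : ℝ} (hε : 0 < ε) :
    {x : G | ∃ y, Near T R x y ∧ ε ≤ dist (x • o) (y • o)}.Finite := by
  refine (h.shrink (Bl_finite T R) hε).subset ?_
  rintro x ⟨y, hy, hxy⟩
  exact ⟨x⁻¹ * y, hy, by rwa [mul_inv_cancel_left]⟩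

theorem Sp.shrink_adj (h : Sp T o) {ε : ℝ} (hε : 0 < ε) :
    {x : G | ∃ y, Adj T x y ∧ ε ≤ dist (x • o) (y • o)}.Finite := by
  exact (h.shrink_near 1 hε).subset fun x ⟨y, hy, hxy⟩ => ⟨y, hy.near, hxy⟩

/-- a square summable bound for steps of word length `≤ R`. -/
theorem Sp.exists_phi (h : Sp T o) (R : ℕ) : ∃ φ : G → ℝ, (∀ x, 0 ≤ φ x) ∧
    Summable (fun x => φ x ^ 2) ∧ ∀ x y, Near T R x y → dist (x • o) (y • o) ≤ φ x := by
  refine ⟨fun x => ∑ e ∈ (Bl_finite T R).toFinset, dist (x • o) ((x * e) • o),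
    fun x => Finset.sum_nonneg fun _ _ => dist_nonneg, ?_, fun x y hxy => ?_⟩
  · refine Summable.of_nonneg_of_le (fun x => sq_nonneg _) (fun x => sq_sum_le_card_mul_sum_sq)
      (Summable.mul_left _ (summable_sum fun e _ => h.l2 e))
  · have := Finset.single_le_sum (f := fun e => dist (x • o) ((x * e) • o))
      (fun _ _ => dist_nonneg) ((Bl_finite T R).mem_toFinset.2 hxy)
    rwa [mul_inv_cancel_left] at this

/-- the distance along a coarse chain in `S` is at most the total weight of `S`. -/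
theorem chain_dist {S : Set G} {R : ℕ} {φ : G → ℝ} {c : ℝ} (h0 : ∀ x, 0 ≤ φ x)
    (hφ : ∀ x y, Near T R x y → dist (x • o) (y • o) ≤ φ x)
    (hc : ∀ F : Finset G, (∀ x ∈ F, x ∈ S) → ∑ x ∈ F, φ x ≤ c) {a b : G} (ha : a ∈ S)
    (hab : Relation.ReflTransGen (fun x y => y ∈ S ∧ Near T R x y) a b) :
    dist (a • o) (b • o) ≤ c := by
  classical
  have key : ∃ F : Finset G, (∀ x ∈ F, x ∈ S) ∧ b ∈ F ∧
      ∀ x ∈ F, dist (a • o) (x • o) ≤ ∑ y ∈ F.erase x, φ y := by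
    induction hab with
    | refl => exact ⟨{a}, by simpa using ha, by simp, by simp⟩
    | @tail b b' _ hb ih =>
      obtain ⟨F, hF, hbF, hd⟩ := ih
      by_cases hb' : b' ∈ F
      · exact ⟨F, hF, hb', hd⟩
      · refine ⟨insert b' F, ?_, Finset.mem_insert_self _ _, fun x hx => ?_⟩
        · simpa [hb.1] using hF
        · rcases Finset.mem_insert.1 hx with rfl | hx
          · rw [Finset.erase_insert hb', ← Finset.sum_erase_add _ _ hbF]
            exact (dist_triangle _ (b • o) _).trans (add_le_add (hd b hbF) (hφ _ _ hb.2))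
          · exact (hd x hx).trans (Finset.sum_le_sum_of_subset_of_nonneg
              (Finset.erase_subset_erase _ (Finset.subset_insert _ _)) fun y _ _ => h0 y)
  obtain ⟨F, hF, hbF, hd⟩ := key
  exact (hd b hbF).trans ((Finset.sum_le_sum_of_subset_of_nonneg (Finset.erase_subset _ _)
    fun y _ _ => h0 y).trans (hc F hF))

/-- uniform constancy on small balls. -/
theorem Sp.const_ball (h : Sp T o) {E : Set G} (hE : E.Finite) {c : ℝ} (hc : 0 < c) :
    ∃ δ : ℝ, 0 < δ ∧ ∀ (N : Set G) (w : Y), (∀ g ∈ bd T N, dist (g • o) w < c → g ∈ E) →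
      ∀ g g' : G, dist (g • o) w < δ → dist (g' • o) w < δ → (g ∈ N ↔ g' ∈ N) := by
  obtain ⟨ε, hε, h1⟩ := h.iso_finite hE
  refine ⟨min (c / 3) (ε / 4), by positivity, fun N w hN g g' hg hg' => ?_⟩
  have a1 := min_le_left (c / 3) (ε / 4)
  have a2 := min_le_right (c / 3) (ε / 4)
  generalize min (c / 3) (ε / 4) = δ at *
  by_contra hne
  obtain ⟨x, hx, y, hy, hxy, hn⟩ := (h.inner g g' (2 * δ)
    (by linarith [dist_triangle_right (g • o) (g' • o) w])).exists_cross hne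
  have hx : dist (g • o) (x • o) < 2 * δ := hx
  have hy : dist (g • o) (y • o) < 2 * δ := hy
  have hxE := hN x ⟨y, hxy, hn⟩ (by linarith [dist_triangle_left (x • o) w (g • o)])
  have := h1 x hxE y (by rintro rfl; exact hn Iff.rfl)
  linarith [dist_triangle_left (x • o) (y • o) (g • o)]

theorem Sp.exists_vertex (h : Sp T o) (y : Y) {ε : ℝ} (hε : 0 < ε) :
    ∃ g : G, dist (g • o) y < ε := by
  obtain ⟨g, hg⟩ := h.dense.exists_dist_lt y hε
  exact ⟨g, by rwa [dist_comm]⟩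

/-- boundary points stay away from finite sets of vertices. -/
theorem Zt.away (z : Zt G o) {E : Set G} (hE : E.Finite) :
    ∃ ε : ℝ, 0 < ε ∧ ∀ g ∈ E, ε ≤ dist (g • o) z.1 := by
  exact ApiAux.exists_pos_le hE fun g _ => dist_pos.2 (z.2 g).symm

theorem Sp.near_infinite (h : Sp T o) (z : Zt G o) {ε : ℝ} (hε : 0 < ε) :
    {g : G | dist (g • o) z.1 < ε}.Infinite := by
  intro hfin
  obtain ⟨ε', hε', h1⟩ := z.away hfin
  obtain ⟨g, hg⟩ := h.exists_vertex z.1 (lt_min hε hε')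
  exact (h1 g (hg.trans_le (min_le_left _ _))).not_gt (hg.trans_le (min_le_right _ _))

/-- an accumulation point of vertices is a boundary point. -/
theorem Sp.not_vertex (h : Sp T o) {y : Y}
    (hy : ∀ ε : ℝ, 0 < ε → {g : G | dist (g • o) y < ε}.Infinite) : ∀ g : G, y ≠ g • o := by
  rintro g rfl
  obtain ⟨ε, hε, h1⟩ := h.iso g
  refine hy ε hε ((finite_singleton g).subset fun b hb => ?_)
  by_contra hne
  exact (h1 b hne).not_gt (by rw [dist_comm]; exact hb)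

theorem Zt.dist_pos {a b : Zt G o} (h : a ≠ b) : 0 < dist a.1 b.1 := by
  exact _root_.dist_pos.2 fun e => h (Subtype.ext e)

/-! ### consequences of the convergence property -/

/-- of two distinct points one is mapped close to `g • o`. -/
theorem Conv.pair (h : Conv G o) {a b : Y} (hab : a ≠ b) {η : ℝ} (hη : 0 < η) :
    ∃ F : Set G, F.Finite ∧ ∀ g : G, g ∉ F →
      dist (g • a) (g • o) ≤ η ∨ dist (g • b) (g • o) ≤ η := by
  obtain ⟨F, hF, h1⟩ := h (dist a b / 2) η (half_pos (dist_pos.2 hab)) hη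
  refine ⟨F, hF, fun g hg => ?_⟩
  rcases le_or_gt (dist a b / 2) (dist a (g⁻¹ • o)) with h2 | h2
  · exact Or.inl (h1 g hg a h2)
  · exact Or.inr (h1 g hg b (by linarith [dist_triangle_right a b (g⁻¹ • o)]))

theorem Conv.triple (h : Conv G o) {τ : Fin 3 → Zt G o} (hτ : Function.Injective τ) {η : ℝ}
    (hη : 0 < η) : ∃ F : Set G, F.Finite ∧ ∀ g : G, g ∉ F →
      Two τ g fun z => dist z.1 (g • o) ≤ η := by
  have hne : ∀ i j, i ≠ j → (τ i).1 ≠ (τ j).1 := fun i j hij e => hij (hτ (Subtype.ext e))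
  obtain ⟨F1, f1, h1⟩ := h.pair (hne 0 1 (by decide)) hη
  obtain ⟨F2, f2, h2⟩ := h.pair (hne 0 2 (by decide)) hη
  obtain ⟨F3, f3, h3⟩ := h.pair (hne 1 2 (by decide)) hη
  refine ⟨F1 ∪ F2 ∪ F3, (f1.union f2).union f3, fun g hg => ApiAux.two_iff.2 ?_⟩
  simp only [mem_union, not_or] at hg
  have a1 := h1 g hg.1.1
  have a2 := h2 g hg.1.2
  have a3 := h3 g hg.2
  simp only [Zt.smul_val]
  tauto

/-- proper discontinuity on triples. -/
theorem Conv.three (h : Conv G o) {a b c : Y} (hab : a ≠ b) (hac : a ≠ c) (hbc : b ≠ c) {ε : ℝ}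
    (hε : 0 < ε) : {g : G | ε ≤ dist (g • a) (g • b) ∧ ε ≤ dist (g • a) (g • c) ∧
      ε ≤ dist (g • b) (g • c)}.Finite := by
  have hη : 0 < ε / 3 := by positivity
  obtain ⟨F1, f1, h1⟩ := h.pair hab hη
  obtain ⟨F2, f2, h2⟩ := h.pair hac hη
  obtain ⟨F3, f3, h3⟩ := h.pair hbc hη
  refine ((f1.union f2).union f3).subset fun g ⟨b1, b2, b3⟩ => ?_
  by_contra hg
  simp only [mem_union, not_or] at hg
  have t1 := dist_triangle_right (g • a) (g • b) (g • o)
  have t2 := dist_triangle_right (g • a) (g • c) (g • o)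
  have t3 := dist_triangle_right (g • b) (g • c) (g • o)
  rcases h1 g hg.1.1 with a1 | a1 <;> rcases h2 g hg.1.2 with a2 | a2 <;>
    rcases h3 g hg.2 with a3 | a3 <;> linarith

theorem Two.mono {τ : Fin 3 → Zt G o} {x : G} {A B : Zt G o → Prop} (h : Two τ x A)
    (hAB : ∀ z, A z → B z) : Two τ x B := by
  obtain ⟨i, j, hij, h1, h2⟩ := h
  exact ⟨i, j, hij, hAB _ h1, hAB _ h2⟩

theorem two_not_iff {τ : Fin 3 → Zt G o} {x : G} {A : Zt G o → Prop} :
    (Two τ x fun z => ¬ A z) ↔ ¬ Two τ x A := by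
  rw [ApiAux.two_iff, ApiAux.two_iff]
  tauto

theorem two_mul {τ : Fin 3 → Zt G o} {g x : G} {A : Zt G o → Prop} :
    Two τ (g * x) A ↔ Two τ x fun z => A (g • z) := by
  simp only [Two, mul_smul]

/-! ### `In`, `Res`, `Cut` -/

theorem In.mono {z : Y} {H H' : Set G} (h : In o z H) (hH : H ⊆ H') : In o z H' := by
  obtain ⟨r, hr, h1⟩ := h
  exact ⟨r, hr, fun g hg => hH (h1 g hg)⟩

theorem In.inter {z : Y} {H H' : Set G} (h : In o z H) (h' : In o z H') : In o z (H ∩ H') := by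
  obtain ⟨r, hr, h1⟩ := h
  obtain ⟨r', hr', h2⟩ := h'
  exact ⟨min r r', lt_min hr hr', fun g hg =>
    ⟨h1 g (hg.trans_le (min_le_left _ _)), h2 g (hg.trans_le (min_le_right _ _))⟩⟩

theorem In.not_compl (hs : Sp T o) {z : Y} {H : Set G} (h : In o z H) : ¬ In o z Hᶜ := by
  intro h'
  obtain ⟨r, hr, h1⟩ := h.inter h'
  obtain ⟨g, hg⟩ := hs.exists_vertex z hr
  exact (h1 g hg).2 (h1 g hg).1

theorem In.nhds {z : Y} {H : Set G} (h : In o z H) :
    ∃ δ : ℝ, 0 < δ ∧ ∀ z' : Y, dist z' z < δ → In o z' H := by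
  obtain ⟨r, hr, h1⟩ := h
  exact ⟨r / 2, half_pos hr, fun z' hz' => ⟨r / 2, half_pos hr, fun g hg =>
    h1 g (by linarith [dist_triangle (g • o) z' z])⟩⟩

theorem In.infinite (hs : Sp T o) {z : Zt G o} {H : Set G} (h : In o z.1 H) : H.Infinite := by
  obtain ⟨r, hr, h1⟩ := h
  exact (hs.near_infinite z hr).mono h1

theorem In.of_finite {z : Zt G o} {H H' : Set G} (h : In o z.1 H) (hH : (H \ H').Finite) :
    In o z.1 H' := by
  obtain ⟨r, hr, h1⟩ := h
  obtain ⟨ε, hε, h2⟩ := z.away hH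
  refine ⟨min r ε, lt_min hr hε, fun g hg => ?_⟩
  by_contra hn
  exact (h2 g ⟨h1 g (hg.trans_le (min_le_left _ _)), hn⟩).not_gt (hg.trans_le (min_le_right _ _))

/-- `In` is equivariant. -/
theorem in_smul (hs : Sp T o) (g : G) {z : Y} {H : Set G} :
    In o (g • z) H ↔ In o z {x | g * x ∈ H} := by
  have key : ∀ (g : G) (z : Y) (H : Set G), In o (g • z) H → In o z {x | g * x ∈ H} := by
    rintro g z H ⟨r, hr, h1⟩
    obtain ⟨δ, hδ, h2⟩ := Metric.continuousAt_iff.1 (hs.cont g).continuousAt r hr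
    exact ⟨δ, hδ, fun x hx => h1 _ (by rw [mul_smul]; exact h2 hx)⟩
  refine ⟨key g z H, fun h => ?_⟩
  have := key g⁻¹ (g • z) {x | g * x ∈ H} (by rwa [inv_smul_smul])
  simpa using this

/-- near a point that is inside `H` or inside its complement the boundary is finite. -/
theorem In.bd_finite (hs : Sp T o) (hT : Symm T) {z : Y} {H : Set G} (h : In o z H) :
    ∃ r : ℝ, 0 < r ∧ {g : G | g ∈ bd T H ∧ dist (g • o) z < r}.Finite := by
  have _ := hT
  obtain ⟨r, hr, h1⟩ := h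
  refine ⟨r / 2, half_pos hr, (hs.shrink_adj (half_pos hr)).subset ?_⟩
  rintro g ⟨⟨y, hy, hn⟩, hg⟩
  refine ⟨y, hy, ?_⟩
  by_contra hlt
  exact hn (iff_of_true (h1 g (by linarith))
    (h1 y (by linarith [dist_triangle_left (y • o) z (g • o), not_le.1 hlt])))

theorem in_or_in (hs : Sp T o) {z : Zt G o} {H : Set G} {c : ℝ} (hc : 0 < c)
    (h : {g : G | g ∈ bd T H ∧ dist (g • o) z.1 < c}.Finite) : In o z.1 H ∨ In o z.1 Hᶜ := by
  obtain ⟨δ, hδ, h1⟩ := hs.const_ball h hc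
  obtain ⟨g, hg⟩ := hs.exists_vertex z.1 hδ
  have h2 := h1 H z.1 (fun g h3 h4 => ⟨h3, h4⟩) g
  by_cases hH : g ∈ H
  · exact Or.inl ⟨δ, hδ, fun g' hg' => (h2 g' hg hg').1 hH⟩
  · exact Or.inr ⟨δ, hδ, fun g' hg' h3 => hH ((h2 g' hg hg').2 h3)⟩

theorem Hyp.bd_infinite (h : Hyp T) (hs : Sp T o) {a b : Zt G o} {H : Set G} (ha : In o a.1 H)
    (hb : In o b.1 Hᶜ) : (bd T H).Infinite := by
  intro hfin
  rcases h.oneEnd H hfin with h1 | h1
  · exact ha.infinite hs h1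
  · exact hb.infinite hs h1

theorem Cut.compl {r : Y} {H : Set G} (h : Cut T o r H) : Cut T o r Hᶜ := by
  intro ε hε
  have := h ε hε
  unfold Res at this ⊢
  rwa [bd_compl]

theorem Cut.smul (hs : Sp T o) (g : G) {r : Y} {H : Set G} (h : Cut T o (g • r) H) :
    Cut T o r {x | g * x ∈ H} := by
  intro ε hε
  obtain ⟨δ, hδ, h2⟩ :=
    Metric.continuousAt_iff.1 ((hs.cont g⁻¹).continuousAt (x := g • r)) ε hε
  refine ((h δ hδ).preimage (mul_right_injective g).injOn).subset ?_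
  rintro x ⟨hx, hd⟩
  refine ⟨(mem_bd_preimage g H x).1 hx, ?_⟩
  by_contra hlt
  have := h2 (not_le.1 hlt)
  simp only [mul_smul, inv_smul_smul] at this
  exact hd.not_gt this

theorem Cut.in_or (hs : Sp T o) {r : Y} {H : Set G} (h : Cut T o r H) {z : Zt G o}
    (hz : z.1 ≠ r) : In o z.1 H ∨ In o z.1 Hᶜ := by
  have hc := half_pos (dist_pos.2 hz)
  refine in_or_in hs hc ((h _ hc).subset ?_)
  rintro g ⟨h1, h2⟩
  exact ⟨h1, by linarith [dist_triangle_left z.1 r (g • o)]⟩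

/-- majority sets have the same interior. -/
theorem W.in_two (h : W T o) {τ : Fin 3 → Zt G o} (hτ : Function.Injective τ) {z : Zt G o}
    {A : Zt G o → Prop} {δ : ℝ} (hδ : 0 < δ) (hA : ∀ z' : Zt G o, dist z'.1 z.1 < δ → A z') :
    In o z.1 {x | Two τ x A} := by
  obtain ⟨F, hF, h1⟩ := h.conv.triple hτ (half_pos hδ)
  obtain ⟨ε, hε, h2⟩ := z.away hF
  refine ⟨min ε (δ / 2), lt_min hε (half_pos hδ), fun g hg => ?_⟩
  refine (h1 g fun hgF => (h2 g hgF).not_gt (hg.trans_le (min_le_left _ _))).mono fun z' hz' => ?_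
  exact hA z' (by linarith [dist_triangle z'.1 (g • o) z.1, hg.trans_le (min_le_right _ _)])

theorem W.in_not_two (h : W T o) {τ : Fin 3 → Zt G o} (hτ : Function.Injective τ) {z : Zt G o}
    {A : Zt G o → Prop} {δ : ℝ} (hδ : 0 < δ) (hA : ∀ z' : Zt G o, dist z'.1 z.1 < δ → ¬ A z') :
    In o z.1 {x | Two τ x A}ᶜ := by
  exact (h.in_two hτ hδ hA).mono fun x hx => two_not_iff.1 hx

/-- two cuts facing away from each other have finite intersection. -/
theorem W.cross (h : W T o) {r r' : Zt G o} {H H' : Set G} (hH : Cut T o r.1 H)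
    (hH' : Cut T o r'.1 H') (h1 : In o r.1 H'ᶜ) (h2 : In o r'.1 Hᶜ) : (H ∩ H').Finite := by
  obtain ⟨ε, hε, h1'⟩ := h1
  obtain ⟨ε', hε', h2'⟩ := h2
  have hE : ((bd T H ∩ H') ∪ (bd T H' ∩ H)).Finite :=
    ((hH ε hε).subset fun g hg => ⟨hg.1, not_lt.1 fun hl => h1' g hl hg.2⟩).union
      ((hH' ε' hε').subset fun g hg => ⟨hg.1, not_lt.1 fun hl => h2' g hl hg.2⟩)
  have key : ∀ u v, Adj T u v → u ∈ H ∩ H' → v ∉ H ∩ H' →
      u ∈ (bd T H ∩ H') ∪ (bd T H' ∩ H) := by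
    intro u v huv hu hv
    by_cases hvH : v ∈ H
    · exact Or.inr ⟨⟨v, huv, fun e => hv ⟨hvH, e.1 hu.2⟩⟩, hu.1⟩
    · exact Or.inl ⟨⟨v, huv, fun e => hvH (e.1 hu.1)⟩, hu.2⟩
  have hb : (bd T (H ∩ H')).Finite := by
    refine (nbhd_finite (T := T) 1 hE).subset ?_
    rintro g ⟨b, hgb, hne⟩
    by_cases hg : g ∈ H ∩ H'
    · exact ⟨g, key g b hgb hg fun hb => hne ⟨fun _ => hb, fun _ => hg⟩, Near.refl 1 g⟩
    · have hb : b ∈ H ∩ H' := by
        by_contra hb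
        exact hne ⟨fun h => (hg h).elim, fun h => (hb h).elim⟩
      exact ⟨b, key b g (hgb.symm h.hyp.symm) hb hg, hgb.near⟩
  refine (h.hyp.oneEnd _ hb).resolve_right fun hf => ?_
  exact In.infinite h.sp (z := r) ⟨ε, hε, h1'⟩ (hf.subset fun g hg hg' => hg hg'.2)

theorem ApiAux.ne_of_in (h : W T o) {r a b : Zt G o} {H : Set G} (hH : Cut T o r.1 H)
    (ha : In o a.1 H) (hb : In o b.1 Hᶜ) : a ≠ r ∧ b ≠ r := by
  have key : ∀ K : Set G, Cut T o r.1 K → In o r.1 K → (bd T K).Finite := by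
    intro K hK hr
    obtain ⟨ρ, hρ, hf⟩ := hr.bd_finite h.sp h.hyp.symm
    refine (hf.union (hK ρ hρ)).subset fun g hg => ?_
    rcases lt_or_ge (dist (g • o) r.1) ρ with h' | h'
    exacts [Or.inl ⟨hg, h'⟩, Or.inr ⟨hg, h'⟩]
  have hi := h.hyp.bd_infinite h.sp ha hb
  refine ⟨fun e => hi (key H hH (e ▸ ha)), fun e => hi ?_⟩
  rw [← bd_compl]
  exact key Hᶜ hH.compl (e ▸ hb)

/-- a side of a fixed cut is convex. -/
theorem W.not_sep_of_in (h : W T o) {r y a z : Zt G o} {H : Set G} (hH : Cut T o r.1 H)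
    (hy : In o y.1 Hᶜ) (ha : In o a.1 H) (hz : In o z.1 H) : ¬ Sep T y a z := by
  rintro ⟨-, -, H', hc, ha', hz'⟩
  have hne : r.1 ≠ y.1 := fun e => (ApiAux.ne_of_in h hH ha hy).2 (Subtype.ext e.symm)
  rcases hc.in_or h.sp hne with hr | hr
  · exact (hz.inter hz').infinite h.sp (h.cross hH hc.compl (by rwa [compl_compl]) hy)
  · exact (ha.inter ha').infinite h.sp (h.cross hH hc hr hy)

theorem W.ne_of_in (h : W T o) {r a b : Zt G o} {H : Set G} (hH : Cut T o r.1 H)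
    (ha : In o a.1 H) (hb : In o b.1 Hᶜ) : a ≠ r ∧ b ≠ r := by
  exact ApiAux.ne_of_in h hH ha hb

/-! ### lines -/

theorem Line.thick (hs : Sp T o) (hT : Symm T) {a b : Zt G o} {L : Set G} (hL : Line T a b L)
    (Φ : ℕ) {ε : ℝ} (hε : 0 < ε) :
    {g : G | (∃ x ∈ L, Near T Φ x g) ∧ ε ≤ dist (g • o) a.1 ∧ ε ≤ dist (g • o) b.1}.Finite := by
  have h1 := hs.shrink_near Φ (half_pos hε)
  have h2 := hL.2.1 (ε / 2) (half_pos hε)
  refine (nbhd_finite (T := T) Φ (h1.union h2)).subset ?_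
  rintro g ⟨⟨x, hx, hxg⟩, ha, hb⟩
  refine ⟨x, ?_, hxg.symm hT⟩
  rcases le_or_gt (ε / 2) (dist (x • o) (g • o)) with h' | h'
  · exact Or.inl ⟨g, hxg, h'⟩
  · refine Or.inr ⟨hx, ?_, ?_⟩
    · linarith [dist_triangle_left (g • o) a.1 (x • o)]
    · linarith [dist_triangle_left (g • o) b.1 (x • o)]

/-- the parity contradiction. -/
theorem W.parity (h : W T o) {a b : Zt G o} {L H H' : Set G} (hL : Line T a b L)
    (ha : In o a.1 H) (hb : In o b.1 Hᶜ) (hH' : (bd T H').Finite)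
    (he : ∀ x ∈ L, ∀ y ∈ L, Adj T x y → ((x ∈ H' ↔ y ∈ H') ↔ (x ∈ H ↔ y ∈ H))) : False := by
  obtain ⟨E, hE, hE'⟩ : ∃ E : Set G, E.Finite ∧ ∀ x y, x ∉ E → y ∉ E → (x ∈ H' ↔ y ∈ H') := by
    rcases h.hyp.oneEnd _ hH' with h1 | h1
    · exact ⟨H', h1, fun x y hx hy => iff_of_false hx hy⟩
    · exact ⟨H'ᶜ, h1, fun x y hx hy => iff_of_true (not_not.1 hx) (not_not.1 hy)⟩
  obtain ⟨ε, hε, h1⟩ := a.away hE
  obtain ⟨ε', hε', h1'⟩ := b.away hE
  obtain ⟨ρ, hρ, h2⟩ := ha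
  obtain ⟨ρ', hρ', h2'⟩ := hb
  obtain ⟨x, hx, hxa⟩ := hL.2.2.1 _ (lt_min hε hρ)
  obtain ⟨y, hy, hyb⟩ := hL.2.2.2 _ (lt_min hε' hρ')
  have e1 := hE' x y (fun hx => (h1 x hx).not_gt (hxa.trans_le (min_le_left _ _)))
    fun hy => (h1' y hy).not_gt (hyb.trans_le (min_le_left _ _))
  have e2 : x ∈ H := h2 x (hxa.trans_le (min_le_right _ _))
  have e3 : y ∉ H := h2' y (hyb.trans_le (min_le_right _ _))
  have e4 := (hL.1 x hx y hy).const (fun g => (g ∈ H' ↔ g ∈ H)) fun u hu v hv huv => by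
    have := he u hu v hv huv
    apply propext
    tauto
  have e5 : (x ∈ H' ↔ x ∈ H) ↔ (y ∈ H' ↔ y ∈ H) := Iff.of_eq e4
  tauto

/-! ### the pretree -/

theorem Sep.symm {r a b : Zt G o} (h : Sep T r a b) : Sep T r b a := by
  obtain ⟨ha, hb, H, hc, h1, h2⟩ := h
  exact ⟨hb, ha, Hᶜ, hc.compl, h2, by rwa [compl_compl]⟩

theorem Sep.btw {r a b : Zt G o} (h : Sep T r a b) : Btw T a r b := Or.inr (Or.inr h)

theorem W.sep_ne (h : W T o) {r a b : Zt G o} (hs : Sep T r a b) : a ≠ b := by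
  obtain ⟨-, -, H, -, h1, h2⟩ := hs
  rintro rfl
  exact h1.not_compl h.sp h2

theorem W.sep_or (h : W T o) {r a b : Zt G o} (hs : Sep T r a b) {c : Zt G o} (hc : c ≠ r) :
    Sep T r a c ∨ Sep T r c b := by
  obtain ⟨ha, hb, H, hH, h1, h2⟩ := hs
  rcases hH.in_or h.sp (z := c) (fun e => hc (Subtype.ext e)) with h3 | h3
  · exact Or.inr ⟨hc, hb, H, hH, h3, h2⟩
  · exact Or.inl ⟨ha, hc, H, hH, h1, h3⟩

theorem W.sep_asymm (h : W T o) {r a b : Zt G o} (hs : Sep T r a b) : ¬ Sep T b a r := by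
  obtain ⟨-, -, H, hH, h1, h2⟩ := hs
  rintro ⟨-, -, H', hH', h1', h2'⟩
  exact (h1.inter h1').infinite h.sp (h.cross hH hH' h2' h2)

theorem W.sep_smul (h : W T o) (g : G) {r a b : Zt G o} :
    Sep T (g • r) (g • a) (g • b) ↔ Sep T r a b := by
  have key : ∀ (g : G) (r a b : Zt G o), Sep T (g • r) (g • a) (g • b) → Sep T r a b := by
    rintro g r a b ⟨ha, hb, H, hH, h1, h2⟩
    exact ⟨fun e => ha (e ▸ rfl), fun e => hb (e ▸ rfl), {x | g * x ∈ H}, Cut.smul h.sp g hH,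
      (in_smul h.sp g).1 h1, (in_smul h.sp g).1 h2⟩
  refine ⟨key g r a b, fun h' => key g⁻¹ _ _ _ ?_⟩
  rwa [inv_smul_smul, inv_smul_smul, inv_smul_smul]

theorem W.btw_smul (h : W T o) (g : G) {r a b : Zt G o} :
    Btw T (g • a) (g • r) (g • b) ↔ Btw T a r b := by
  unfold Btw
  rw [h.sep_smul, smul_left_cancel_iff, smul_left_cancel_iff]

theorem W.isCP_smul (h : W T o) (g : G) {r : Zt G o} (hr : IsCP T r) : IsCP T (g • r) := by
  obtain ⟨a, b, hs⟩ := hr
  exact ⟨g • a, g • b, (h.sep_smul g).2 hs⟩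

theorem W.core_smul (h : W T o) (g : G) {a a' b b' v : Zt G o} :
    g • v ∈ Core T (g • a) (g • a') (g • b) (g • b') ↔ v ∈ Core T a a' b b' := by
  exact and_congr (h.btw_smul g) (and_congr (h.btw_smul g)
    (and_congr (h.btw_smul g) (h.btw_smul g)))

theorem btw_left (a b : Zt G o) : Btw T a a b := Or.inl rfl

theorem btw_right (a b : Zt G o) : Btw T a b b := Or.inr (Or.inl rfl)

theorem Btw.symm {a r b : Zt G o} (h : Btw T a r b) : Btw T b r a := by
  rcases h with h | h | h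
  exacts [Or.inr (Or.inl h), Or.inl h, h.symm.btw]

theorem Btw.sep {a r b : Zt G o} (h : Btw T a r b) (ha : r ≠ a) (hb : r ≠ b) : Sep T r a b := by
  exact (h.resolve_left ha).resolve_left hb

theorem W.btw_self (h : W T o) {a r : Zt G o} (h1 : Btw T a r a) : r = a := by
  rcases h1 with h1 | h1 | h1
  exacts [h1, h1, (h.sep_ne h1 rfl).elim]

theorem W.btw_antisymm (h : W T o) {a r b : Zt G o} (h1 : Btw T a r b) (h2 : Btw T a b r) :
    r = b := by
  rcases h1 with rfl | h1 | h1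
  · exact (h.btw_self h2).symm
  · exact h1
  · rcases h2 with h2 | h2 | h2
    exacts [(h.sep_ne h1 h2.symm).elim, h2.symm, (h.sep_asymm h1 h2).elim]

theorem W.btw_or (h : W T o) {a r b : Zt G o} (h1 : Btw T a r b) (c : Zt G o) :
    Btw T a r c ∨ Btw T c r b := by
  rcases h1 with h1 | h1 | h1
  · exact Or.inl (Or.inl h1)
  · exact Or.inr (Or.inr (Or.inl h1))
  · by_cases hc : c = r
    · exact Or.inl (Or.inr (Or.inl hc.symm))
    · exact (h.sep_or h1 hc).imp Sep.btw Sep.btw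

theorem W.btw_trans (h : W T o) {a r b c : Zt G o} (h1 : Btw T a r b) (h2 : Btw T a b c) :
    Btw T a r c := by
  refine (h.btw_or h1 c).elim id fun h3 => ?_
  rcases h.btw_or h2 r with h4 | h4
  · rwa [h.btw_antisymm h1 h4]
  · rwa [h.btw_antisymm h3 h4.symm]

theorem W.btw_trans' (h : W T o) {a r b c : Zt G o} (h1 : Btw T a r b) (h2 : Btw T a b c) :
    Btw T r b c := by
  refine (h.btw_or h2 r).elim (fun h3 => ?_) id
  rw [h.btw_antisymm h1 h3]
  exact btw_left _ _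

theorem W.btw_total (h : W T o) {a r s b : Zt G o} (h1 : Btw T a r b) (h2 : Btw T a s b) :
    Btw T a r s ∨ Btw T a s r := by
  refine (h.btw_or h1 s).elim Or.inl fun h3 => (h.btw_or h2 r).elim Or.inr fun h4 => ?_
  rw [h.btw_antisymm h3.symm h4.symm]
  exact Or.inl (btw_right _ _)

theorem W.btw_extend (h : W T o) {a r b c : Zt G o} (h1 : Btw T a r b) (h2 : Btw T r b c)
    (hne : r ≠ b) : Btw T a r c ∧ Btw T a b c := by
  have h3 : Btw T a b c :=
    (h.btw_or h2 a).resolve_left fun h4 => hne (h.btw_antisymm h1 h4.symm)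
  exact ⟨h.btw_trans h1 h3, h3⟩

theorem W.btw_convex (h : W T o) {a b u v w : Zt G o} (hu : Btw T a u b) (hv : Btw T a v b)
    (hw : Btw T u w v) : Btw T a w b := by
  exact (h.btw_or hw a).elim (fun h1 => h.btw_trans h1.symm hu) fun h1 => h.btw_trans h1 hv

/-- betweenness is given by the order from `a`. -/
theorem W.btw_order (h : W T o) {a u v w : Zt G o} (huv : Btw T a u v) :
    Btw T u w v ↔ Btw T a u w ∧ Btw T a w v := by
  exact ⟨fun hw => ⟨(h.btw_trans' hw.symm huv.symm).symm,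
    h.btw_convex huv (btw_right _ _) hw⟩, fun hw => h.btw_trans' hw.1 hw.2⟩

theorem W.core_convex (h : W T o) {a a' b b' u v w : Zt G o} (hu : u ∈ Core T a a' b b')
    (hv : v ∈ Core T a a' b b') (hw : Btw T u w v) : w ∈ Core T a a' b b' := by
  exact ⟨h.btw_convex hu.1 hv.1 hw, h.btw_convex hu.2.1 hv.2.1 hw,
    h.btw_convex hu.2.2.1 hv.2.2.1 hw, h.btw_convex hu.2.2.2 hv.2.2.2 hw⟩

/-- the boundary of a majority set of a tame triple is cocompact for the stabiliser. -/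
theorem W.stab_bd (h : W T o) {τ : Fin 3 → Zt G o} (hτ : Tame T τ) (y : Zt G o) :
    ∃ Φ : Set G, Φ.Finite ∧ ∀ x x' : G, Adj T x x' → (∃ i j, Btw T (x • τ i) y (x' • τ j)) →
      ∃ c : G, c • y = y ∧ c⁻¹ * x ∈ Φ := by
  have hJ : (⋃ i : Fin 3, ⋃ j : Fin 3, ⋃ t ∈ T, {r | Btw T (τ i) r (t • τ j)}).Finite := by
    refine finite_iUnion fun i => finite_iUnion fun j => T.finite_toSet.biUnion fun t _ => ?_
    refine (((hτ.2 t i j).insert (t • τ j)).insert (τ i)).subset fun r hr => ?_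
    exact hr
  have hφ : ∀ r : Zt G o, ∃ c : G, (∃ g : G, g • r = y) → c • r = y := fun r => by
    by_cases hr : ∃ g : G, g • r = y
    · obtain ⟨g, hg⟩ := hr
      exact ⟨g, fun _ => hg⟩
    · exact ⟨1, fun h' => (hr h').elim⟩
  choose φ hφ using hφ
  refine ⟨φ '' _, hJ.image φ, ?_⟩
  rintro x x' hxx ⟨i, j, hb⟩
  obtain ⟨t, ht, rfl⟩ := adj_iff.1 hxx
  have h1 := hφ (x⁻¹ • y) ⟨x, smul_inv_smul x y⟩
  refine ⟨x * (φ (x⁻¹ • y))⁻¹, ?_, x⁻¹ • y, ?_, ?_⟩
  · rw [mul_smul, inv_smul_eq_iff.2 h1.symm, smul_inv_smul]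
  · simp only [mem_iUnion]
    refine ⟨i, j, t, ht, (h.btw_smul x).1 ?_⟩
    rwa [smul_inv_smul, ← mul_smul]
  · rw [mul_inv_rev, inv_inv, inv_mul_cancel_right]

/-- an edge crossing the majority set of a cut at `y`. -/
theorem W.btw_of_cross (h : W T o) {τ : Fin 3 → Zt G o} (hτ : Function.Injective τ) {y : Zt G o}
    {H : Set G} (hH : Cut T o y.1 H) {x x' : G}
    (hx : ¬ (Two τ x (fun z => In o z.1 H) ↔ Two τ x' fun z => In o z.1 H)) :
    ∃ i j, Sep T y (x • τ i) (x' • τ j) := by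
  have pick : ∀ (x : G) (A : Zt G o → Prop), Two τ x A → ∃ i, x • τ i ≠ y ∧ A (x • τ i) := by
    rintro x A ⟨i, j, hij, hi, hj⟩
    by_cases e : x • τ i = y
    · refine ⟨j, fun e' => hij (hτ ?_), hj⟩
      exact (smul_left_cancel_iff x).1 (e.trans e'.symm)
    · exact ⟨i, e, hi⟩
  have key : ∀ x x' : G, Two τ x (fun z => In o z.1 H) → ¬ Two τ x' (fun z => In o z.1 H) →
      ∃ i j, Sep T y (x • τ i) (x' • τ j) := by
    intro x x' h1 h2
    obtain ⟨i, hi, hi'⟩ := pick x _ h1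
    obtain ⟨j, hj, hj'⟩ := pick x' _ (two_not_iff.2 h2)
    exact ⟨i, j, hi, hj, H, hH, hi',
      (hH.in_or h.sp fun e => hj (Subtype.ext e)).resolve_left hj'⟩
  by_cases h1 : Two τ x fun z => In o z.1 H
  · exact key x x' h1 fun h2 => hx (iff_of_true h1 h2)
  · obtain ⟨i, j, hs⟩ := key x' x (by_contra fun h2 => hx (iff_of_false h1 h2)) h1
    exact ⟨j, i, hs.symm⟩

end Crest.Agent.R224
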