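import Crest.Agent.R224.Defs

/-! Row 224: basic lemmas on Cayley graphs and consequences of `Fill`. -/

namespace Crest.Agent.R224

open Crest.Agent.Lib.KyFan Set Filter Topology
open scoped Pointwise

variable {G : Type} [Group G] {T : Finset G}

theorem adj_iff {a b : G} : Adj T a b ↔ ∃ t ∈ T, b = a * t := by
  constructor
  · intro h; exact ⟨_, h, by simp⟩
  · rintro ⟨t, ht, rfl⟩; simpa [Adj] using ht

theorem adj_mul {t : G} (ht : t ∈ T) (a : G) : Adj T a (a * t) := by
  simpa [Adj] using ht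

theorem Adj.symm (hT : Symm T) {a b : G} (h : Adj T a b) : Adj T b a := by
  have := hT _ h
  simpa [Adj] using this

theorem adj_mul_left (g : G) {a b : G} : Adj T (g * a) (g * b) ↔ Adj T a b := by
  simp [Adj, mul_assoc]

theorem adj_finite (a : G) : {b | Adj T a b}.Finite := by
  refine (T.finite_toSet.image fun t => a * t).subset fun b hb => ?_
  obtain ⟨t, ht, rfl⟩ := adj_iff.1 hb
  exact ⟨t, ht, rfl⟩

theorem Bl_zero : Bl T 0 = {1} := by
  rw [Bl, pow_zero]; rfl

theorem Bl_succ (n : ℕ) : Bl T (n + 1) = Bl T n * insert 1 (T : Set G) := by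
  rw [Bl, pow_succ]; rfl

theorem Bl_finite (T : Finset G) (n : ℕ) : (Bl T n).Finite := by
  induction n with
  | zero => rw [Bl_zero]; exact finite_singleton _
  | succ n ih => rw [Bl_succ]; exact ih.mul (T.finite_toSet.insert _)

theorem one_mem_Bl (n : ℕ) : (1 : G) ∈ Bl T n := by
  exact Set.one_mem_pow (mem_insert _ _)

theorem Bl_mono {m n : ℕ} (h : m ≤ n) : Bl T m ⊆ Bl T n := by
  exact Set.pow_subset_pow_right (mem_insert _ _) h

theorem mul_mem_Bl {m n : ℕ} {a b : G} (ha : a ∈ Bl T m) (hb : b ∈ Bl T n) :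
    a * b ∈ Bl T (m + n) := by
  rw [Bl, pow_add]
  exact Set.mul_mem_mul ha hb

theorem inv_mem_Bl (hT : Symm T) {n : ℕ} {a : G} (ha : a ∈ Bl T n) : a⁻¹ ∈ Bl T n := by
  induction n generalizing a with
  | zero =>
    rw [Bl_zero] at ha ⊢
    simpa using ha
  | succ n ih =>
    rw [Bl_succ] at ha
    obtain ⟨x, hx, y, hy, rfl⟩ := ha
    have hy' : y⁻¹ ∈ Bl T 1 := by
      rw [Bl, pow_one]
      rcases hy with rfl | hy
      · simp
      · exact Or.inr (hT y hy)
    have := mul_mem_Bl hy' (ih hx)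
    rw [add_comm] at this
    simpa using this

theorem mem_Bl_one {t : G} (ht : t ∈ T) : t ∈ Bl T 1 := by
  rw [Bl, pow_one]; exact Or.inr ht

theorem Bl_subset_closure (n : ℕ) : Bl T n ⊆ Subgroup.closure (T : Set G) := by
  induction n with
  | zero => rw [Bl_zero]; rintro _ rfl; exact one_mem _
  | succ n ih =>
    rw [Bl_succ]
    rintro _ ⟨x, hx, y, hy, rfl⟩
    refine mul_mem (ih hx) ?_
    rcases hy with rfl | hy
    exacts [one_mem _, Subgroup.subset_closure hy]

theorem exists_mem_Bl (hT : Symm T) {a : G} (ha : a ∈ Subgroup.closure (T : Set G)) :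
    ∃ n, a ∈ Bl T n := by
  induction ha using Subgroup.closure_induction with
  | mem x hx => exact ⟨1, mem_Bl_one hx⟩
  | one => exact ⟨0, one_mem_Bl 0⟩
  | mul x y _ _ hx hy =>
    obtain ⟨m, hm⟩ := hx
    obtain ⟨n, hn⟩ := hy
    exact ⟨m + n, mul_mem_Bl hm hn⟩
  | inv x _ hx =>
    obtain ⟨m, hm⟩ := hx
    exact ⟨m, inv_mem_Bl hT hm⟩

theorem exists_subset_Bl (hT : Symm T) {F : Set G} (hF : F.Finite)
    (h : F ⊆ Subgroup.closure (T : Set G)) : ∃ n, F ⊆ Bl T n := by
  induction F, hF using Set.Finite.induction_on with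
  | empty => exact ⟨0, empty_subset _⟩
  | insert _ _ ih =>
    obtain ⟨m, hm⟩ := exists_mem_Bl hT (h (mem_insert _ _))
    obtain ⟨n, hn⟩ := ih ((subset_insert _ _).trans h)
    exact ⟨max m n, insert_subset (Bl_mono (le_max_left _ _) hm)
      (hn.trans (Bl_mono (le_max_right _ _)))⟩

theorem countable_of_gen (h : Subgroup.closure (T : Set G) = ⊤) : Countable G := by
  have := T.finite_toSet.countable.to_subtype
  have h1 : Function.Surjective (FreeGroup.lift (fun t : (T : Set G) => (t : G))) := by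
    rw [← MonoidHom.range_eq_top, FreeGroup.range_lift_eq_closure, Subtype.range_coe, h]
  exact h1.countable

theorem Near.refl (n : ℕ) (a : G) : Near T n a a := by
  rw [Near, inv_mul_cancel]; exact one_mem_Bl n

theorem Near.symm (hT : Symm T) {n : ℕ} {a b : G} (h : Near T n a b) : Near T n b a := by
  have := inv_mem_Bl hT h
  simpa [Near] using this

theorem Near.trans {m n : ℕ} {a b c : G} (h : Near T m a b) (h' : Near T n b c) :
    Near T (m + n) a c := by
  have := mul_mem_Bl h h'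
  simpa [Near, mul_assoc] using this

theorem Near.mono {m n : ℕ} {a b : G} (h : Near T m a b) (hmn : m ≤ n) : Near T n a b := by
  exact Bl_mono hmn h

theorem near_mul_left (g : G) {n : ℕ} {a b : G} : Near T n (g * a) (g * b) ↔ Near T n a b := by
  simp [Near, mul_assoc]

theorem Adj.near {a b : G} (h : Adj T a b) : Near T 1 a b := by
  exact mem_Bl_one h

theorem near_finite (n : ℕ) (a : G) : {b | Near T n a b}.Finite := by
  refine ((Bl_finite T n).image fun t => a * t).subset fun b hb => ?_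
  exact ⟨_, hb, by simp⟩

theorem near_finite' (n : ℕ) (b : G) : {a | Near T n a b}.Finite := by
  refine ((Bl_finite T n).image fun t => b * t⁻¹).subset fun a ha => ?_
  exact ⟨_, ha, by simp⟩

/-- the `n`-neighbourhood of a finite set is finite. -/
theorem nbhd_finite (n : ℕ) {F : Set G} (hF : F.Finite) : {a | ∃ s ∈ F, Near T n a s}.Finite := by
  refine (hF.biUnion fun s _ => near_finite' (T := T) n s).subset ?_
  rintro a ⟨s, hs, h⟩
  exact mem_biUnion hs h

theorem smallG_finite (r n : ℕ) {F : Set G} (hF : F.Finite) :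
    {l : List G | l.length ≤ n ∧ SmallG T r l ∧ ∃ a ∈ l, a ∈ F}.Finite := by
  have h1 : (⋃ s ∈ F, {b | Near T r s b}).Finite := hF.biUnion fun s _ => near_finite r s
  have := h1.to_subtype
  refine ((List.finite_length_le (⋃ s ∈ F, {b | Near T r s b}) n).image
    (List.map Subtype.val)).subset ?_
  rintro l ⟨hl, hs, a, ha, haF⟩
  refine ⟨l.attachWith (· ∈ ⋃ s ∈ F, {b | Near T r s b})
    (fun b hb => mem_biUnion haF (hs a ha b hb)), by simpa using hl, by simp⟩

theorem SmallG.mono {r r' : ℕ} {l : List G} (h : SmallG T r l) (hr : r ≤ r') : SmallG T r' l := by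
  exact fun a ha b hb => (h a ha b hb).mono hr

theorem bd_compl (H : Set G) : bd T Hᶜ = bd T H := by
  ext a
  simp only [bd, mem_ofPred_eq, mem_compl_iff, not_iff_not]

theorem mem_bd_symm (hT : Symm T) {H : Set G} {a b : G} (h : Adj T a b)
    (hab : ¬ (a ∈ H ↔ b ∈ H)) : a ∈ bd T H ∧ b ∈ bd T H := by
  exact ⟨⟨b, h, hab⟩, ⟨a, h.symm hT, fun h' => hab h'.symm⟩⟩

/-- the boundary of a translate. -/
theorem mem_bd_preimage (g : G) (H : Set G) (a : G) :
    a ∈ bd T {x | g * x ∈ H} ↔ g * a ∈ bd T H := by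
  constructor
  · rintro ⟨b, hb, h⟩
    exact ⟨g * b, (adj_mul_left g).2 hb, h⟩
  · rintro ⟨b, hb, h⟩
    refine ⟨g⁻¹ * b, (adj_mul_left g).1 (by simpa using hb), ?_⟩
    simpa using h

theorem bd_finite_of_finite (hT : Symm T) {H : Set G} (h : H.Finite) : (bd T H).Finite := by
  refine (h.union (h.biUnion fun b _ => adj_finite (T := T) b)).subset ?_
  rintro a ⟨b, hb, hab⟩
  by_cases ha : a ∈ H
  · exact Or.inl ha
  · have hb' : b ∈ H := by tauto
    exact Or.inr (mem_biUnion hb' (hb.symm hT))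

theorem Path.refl {Q : Set G} {a : G} (h : a ∈ Q) : Path T Q a a := by
  exact ⟨h, Relation.ReflTransGen.refl⟩

theorem Path.left {Q : Set G} {a b : G} (h : Path T Q a b) : a ∈ Q := h.1

theorem Path.right {Q : Set G} {a b : G} (h : Path T Q a b) : b ∈ Q := by
  obtain ⟨ha, h⟩ := h
  induction h with
  | refl => exact ha
  | tail _ h _ => exact h.1

theorem Path.trans {Q : Set G} {a b c : G} (h : Path T Q a b) (h' : Path T Q b c) :
    Path T Q a c := by
  exact ⟨h.1, h.2.trans h'.2⟩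

theorem Path.tail {Q : Set G} {a b c : G} (h : Path T Q a b) (h' : Adj T b c) (hc : c ∈ Q) :
    Path T Q a c := by
  exact ⟨h.1, h.2.tail ⟨hc, h'⟩⟩

theorem Path.symm (hT : Symm T) {Q : Set G} {a b : G} (h : Path T Q a b) : Path T Q b a := by
  obtain ⟨ha, h⟩ := h
  induction h with
  | refl => exact Path.refl ha
  | tail h1 h2 ih => exact ((Path.refl h2.1).tail (h2.2.symm hT) ih.1).trans ih

theorem Path.mono {Q Q' : Set G} {a b : G} (h : Path T Q a b) (hQ : Q ⊆ Q') : Path T Q' a b := by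
  obtain ⟨ha, h⟩ := h
  induction h with
  | refl => exact Path.refl (hQ ha)
  | tail h1 h2 ih => exact ih.tail h2.2 (hQ h2.1)

theorem Path.mul_left (g : G) {Q : Set G} {a b : G} (h : Path T Q a b) :
    Path T {x | g⁻¹ * x ∈ Q} (g * a) (g * b) := by
  obtain ⟨ha, h⟩ := h
  induction h with
  | refl => exact Path.refl (by simpa using ha)
  | tail h1 h2 ih => exact ih.tail ((adj_mul_left g).2 h2.2) (by simpa using h2.1)

/-- a path from `a` lies in the set of points reachable from `a`. -/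
theorem Path.reach {Q : Set G} {a b : G} (h : Path T Q a b) :
    Path T {c | Path T Q a c} a b := by
  obtain ⟨ha, h⟩ := h
  induction h with
  | refl => exact Path.refl (Path.refl ha)
  | tail h1 h2 ih => exact ih.tail h2.2 ⟨ha, h1.tail h2⟩

/-- a path lies in a finite connected set. -/
theorem Path.exists_finite (hT : Symm T) {Q : Set G} {a b : G} (h : Path T Q a b) :
    ∃ F : Set G, F.Finite ∧ F ⊆ Q ∧ a ∈ F ∧ b ∈ F ∧ Conn T F := by
  obtain ⟨ha, h⟩ := h
  induction h with
  | refl =>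
    refine ⟨{a}, finite_singleton _, singleton_subset_iff.2 ha, rfl, rfl, ?_⟩
    intro x hx y hy
    rw [mem_singleton_iff.1 hx, mem_singleton_iff.1 hy]
    exact Path.refl (Q := {a}) (mem_singleton a)
  | @tail b c h1 h2 ih =>
    obtain ⟨F, hF, hFQ, haF, hbF, hc⟩ := ih
    have key : ∀ x ∈ insert c F, Path T (insert c F) b x := by
      rintro x (rfl | hx)
      · exact (Path.refl (mem_insert_of_mem _ hbF)).tail h2.2 (mem_insert _ _)
      · exact (hc b hbF x hx).mono (subset_insert _ _)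
    exact ⟨insert c F, hF.insert _, insert_subset h2.1 hFQ, Or.inr haF, Or.inl rfl,
      fun x hx y hy => ((key x hx).symm hT).trans (key y hy)⟩

/-- a path between the two sides of `H` crosses the boundary. -/
theorem Path.exists_cross {Q H : Set G} {a b : G} (h : Path T Q a b) (hab : ¬ (a ∈ H ↔ b ∈ H)) :
    ∃ x ∈ Q, ∃ y ∈ Q, Adj T x y ∧ ¬ (x ∈ H ↔ y ∈ H) := by
  obtain ⟨ha, h⟩ := h
  induction h with
  | refl => exact absurd Iff.rfl hab
  | @tail b c h1 h2 ih =>
    by_cases hb : (a ∈ H ↔ b ∈ H)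
    · exact ⟨b, Path.right ⟨ha, h1⟩, c, h2.1, h2.2, fun h' => hab (hb.trans h')⟩
    · exact ih hb

theorem Path.const {Q : Set G} {a b : G} {α : Type} (f : G → α) (h : Path T Q a b)
    (hf : ∀ x ∈ Q, ∀ y ∈ Q, Adj T x y → f x = f y) : f a = f b := by
  obtain ⟨ha, h⟩ := h
  induction h with
  | refl => rfl
  | tail h1 h2 ih => exact ih.trans (hf _ (Path.right ⟨ha, h1⟩) _ h2.1 h2.2)

theorem conn_univ (hT : Symm T) (hg : Subgroup.closure (T : Set G) = ⊤) : Conn T univ := by
  have key : ∀ g : G, Path T univ 1 g := by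
    intro g
    have hg' : g ∈ Subgroup.closure (T : Set G) := hg ▸ Subgroup.mem_top g
    induction hg' using Subgroup.closure_induction_right with
    | one => exact Path.refl trivial
    | mul_right x _ y hy ih => exact ih.tail (adj_mul hy x) trivial
    | mul_inv_cancel x _ y hy ih => exact ih.tail (adj_mul (hT y hy) x) trivial
  exact fun a _ b _ => ((key a).symm hT).trans (key b)

theorem Near.path (hT : Symm T) {n : ℕ} {a b : G} (h : Near T n a b) :
    Path T {c | Near T n a c} a b := by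
  induction n generalizing b with
  | zero =>
    rw [Near, Bl_zero, mem_singleton_iff, inv_mul_eq_one] at h
    subst h
    exact Path.refl (Near.refl _ _)
  | succ n ih =>
    have h' := h
    rw [Near, Bl_succ] at h'
    obtain ⟨x, hx, y, hy, e⟩ := h'
    have hb : b = a * x * y := by rw [mul_assoc, show x * y = a⁻¹ * b from e]; simp
    have h1 : Near T n a (a * x) := by simpa [Near] using hx
    have h2 := (ih h1).mono (Q' := {c | Near T (n + 1) a c}) fun c hc => Near.mono hc (by omega)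
    rcases hy with rfl | hy
    · rwa [hb, mul_one]
    · exact h2.tail (hb ▸ adj_mul hy _) h

theorem Conn.union {Q Q' : Set G} (hQ : Conn T Q) (hQ' : Conn T Q') {x : G} (hx : x ∈ Q)
    (hx' : x ∈ Q') : Conn T (Q ∪ Q') := by
  have k1 : ∀ a ∈ Q ∪ Q', Path T (Q ∪ Q') a x := by
    rintro a (ha | ha)
    exacts [(hQ a ha x hx).mono subset_union_left, (hQ' a ha x hx').mono subset_union_right]
  have k2 : ∀ a ∈ Q ∪ Q', Path T (Q ∪ Q') x a := by
    rintro a (ha | ha)
    exacts [(hQ x hx a ha).mono subset_union_left, (hQ' x hx' a ha).mono subset_union_right]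
  exact fun a ha b hb => (k1 a ha).trans (k2 b hb)

/-- a component of the complement of a connected set: it is connected, has connected complement,
and its boundary lies in the boundary of the set. -/
theorem component_compl (hT : Symm T) (hg : Subgroup.closure (T : Set G) = ⊤) {H : Set G}
    (hH : Conn T H) (hne : H.Nonempty) (a : G) :
    Conn T {c | Path T Hᶜ a c} ∧ Conn T {c | Path T Hᶜ a c}ᶜ ∧
      bd T {c | Path T Hᶜ a c} ⊆ bd T H := by
  have hHC : H ⊆ {c | Path T Hᶜ a c}ᶜ := fun x hx hx' => Path.right hx' hx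
  refine ⟨fun c hc c' hc' => ((Path.reach hc).symm hT).trans (Path.reach hc'), ?_, ?_⟩
  · obtain ⟨h0, hh0⟩ := hne
    have key : ∀ x ∈ {c | Path T Hᶜ a c}ᶜ, Path T {c | Path T Hᶜ a c}ᶜ x h0 := by
      intro x
      have hp := (conn_univ hT hg x trivial h0 trivial).2
      induction hp using Relation.ReflTransGen.head_induction_on with
      | refl => exact fun hx => Path.refl hx
      | @head x y hxy _ ih =>
        intro hx
        by_cases hxH : x ∈ H
        · exact (hH x hxH h0 hh0).mono hHC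
        · have hy : y ∈ {c | Path T Hᶜ a c}ᶜ := fun hy =>
            hx (Path.tail hy (hxy.2.symm hT) hxH)
          exact ((Path.refl hx).tail hxy.2 hy).trans (ih hy)
    exact fun x hx y hy => (key x hx).trans ((key y hy).symm hT)
  · rintro c ⟨b, hb, hcb⟩
    refine ⟨b, hb, fun h => hcb ⟨fun hc => ?_, fun hb' => ?_⟩⟩
    · exact Path.tail hc hb fun hbH => Path.right hc (h.2 hbH)
    · exact Path.tail hb' (hb.symm hT) fun hcH => Path.right hb' (h.1 hcH)

/-- a function to `F2` that is constant along all but finitely many edges is constant off a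
finite set. -/
theorem Hyp.const_off_finite (h : Hyp T) (f : G → F2) {F : Set G} (hF : F.Finite)
    (hf : ∀ a b, Adj T a b → a ∉ F → f a = f b) :
    ∃ E : Set G, E.Finite ∧ ∀ a b, a ∉ E → b ∉ E → f a = f b := by
  have h2 : ∀ x : F2, x ≠ 1 → x = 0 := by decide
  have h1 : (bd T {a | f a = 1}).Finite := by
    refine hF.subset ?_
    rintro a ⟨b, hb, hab⟩
    by_contra ha
    exact hab (by simp only [mem_ofPred_eq, hf a b hb ha])
  rcases h.oneEnd _ h1 with hE | hE
  · exact ⟨_, hE, fun a b ha hb => (h2 _ ha).trans (h2 _ hb).symm⟩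
  · refine ⟨_, hE, fun a b ha hb => ?_⟩
    simp only [mem_compl_iff, not_not, mem_ofPred_eq] at ha hb
    rw [ha, hb]

/-- filling with boundedly many exceptional points. -/
theorem Hyp.fillN (h : Hyp T) : ∃ R0 : ℕ, ∀ N : ℕ, ∃ Φ : ℕ, ∀ (ω : G → G → F2) (S : Set G),
    S.Finite → S.ncard ≤ N → (∀ x, (∀ s ∈ S, ¬ Near T R0 x s) → LocEx T R0 ω x) →
    ∃ f : G → F2, ∀ a b, Adj T a b → (∀ s ∈ S, ¬ Near T Φ a s) → ω a b = f a + f b := by
  classical
  obtain ⟨R0, lam, H⟩ := h.fill
  refine ⟨R0, fun N => ?_⟩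
  obtain ⟨Φ, HΦ⟩ := H (N * lam)
  refine ⟨Φ, fun ω S hS hN hloc => ?_⟩
  have := hS.fintype
  let Γ : SimpleGraph S :=
    { Adj := fun x y => x ≠ y ∧ Near T lam x y
      symm := ⟨fun x y hxy => ⟨hxy.1.symm, hxy.2.symm h.symm⟩⟩
      loopless := ⟨fun x hx => hx.1 rfl⟩ }
  have hw : ∀ (x y : S) (w : Γ.Walk x y), Near T (w.length * lam) x y := by
    intro x y w
    induction w with
    | nil => exact Near.refl _ _
    | cons hxy w ih =>
      have := hxy.2.trans ih
      rwa [SimpleGraph.Walk.length_cons, add_mul, one_mul, add_comm]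
  obtain ⟨enc, henc⟩ := Countable.exists_injective_nat Γ.ConnectedComponent
  refine HΦ ω S (fun _ => true)
    (fun a => if ha : a ∈ S then enc (Γ.connectedComponentMk ⟨a, ha⟩) else 0) hS ?_ hloc
  intro a ha b hb _
  simp only [dif_pos ha, dif_pos hb]
  constructor
  · intro e
    obtain ⟨w⟩ := SimpleGraph.ConnectedComponent.exact (henc e)
    have h1 := w.bypass_isPath.length_lt
    refine (hw _ _ w.bypass).mono (Nat.mul_le_mul_right _ ?_)
    rw [← Nat.card_eq_fintype_card, Nat.card_coe_set_eq] at h1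
    omega
  · intro hab
    congr 1
    by_cases e : (⟨a, ha⟩ : S) = ⟨b, hb⟩
    · rw [e]
    · exact SimpleGraph.ConnectedComponent.connectedComponentMk_eq_of_adj ⟨e, hab⟩

/-- a piece `P` of the wall of `H` is a wall away from its frontier. -/
theorem Hyp.fillW (h : Hyp T) : ∃ R1 : ℕ, ∀ N : ℕ, ∃ Φ : ℕ, ∀ (H P S : Set G),
    S.Finite → S.ncard ≤ N →
    (∀ p ∈ bd T H, ∀ q ∈ bd T H, p ∈ P → q ∉ P → Near T R1 p q → p ∈ S) →
    ∃ H' : Set G, ∀ a b, Adj T a b → (∀ s ∈ S, ¬ Near T Φ a s) →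
      ((a ∈ H' ↔ b ∈ H') ↔ (a ∈ P → (a ∈ H ↔ b ∈ H))) := by
  classical
  obtain ⟨R0, H0⟩ := h.fillN
  refine ⟨R0 + R0, fun N => ?_⟩
  obtain ⟨Φ, HΦ⟩ := H0 N
  refine ⟨Φ, fun H P S hS hN hfr => ?_⟩
  obtain ⟨f, hf⟩ := HΦ (fun a b => if a ∈ P ∧ ¬ (a ∈ H ↔ b ∈ H) then 1 else 0) S hS hN (by
    intro x hx
    by_cases hP : ∃ p ∈ bd T H, p ∈ P ∧ Near T R0 x p
    · obtain ⟨p, hp, hpP, hxp⟩ := hP
      refine ⟨fun a => if a ∈ H then 1 else 0, fun a b ha _ hab => ?_⟩
      have key : ¬ (a ∈ H ↔ b ∈ H) → a ∈ P := fun hc => by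
        by_contra haP
        exact hx p (hfr p hp a ⟨b, hab, hc⟩ hpP haP ((hxp.symm h.symm).trans ha)) hxp
      by_cases haH : a ∈ H <;> by_cases hbH : b ∈ H
      · simp only [haH, hbH, not_true, and_false, if_false, if_true]; decide
      · simp [haH, hbH, key (by tauto)]
      · simp [haH, hbH, key (by tauto)]
      · simp [haH, hbH]
    · refine ⟨fun _ => 0, fun a b ha _ hab => ?_⟩
      beta_reduce
      rw [if_neg, add_zero]
      rintro ⟨haP, hc⟩
      exact hP ⟨a, ⟨b, hab, hc⟩, haP, ha⟩)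
  refine ⟨{a | f a = 1}, fun a b hab hfar => ?_⟩
  have h1 := hf a b hab hfar
  have h2 : ∀ x y : F2, ((x = 1 ↔ y = 1) ↔ x + y = 0) := by decide
  simp only [mem_ofPred_eq]
  rw [h2, ← h1]
  by_cases hc : a ∈ P ∧ ¬ (a ∈ H ↔ b ∈ H)
  · rw [if_pos hc]
    exact iff_of_false one_ne_zero fun h' => hc.2 (h' hc.1)
  · rw [if_neg hc]
    exact iff_of_true rfl fun haP => by_contra fun h' => hc ⟨haP, h'⟩

/-- the wall between two connected sets is coarsely connected. -/
theorem Hyp.wall_conn (h : Hyp T) : ∃ R1 : ℕ, ∀ Q : Set G, Conn T Q → Conn T Qᶜ →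
    ∀ a ∈ bd T Q, ∀ b ∈ bd T Q,
      Relation.ReflTransGen (fun x y => y ∈ bd T Q ∧ Near T R1 x y) a b := by
  obtain ⟨R1, H1⟩ := h.fillW
  refine ⟨R1, fun Q hQ hQc a ha b hb => ?_⟩
  obtain ⟨Φ, HΦ⟩ := H1 0
  obtain ⟨H', hH'⟩ := HΦ Q
    {y | Relation.ReflTransGen (fun x y => y ∈ bd T Q ∧ Near T R1 x y) a y} ∅ finite_empty
    (by simp) (fun p _ q hq hpP hqP hpq => absurd (Relation.ReflTransGen.tail hpP ⟨hq, hpq⟩) hqP)
  have h1 : ∀ x ∈ Q, ∀ y ∈ Q, (x ∈ H' ↔ y ∈ H') := fun x hx y hy =>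
    Iff.of_eq (Path.const (fun z => z ∈ H') (hQ x hx y hy) fun u hu v hv huv =>
      propext ((hH' u v huv (by simp)).2 fun _ => iff_of_true hu hv))
  have h2 : ∀ x ∈ Qᶜ, ∀ y ∈ Qᶜ, (x ∈ H' ↔ y ∈ H') := fun x hx y hy =>
    Iff.of_eq (Path.const (fun z => z ∈ H') (hQc x hx y hy) fun u hu v hv huv =>
      propext ((hH' u v huv (by simp)).2 fun _ => iff_of_false hu hv))
  obtain ⟨a', haa', hc⟩ := ha
  obtain ⟨b', hbb', hc'⟩ := hb
  have h3 : ¬ (a ∈ H' ↔ a' ∈ H') := fun h' =>
    hc ((hH' a a' haa' (by simp)).1 h' Relation.ReflTransGen.refl)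
  by_contra hbP
  have h4 : (b ∈ H' ↔ b' ∈ H') := (hH' b b' hbb' (by simp)).2 fun h' => absurd h' hbP
  by_cases haQ : a ∈ Q <;> by_cases hbQ : b ∈ Q
  · exact h3 ((h1 a haQ b hbQ).trans (h4.trans (h2 b' (by tauto) a' (by tauto))))
  · exact h3 ((h1 a haQ b' (by tauto)).trans (h4.symm.trans (h2 b hbQ a' (by tauto))))
  · exact h3 ((h2 a haQ b' (by tauto)).trans (h4.symm.trans (h1 b hbQ a' (by tauto))))
  · exact h3 ((h2 a haQ b hbQ).trans (h4.trans (h1 b' (by tauto) a' (by tauto))))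

end Crest.Agent.R224
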