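import Crest.Agent.R224.Chain

/-! Row 224: compactly supported Alexander-Spanier cohomology of boxes. -/

namespace Crest.Agent.R224

open Crest.Agent.Lib.KyFan Set Filter Topology

namespace BoxAux

/-- `γ` generates the cohomology, which has two elements -/
def Gen {X : Type} [TopologicalSpace X] (n : ℕ) (U : Set X) (γ : Co X) : Prop :=
  Zc n U γ ∧ ¬ Bc n U γ ∧ ∀ φ, Zc n U φ → Bc n U φ ∨ Bc n U (φ + γ)

theorem co_cancel {X : Type} (φ ψ : Co X) : φ + ψ + ψ = φ := by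
  rw [add_assoc, co_add_self, add_zero]

theorem susp_add {Y : Type} (c : ℝ) (φ ψ : Co Y) : susp c (φ + ψ) = susp c φ + susp c ψ := by
  funext l
  match l with
  | [] => simp [susp_nil]
  | [p] => simp [susp_single]
  | p :: q :: r => simp only [Pi.add_apply, susp_cons_cons, mul_add]

section transp
variable {X Y : Type} [TopologicalSpace X] [T3Space X] [TopologicalSpace Y] {e : Y → X}
  {U : Set Y} {n : ℕ}

theorem van_tr (hT : TranspP) (he : IsOpenEmbedding e) (hn : 1 ≤ n) (h : Van n (e '' U)) :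
    Van n U := by
  obtain ⟨-, h2, h3⟩ := hT X Y e U n he hn
  intro ψ hψ
  obtain ⟨φ, hφ, hl⟩ := h3 ψ hψ
  exact ((h2 φ hφ.1).1 (h φ hφ)).congr hl

theorem gen_tr (hT : TranspP) (he : IsOpenEmbedding e) (hn : 1 ≤ n) {γ : Co X}
    (h : Gen n (e '' U) γ) : Gen n U (pull e γ) := by
  obtain ⟨h1, h2, h3⟩ := hT X Y e U n he hn
  refine ⟨h1 γ h.1, fun hb => h.2.1 ((h2 γ h.1.1).2 hb), fun ψ hψ => ?_⟩
  obtain ⟨φ, hφ, hl⟩ := h3 ψ hψ
  rcases h.2.2 φ hφ with hb | hb
  · exact Or.inl (((h2 φ hφ.1).1 hb).congr hl)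
  · refine Or.inr (((h2 _ (hφ.1.add h.1.1)).1 hb).congr fun y => ?_)
    have : pull e (φ + γ) + (ψ + pull e γ) = pull e φ + ψ := by
      rw [show pull e (φ + γ) = pull e φ + pull e γ from rfl, add_add_add_comm, co_add_self,
        add_zero]
    rw [this]
    exact hl y

end transp

section susp
variable {Y : Type} [MetricSpace Y] [ProperSpace Y] {V : Set Y} {a b c : ℝ} {n : ℕ}

theorem van_empty {X : Type} [TopologicalSpace X] (n : ℕ) : Van n (∅ : Set X) := by
  rintro φ ⟨⟨K, -, hK, h⟩, -⟩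
  exact Bc.of_LZ (fun x => h x fun hx => hK hx) _

theorem van_susp (hS : SuspP) (hV : IsOpen V) (hn : 1 ≤ n) (h : 2 ≤ n → Van (n - 1) V) :
    Van n (V ×ˢ Ioo a b) := by
  by_cases hab : a < b
  swap
  · rw [Ioo_eq_empty hab, prod_empty]
    exact van_empty n
  obtain ⟨c, hac, hcb⟩ := exists_between hab
  obtain ⟨h1, h2⟩ := hS Y V a b c hV hac hcb
  rcases hn.eq_or_lt with rfl | hn
  · exact h1
  obtain ⟨m, rfl⟩ : ∃ m, n = m + 1 := ⟨n - 1, by omega⟩
  obtain ⟨-, h3, -, h4⟩ := h2 m (by omega)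
  intro Φ hΦ
  obtain ⟨φ, hφ, hb⟩ := h4 Φ hΦ
  have := hb.add (h3 φ (h hn φ hφ))
  rwa [co_cancel] at this

theorem gen_susp (hS : SuspP) (hV : IsOpen V) (hac : a < c) (hcb : c < b) (hn : 1 ≤ n) {γ : Co Y}
    (h : Gen n V γ) : Gen (n + 1) (V ×ˢ Ioo a b) (susp c γ) := by
  obtain ⟨h1, h2, h3, h4⟩ := (hS Y V a b c hV hac hcb).2 n hn
  refine ⟨h1 γ h.1, fun hb => h.2.1 (h3 γ h.1 hb), fun Φ hΦ => ?_⟩
  obtain ⟨φ, hφ, hb⟩ := h4 Φ hΦ
  rcases h.2.2 φ hφ with hb' | hb'
  · have := hb.add (h2 φ hb')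
    rw [co_cancel] at this
    exact Or.inl this
  · have := hb.add (h2 _ hb')
    rw [susp_add, ← add_assoc, co_cancel] at this
    exact Or.inr this

end susp

section point
variable {X : Type} [TopologicalSpace X] [Unique X]

theorem lz_iff {n : ℕ} {φ : Co X} {x : X} : LZ n φ x ↔ ∀ l : List X, l.length = n → φ l = 0 :=
  ⟨fun ⟨_, hN, h⟩ l hl => h l hl fun y _ => Subsingleton.elim x y ▸ mem_of_mem_nhds hN,
    fun h => ⟨univ, univ_mem, fun l hl _ => h l hl⟩⟩

theorem cs_univ (n : ℕ) (φ : Co X) : CS n univ φ :=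
  ⟨univ, finite_univ.isCompact, Subset.rfl, fun x hx => absurd (mem_univ x) hx⟩

theorem van_pt {n : ℕ} (hn : 2 ≤ n) : Van n (univ : Set X) := by
  obtain ⟨m, rfl⟩ : ∃ m, n = m + 1 := ⟨n - 1, by omega⟩
  intro φ hφ
  refine Bc.of_cob (by omega) (cs_univ m fun l => φ (default :: l)) fun x => lz_iff.2 fun l hl => ?_
  exact lz_iff.1 (hφ.2 x) (default :: l) (by simp [hl])

theorem gen_pt : Gen 1 (univ : Set X) (fun _ => 1) := by
  refine ⟨⟨cs_univ _ _, fun x => lz_iff.2 fun l hl => ?_⟩, ?_, fun φ _ => ?_⟩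
  · obtain ⟨y, z, rfl⟩ := List.length_eq_two.1 hl
    simp only [cob_cons, cob_nil, add_zero, F2.add_self]
  · rintro ⟨ψ, h0, -, h⟩
    have := lz_iff.1 (h default) [default] rfl
    simp [cob_cons, h0] at this
  · have h : ∀ l : List X, l.length = 1 → l = [default] := fun l hl => by
      obtain ⟨y, rfl⟩ := List.length_eq_one_iff.1 hl
      rw [Subsingleton.elim y default]
    have h2 : ∀ t : F2, t = 0 ∨ t + 1 = 0 := by decide
    rcases h2 (φ [default]) with h3 | h3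
    · exact Or.inl (Bc.of_LZ (fun x => lz_iff.2 fun l hl => by rw [h l hl, h3]) _)
    · exact Or.inr (Bc.of_LZ (fun x => lz_iff.2 fun l hl => by rw [h l hl]; exact h3) _)

end point

/-- splitting off the first coordinate -/
def hom (d : ℕ) : (Fin (d + 1) → ℝ) ≃ₜ (Fin d → ℝ) × ℝ where
  toFun f := (fun i => f i.succ, f 0)
  invFun p := Fin.cons p.2 p.1
  left_inv f := Fin.cons_self_tail f
  right_inv p := by simp
  continuous_toFun := by fun_prop
  continuous_invFun := continuous_pi fun i => by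
    refine Fin.cases ?_ (fun j => ?_) i
    · exact continuous_snd
    · exact (continuous_apply j).comp continuous_fst

theorem mem_box {d : ℕ} {a b x : Fin (d + 1) → ℝ} : x ∈ Box a b ↔
    hom d x ∈ Box (fun i => a i.succ) (fun i => b i.succ) ×ˢ Ioo (a 0) (b 0) := by
  simp only [Box, mem_prod, mem_univ_pi, Fin.forall_fin_succ, and_comm]
  rfl

theorem image_box {d : ℕ} (a b : Fin (d + 1) → ℝ) :
    hom d '' Box a b = Box (fun i => a i.succ) (fun i => b i.succ) ×ˢ Ioo (a 0) (b 0) := by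
  ext p
  obtain ⟨x, rfl⟩ := (hom d).surjective p
  rw [(hom d).injective.mem_set_image, mem_box]

theorem isOpen_box {d : ℕ} (a b : Fin d → ℝ) : IsOpen (Box a b) :=
  isOpen_set_pi finite_univ fun _ _ => isOpen_Ioo

theorem box_zero (a b : Fin 0 → ℝ) : Box a b = univ :=
  eq_univ_of_forall fun _ i => i.elim0

theorem van_box (hS : SuspP) (hT : TranspP) (d : ℕ) :
    ∀ (a b : Fin d → ℝ) (n : ℕ), 1 ≤ n → n ≠ d + 1 → Van n (Box a b) := by
  induction d with
  | zero =>
    intro a b n h1 h2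
    rw [box_zero]
    exact van_pt (by omega)
  | succ d ih =>
    intro a b n h1 h2
    refine van_tr hT (hom d).isOpenEmbedding h1 ?_
    rw [image_box]
    exact van_susp hS (isOpen_box _ _) h1 fun h3 => ih _ _ _ (by omega) (by omega)

theorem gen_box (hS : SuspP) (hT : TranspP) (d : ℕ) :
    ∀ c : Fin d → ℝ, ∃ γ : Co (Fin d → ℝ), ∀ a b : Fin d → ℝ, c ∈ Box a b →
      Gen (d + 1) (Box a b) γ := by
  induction d with
  | zero =>
    intro c
    refine ⟨fun _ => 1, fun a b _ => ?_⟩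
    rw [box_zero]
    exact gen_pt
  | succ d ih =>
    intro c
    obtain ⟨γ, hγ⟩ := ih fun i => c i.succ
    refine ⟨pull (hom d) (susp (c 0) γ), fun a b hc => ?_⟩
    obtain ⟨h1, h2, h3⟩ := mem_box.1 hc
    refine gen_tr hT (hom d).isOpenEmbedding (by omega) ?_
    rw [image_box]
    exact gen_susp hS (isOpen_box _ _) h2 h3 (by omega) (hγ _ _ h1)

end BoxAux

theorem boxP (hS : SuspP) (hT : TranspP) : BoxP :=
  ⟨BoxAux.van_box hS hT 4, BoxAux.gen_box hS hT 4⟩

end Crest.Agent.R224
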