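import Crest.Agent.R224.Chain

/-! # Row 224: compactly supported cohomology of cells -/

namespace Crest.Agent.R224

open Crest.Agent.Lib.KyFan Set Filter Topology

namespace CellAux

section General
variable {X : Type} [TopologicalSpace X]

theorem van_of_compact {n : ℕ} {U : Set X}
    (h : ∀ K, IsCompact K → K ⊆ U → ∃ V, K ⊆ V ∧ V ⊆ U ∧ Van n V) : Van n U := by
  rintro φ ⟨⟨K, hK, hKU, hφ⟩, hc⟩
  obtain ⟨V, hKV, hVU, hV⟩ := h K hK hKU
  exact (hV φ ⟨⟨K, hK, hKV, hφ⟩, hc⟩).mono hVU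

theorem van_empty (n : ℕ) : Van n (∅ : Set X) := by
  rintro φ ⟨⟨K, -, hKU, hφ⟩, -⟩
  exact Bc.of_LZ (fun x => hφ x fun hx => hKU hx) _

theorem van_biUnion [T2Space X] (hM : MVP) {P : Set X → Prop} (ho : ∀ B, P B → IsOpen B)
    (hi : ∀ B B', P B → P B' → P (B ∩ B')) (hv : ∀ B, P B → ∀ n, 6 ≤ n → Van n B)
    {ι : Type} (s : Finset ι) :
    ∀ f : ι → Set X, (∀ i ∈ s, P (f i)) → ∀ n, 6 ≤ n → Van n (⋃ i ∈ s, f i) := by
  classical
  induction s using Finset.induction_on with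
  | empty => intro f _ n _; simpa using van_empty n
  | insert a s _ ih =>
    intro f hf n hn
    have ha := hf a (Finset.mem_insert_self a s)
    have hs := fun i hi => hf i (Finset.mem_insert_of_mem hi)
    rw [Finset.set_biUnion_insert]
    refine hM X _ _ n (ho _ ha) (isOpen_biUnion fun i hi => ho _ (hs i hi)) (by omega)
      (hv _ ha n hn) (ih f hs n hn) ?_
    rw [inter_iUnion₂]
    exact ih (fun i => f a ∩ f i) (fun i h => hi _ _ ha (hs i h)) (n + 1) (by omega)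

theorem van_of_basis [T2Space X] (hM : MVP) {P : Set X → Prop} (ho : ∀ B, P B → IsOpen B)
    (hi : ∀ B B', P B → P B' → P (B ∩ B')) (hv : ∀ B, P B → ∀ n, 6 ≤ n → Van n B)
    {U : Set X} (hU : ∀ x ∈ U, ∃ B, P B ∧ x ∈ B ∧ B ⊆ U) {n : ℕ} (hn : 6 ≤ n) : Van n U := by
  refine van_of_compact fun K hK hKU => ?_
  obtain ⟨s, hs⟩ := hK.elim_finite_subcover (fun B : {B // P B ∧ B ⊆ U} => B.1)
    (fun B => ho _ B.2.1) fun x hx => by
      obtain ⟨B, h1, h2, h3⟩ := hU x (hKU hx)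
      exact mem_iUnion.2 ⟨⟨B, h1, h3⟩, h2⟩
  exact ⟨_, hs, iUnion₂_subset fun B _ => B.2.2,
    van_biUnion hM ho hi hv s _ (fun B _ => B.2.1) n hn⟩

end General

theorem isOpen_Box (a b : Fin 4 → ℝ) : IsOpen (Box a b) :=
  isOpen_set_pi finite_univ fun _ _ => isOpen_Ioo

theorem ball_eq_Box (c : Fin 4 → ℝ) {r : ℝ} (hr : 0 < r) :
    Metric.ball c r = Box (fun i => c i - r) (fun i => c i + r) := by
  rw [ball_pi c hr]
  simp only [Real.ball_eq_Ioo, Box]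

theorem Box_inter (a b a' b' : Fin 4 → ℝ) :
    Box a b ∩ Box a' b' = Box (a ⊔ a') (b ⊓ b') := by
  simp only [Box, ← pi_inter_distrib, Ioo_inter_Ioo]
  rfl

theorem exists_big {K : Set (Fin 4 → ℝ)} (hK : IsCompact K) (c : Fin 4 → ℝ) :
    ∃ a b, c ∈ Box a b ∧ K ⊆ Box a b := by
  obtain ⟨r, hr, h⟩ := hK.isBounded.subset_ball_lt 0 c
  exact ⟨_, _, ball_eq_Box c hr ▸ Metric.mem_ball_self hr, ball_eq_Box c hr ▸ h⟩

theorem exists_small {U : Set (Fin 4 → ℝ)} (hU : IsOpen U) {c : Fin 4 → ℝ} (hc : c ∈ U) :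
    ∃ a b, c ∈ Box a b ∧ Box a b ⊆ U := by
  obtain ⟨r, hr, h⟩ := Metric.isOpen_iff.1 hU c hc
  exact ⟨_, _, ball_eq_Box c hr ▸ Metric.mem_ball_self hr, ball_eq_Box c hr ▸ h⟩

theorem van_univ (hB : BoxP) {n : ℕ} (h1 : 1 ≤ n) (h5 : n ≠ 5) : Van n (univ : Set (Fin 4 → ℝ)) :=
  van_of_compact fun K hK _ => by
    obtain ⟨a, b, -, h⟩ := exists_big hK 0
    exact ⟨_, h, subset_univ _, hB.1 a b n h1 h5⟩

theorem van_open (hB : BoxP) (hM : MVP) {U : Set (Fin 4 → ℝ)} (hU : IsOpen U) {n : ℕ}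
    (hn : 6 ≤ n) : Van n U := by
  refine van_of_basis hM (P := fun B => ∃ a b, B = Box a b) ?_ ?_ ?_ (fun x hx => ?_) hn
  · rintro _ ⟨a, b, rfl⟩
    exact isOpen_Box a b
  · rintro _ _ ⟨a, b, rfl⟩ ⟨a', b', rfl⟩
    exact ⟨_, _, Box_inter a b a' b'⟩
  · rintro _ ⟨a, b, rfl⟩ n hn
    exact hB.1 a b n (by omega) (by omega)
  · obtain ⟨a, b, h1, h2⟩ := exists_small hU hx
    exact ⟨_, ⟨a, b, rfl⟩, h1, h2⟩

theorem gen_univ (hB : BoxP) (c : Fin 4 → ℝ) : ∃ γ : Co (Fin 4 → ℝ),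
    (∀ a b, c ∈ Box a b → Zc 5 (Box a b) γ) ∧ ¬ Bc 5 univ γ ∧
    ∀ φ, Zc 5 univ φ → Bc 5 univ φ ∨ Bc 5 univ (φ + γ) := by
  obtain ⟨γ, hγ⟩ := hB.2 c
  refine ⟨γ, fun a b h => (hγ a b h).1, ?_, ?_⟩
  · rintro ⟨ψ, h0, ⟨K, hK, -, hψ⟩, hc⟩
    obtain ⟨a, b, h1, h2⟩ := exists_big hK c
    exact (hγ a b h1).2.1 ⟨ψ, h0, ⟨K, hK, h2, hψ⟩, hc⟩
  · rintro φ ⟨⟨K, hK, -, hφ⟩, hc⟩
    obtain ⟨a, b, h1, h2⟩ := exists_big hK c
    exact ((hγ a b h1).2.2 φ ⟨⟨K, hK, h2, hφ⟩, hc⟩).imp (fun h => h.mono (subset_univ _))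
      fun h => h.mono (subset_univ _)

variable {X : Type} [MetricSpace X]

theorem van_image (hT : TranspP) {e : (Fin 4 → ℝ) → X} (he : IsOpenEmbedding e)
    {U : Set (Fin 4 → ℝ)} {n : ℕ} (hn : 1 ≤ n) (h : Van n U) : Van n (e '' U) := by
  intro φ hφ
  obtain ⟨h1, h2, -⟩ := hT X _ e U n he hn
  exact (h2 φ hφ.1).2 (h _ (h1 φ hφ))

theorem gen_cell (hB : BoxP) (hT : TranspP) {V W : Set X} (hV : IsCell V) (hW : IsOpen W)
    (hne : (V ∩ W).Nonempty) : ∃ γ : Co X, Zc 5 (V ∩ W) γ ∧ ¬ Bc 5 V γ ∧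
      ∀ φ, Zc 5 V φ → Bc 5 V φ ∨ Bc 5 V (φ + γ) := by
  obtain ⟨e, he, rfl⟩ := hV
  obtain ⟨_, ⟨c, rfl⟩, hc⟩ := hne
  obtain ⟨γ, g1, g2, g3⟩ := gen_univ hB c
  obtain ⟨a, b, hcb, hb⟩ := exists_small (hW.preimage he.continuous) hc
  obtain ⟨δ, d1, d2⟩ := (hT X _ e (Box a b) 5 he (by norm_num)).2.2 γ (g1 a b hcb)
  obtain ⟨h1, h2, -⟩ := hT X _ e univ 5 he (by norm_num)
  rw [image_univ] at h1 h2
  have d3 : Zc 5 (range e) δ := d1.mono (image_subset_range _ _)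
  refine ⟨δ, d1.mono (subset_inter (image_subset_range _ _) (image_subset_iff.2 hb)),
    fun h => g2 (((h2 δ d3.1).1 h).congr d2), fun φ hφ => ?_⟩
  rcases g3 _ (h1 φ hφ) with h | h
  · exact Or.inl ((h2 φ hφ.1).2 h)
  · refine Or.inr ((h2 _ (hφ.1.add d3.1)).2 (h.congr fun y => (d2 y).congr fun l _ => ?_))
    simp only [pull, Pi.add_apply]
    linear_combination -F2.add_self (φ (l.map e))

theorem IsCell.isOpen {V : Set X} (hV : IsCell V) : IsOpen V := by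
  obtain ⟨e, he, rfl⟩ := hV
  exact he.isOpen_range

theorem IsCell.nonempty {V : Set X} (hV : IsCell V) : V.Nonempty := by
  obtain ⟨e, he, rfl⟩ := hV
  exact range_nonempty e

end CellAux

open CellAux in
theorem cellPP (hB : BoxP) (hT : TranspP) (hM : MVP) : CellPP := by
  intro X _ hc
  have two : ∀ V : Set X, IsCell V → ∃ γ : Co X, Zc 5 V γ ∧ ¬ Bc 5 V γ ∧
      ∀ φ, Zc 5 V φ → Bc 5 V φ ∨ Bc 5 V (φ + γ) := fun V hV => by
    simpa only [inter_univ] using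
      gen_cell hB hT hV isOpen_univ (by simpa using CellAux.IsCell.nonempty hV)
  refine ⟨?_, two, ?_, ?_⟩
  · rintro _ ⟨e, he, rfl⟩ n h1 h5
    rw [← image_univ]
    exact van_image hT he h1 (van_univ hB h1 h5)
  · intro V V' hV hV' hVV φ hφ hb
    obtain ⟨γ, -, -, g⟩ := two V hV
    obtain ⟨δ, d1, d2, -⟩ := gen_cell hB hT hV' (CellAux.IsCell.isOpen hV)
      ((CellAux.IsCell.nonempty hV).mono (subset_inter hVV subset_rfl))
    refine (g φ hφ).resolve_right fun h => ?_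
    have h1 := (g δ (d1.mono inter_subset_right)).resolve_left fun h => d2 (h.mono hVV)
    have h2 := ((h.add h1).mono hVV).add hb
    have h3 : φ + γ + (δ + γ) + φ = δ := by
      funext l
      simp only [Pi.add_apply]
      linear_combination F2.add_self (φ l) + F2.add_self (γ l)
    exact d2 (h3 ▸ h2)
  · intro U hU n hn
    refine van_of_basis hM (P := fun B => IsOpen B ∧ ∃ V, IsCell V ∧ B ⊆ V) (fun B h => h.1) ?_ ?_
      (fun x hx => ?_) hn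
    · rintro B B' ⟨h1, V, h2, h3⟩ ⟨h4, -⟩
      exact ⟨h1.inter h4, V, h2, inter_subset_left.trans h3⟩
    · rintro B ⟨h1, _, ⟨e, he, rfl⟩, h3⟩ n hn
      rw [← image_preimage_eq_of_subset h3]
      exact van_image hT he (by omega) (van_open hB hM (h1.preimage he.continuous) hn)
    · obtain ⟨V, h1, h2, -⟩ := hc x 1 one_pos
      exact ⟨U ∩ V, ⟨hU.inter (CellAux.IsCell.isOpen h1), V, h1, inter_subset_right⟩, ⟨hx, h2⟩,
        inter_subset_left⟩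

end Crest.Agent.R224
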