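import Crest.Agent.R224.Defs

/-! Row 224: identities for list chains, and the calculus of locally zero cochains. -/

namespace Crest.Agent.R224

open Crest.Agent.Lib.KyFan Set Filter Topology

section Chains
variable {k X Y Z : Type} [CommRing k]

theorem ChainAux.ext {N : Type} [AddCommMonoid N] [Module k N] {Φ Ψ : Ch k X →ₗ[k] N} {c : Ch k X}
    (h : ∀ l ∈ c.support, Φ (Finsupp.single l 1) = Ψ (Finsupp.single l 1)) : Φ c = Ψ c := by
  rw [← c.sum_single, Finsupp.sum, map_sum, map_sum]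
  refine Finset.sum_congr rfl fun l hl => ?_
  rw [← mul_one (c l), ← Finsupp.smul_single', map_smul, map_smul, h l hl]

theorem consC_single (x : X) (l : List X) (a : k) :
    consC x (Finsupp.single l a) = Finsupp.single (x :: l) a := by
  simp [consC, Finsupp.mapDomain_single]

theorem mapC_single (f : X → Y) (l : List X) (a : k) :
    mapC f (Finsupp.single l a) = Finsupp.single (l.map f) a := by
  simp [mapC, Finsupp.mapDomain_single]

theorem lc_single (A : List X → Ch k Y) (l : List X) (a : k) :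
    lc A (Finsupp.single l a) = a • A l := by
  simp [lc]

theorem dC_single (l : List X) (a : k) : dC (Finsupp.single l a) = a • dL k l := by
  exact lc_single _ l a

/-- the cone identity. -/
theorem dC_consC (x : X) (c : Ch k X) : dC (consC x c) = c - consC x (dC c) := by
  refine ChainAux.ext (k := k) (Φ := dC ∘ₗ consC x) (Ψ := LinearMap.id - consC x ∘ₗ dC)
    fun l _ => ?_
  simp [consC_single, dC_single, dL_cons]

theorem dC_dL (l : List X) : dC (dL k l) = 0 := by
  induction l with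
  | nil => simp [dL_nil]
  | cons x l ih => rw [dL_cons, map_sub, dC_single, dC_consC, ih]; simp

theorem dC_dC (c : Ch k X) : dC (dC c) = 0 := by
  refine ChainAux.ext (Φ := dC ∘ₗ dC) (Ψ := 0) fun l _ => ?_
  simp [dC_single, dC_dL]

theorem mapC_consC (f : X → Y) (x : X) (c : Ch k X) :
    mapC f (consC x c) = consC (f x) (mapC f c) := by
  refine ChainAux.ext (Φ := mapC f ∘ₗ consC x) (Ψ := consC (f x) ∘ₗ mapC f) fun l _ => ?_
  simp [consC_single, mapC_single]

theorem mapC_dL (f : X → Y) (l : List X) : mapC f (dL k l) = dL k (l.map f) := by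
  induction l with
  | nil => simp [dL_nil]
  | cons x l ih => rw [List.map_cons, dL_cons, dL_cons, map_sub, mapC_single, mapC_consC, ih]

theorem dC_mapC (f : X → Y) (c : Ch k X) : dC (mapC f c) = mapC f (dC c) := by
  refine ChainAux.ext (Φ := dC ∘ₗ mapC f) (Ψ := mapC f ∘ₗ dC) fun l _ => ?_
  simp [dC_single, mapC_single, mapC_dL]

theorem mapC_mapC (g : Y → Z) (f : X → Y) (c : Ch k X) :
    mapC g (mapC f c) = mapC (g ∘ f) c := by
  refine ChainAux.ext (Φ := mapC g ∘ₗ mapC f) (Ψ := mapC (g ∘ f)) fun l _ => ?_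
  simp [mapC_single]

theorem mapC_id (c : Ch k X) : mapC (fun x => x) c = c := by
  refine ChainAux.ext (Φ := mapC fun x => x) (Ψ := LinearMap.id) fun l _ => ?_
  simp [mapC_single]

theorem mapC_congr {f g : X → Y} {c : Ch k X} (h : ChIn (fun l => ∀ a ∈ l, f a = g a) c) :
    mapC f c = mapC g c := by
  refine ChainAux.ext fun l hl => ?_
  rw [mapC_single, mapC_single, List.map_congr_left (h l hl)]

/-- the prism identity. -/
theorem dC_prL (f g : X → Y) (l : List X) :
    dC (prL k f g l) + lc (prL k f g) (dL k l) =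
      Finsupp.single (l.map g) 1 - Finsupp.single (l.map f) 1 := by
  have aux : ∀ (x : X) (c : Ch k X), lc (prL k f g) (consC x c) =
      consC (f x) (mapC g (consC x c)) - consC (f x) (lc (prL k f g) c) := by
    intro x c
    refine ChainAux.ext (Φ := lc (prL k f g) ∘ₗ consC x)
      (Ψ := consC (f x) ∘ₗ mapC g ∘ₗ consC x - consC (f x) ∘ₗ lc (prL k f g)) fun l _ => ?_
    simp [consC_single, mapC_single, lc_single, prL_cons]
  induction l with
  | nil => simp [prL_nil, dL_nil]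
  | cons x l ih =>
    have h := congrArg (consC (f x)) ih
    rw [map_add, map_sub, consC_single, consC_single] at h
    rw [prL_cons, dL_cons, map_sub, map_sub, dC_single, dC_consC, lc_single, aux, mapC_consC,
      mapC_dL, List.map_cons, List.map_cons, dL_cons, dL_cons, map_sub, consC_single, one_smul,
      one_smul]
    rw [← sub_eq_zero] at h ⊢
    rw [← h]
    abel

theorem dC_lc_prL (f g : X → Y) (c : Ch k X) :
    dC (lc (prL k f g) c) + lc (prL k f g) (dC c) = mapC g c - mapC f c := by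
  refine ChainAux.ext (Φ := dC ∘ₗ lc (prL k f g) + lc (prL k f g) ∘ₗ dC) (Ψ := mapC g - mapC f)
    fun l _ => ?_
  simp [lc_single, dC_single, mapC_single, dC_prL]

theorem lc_lc (B : List Y → Ch k Z) (A : List X → Ch k Y) (c : Ch k X) :
    lc B (lc A c) = lc (fun l => lc B (A l)) c := by
  refine ChainAux.ext (Φ := lc B ∘ₗ lc A) fun l _ => ?_
  simp [lc_single]

theorem map_lc (Φ : Ch k Y →ₗ[k] Ch k Z) (A : List X → Ch k Y) (c : Ch k X) :
    Φ (lc A c) = lc (fun l => Φ (A l)) c := by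
  refine ChainAux.ext (Φ := Φ ∘ₗ lc A) fun l _ => ?_
  simp [lc_single]

theorem lc_congr {A B : List X → Ch k Y} {c : Ch k X} (h : ChIn (fun l => A l = B l) c) :
    lc A c = lc B c := by
  refine ChainAux.ext fun l hl => ?_
  rw [lc_single, lc_single, h l hl]

/-- a map that commutes with the boundary on the lists of a chain commutes on the chain. -/
theorem dC_lc {A : List X → Ch k Y} {c : Ch k X} (h : ChIn (fun l => dC (A l) = lc A (dL k l)) c) :
    dC (lc A c) = lc A (dC c) := by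
  refine ChainAux.ext (Φ := dC ∘ₗ lc A) (Ψ := lc A ∘ₗ dC) fun l hl => ?_
  simp [lc_single, dC_single, h l hl]

theorem ChIn.zero (P : List X → Prop) : ChIn P (0 : Ch k X) := by
  intro l hl
  simp at hl

theorem ChIn.single {P : List X → Prop} {l : List X} (h : P l) (a : k) :
    ChIn P (Finsupp.single l a) := by
  intro m hm
  rwa [Finset.mem_singleton.1 (Finsupp.support_single_subset hm)]

theorem ChIn.mono {P Q : List X → Prop} {c : Ch k X} (h : ChIn P c) (hPQ : ∀ l, P l → Q l) :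
    ChIn Q c := by
  exact fun l hl => hPQ l (h l hl)

theorem ChIn.and {P Q : List X → Prop} {c : Ch k X} (h : ChIn P c) (h' : ChIn Q c) :
    ChIn (fun l => P l ∧ Q l) c := by
  exact fun l hl => ⟨h l hl, h' l hl⟩

theorem ChIn.add {P : List X → Prop} {c c' : Ch k X} (h : ChIn P c) (h' : ChIn P c') :
    ChIn P (c + c') := by
  classical
  exact fun l hl => (Finset.mem_union.1 (Finsupp.support_add hl)).elim (h l) (h' l)

theorem ChIn.sub {P : List X → Prop} {c c' : Ch k X} (h : ChIn P c) (h' : ChIn P c') :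
    ChIn P (c - c') := by
  classical
  exact fun l hl => (Finset.mem_union.1 (Finsupp.support_sub hl)).elim (h l) (h' l)

theorem ChIn.smul {P : List X → Prop} {c : Ch k X} (h : ChIn P c) (a : k) : ChIn P (a • c) := by
  exact fun l hl => h l (Finsupp.support_smul hl)

theorem ChIn.sum {ι : Type} {P : List X → Prop} (s : Finset ι) {c : ι → Ch k X}
    (h : ∀ i ∈ s, ChIn P (c i)) : ChIn P (∑ i ∈ s, c i) := by
  exact Finset.sum_induction _ (ChIn P) (fun _ _ => ChIn.add) (ChIn.zero P) h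

theorem ChIn.consC {P Q : List X → Prop} {c : Ch k X} (x : X) (h : ChIn P c)
    (hPQ : ∀ l, P l → Q (x :: l)) : ChIn Q (consC x c) := by
  exact ChIn.sum _ fun l hl => ChIn.single (hPQ l (h l hl)) _

theorem ChIn.mapC {P : List X → Prop} {Q : List Y → Prop} {c : Ch k X} (f : X → Y) (h : ChIn P c)
    (hPQ : ∀ l, P l → Q (l.map f)) : ChIn Q (mapC f c) := by
  exact ChIn.sum _ fun l hl => ChIn.single (hPQ l (h l hl)) _

theorem ChIn.lc {P : List X → Prop} {Q : List Y → Prop} {c : Ch k X} {A : List X → Ch k Y}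
    (h : ChIn P c) (hA : ∀ l, P l → ChIn Q (A l)) : ChIn Q (lc A c) := by
  rw [R224.lc, Finsupp.linearCombination_apply]
  exact ChIn.sum _ fun l hl => (hA l (h l hl)).smul _

/-- the boundary consists of faces. -/
theorem chIn_dL (l : List X) :
    ChIn (fun m => m.Sublist l ∧ m.length + 1 = l.length) (dL k l) := by
  induction l with
  | nil => rw [dL_nil]; exact ChIn.zero _
  | cons x l ih =>
    rw [dL_cons]
    exact (ChIn.single ⟨List.sublist_cons_self x l, rfl⟩ _).sub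
      (ih.consC x fun m hm => ⟨hm.1.cons_cons x, by simp [hm.2]⟩)

theorem chIn_prL (f g : X → Y) (l : List X) :
    ChIn (fun m => m.length = l.length + 1 ∧ ∀ b ∈ m, ∃ a ∈ l, b = f a ∨ b = g a)
      (prL k f g l) := by
  induction l with
  | nil => rw [prL_nil]; exact ChIn.zero _
  | cons x l ih =>
    rw [prL_cons]
    refine ChIn.sub (ChIn.single ⟨by simp, fun b hb => ?g1⟩ _)
      (ih.consC (f x) fun m hm => ⟨by simp [hm.1], fun b hb => ?g2⟩)
    case g1 =>
      rcases List.mem_cons.1 hb with rfl | hb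
      · exact ⟨x, List.mem_cons_self, Or.inl rfl⟩
      · obtain ⟨a, ha, rfl⟩ := List.mem_map.1 hb
        exact ⟨a, ha, Or.inr rfl⟩
    case g2 =>
      rcases List.mem_cons.1 hb with rfl | hb
      · exact ⟨x, List.mem_cons_self, Or.inl rfl⟩
      · obtain ⟨a, ha, h⟩ := hm.2 b hb
        exact ⟨a, List.mem_cons_of_mem x ha, h⟩

theorem ev_single (φ : Co X) (l : List X) (a : F2) : ev φ (Finsupp.single l a) = a * φ l := by
  simp [ev]

theorem ev_dL (φ : Co X) (l : List X) : ev φ (dL F2 l) = cob φ l := by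
  have aux : ∀ (φ : Co X) (x : X) (c : Ch F2 X), ev φ (consC x c) = ev (fun m => φ (x :: m)) c := by
    intro φ x c
    refine ChainAux.ext (Φ := ev φ ∘ₗ consC x) fun l _ => ?_
    simp [consC_single, ev_single]
  induction l generalizing φ with
  | nil => simp [dL_nil]
  | cons x l ih => rw [dL_cons, map_sub, ev_single, aux, ih, cob_cons, one_mul, CharTwo.sub_eq_add]

theorem ev_dC (φ : Co X) (c : Ch F2 X) : ev φ (dC c) = ev (cob φ) c := by
  refine ChainAux.ext (Φ := ev φ ∘ₗ dC) fun l _ => ?_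
  simp [dC_single, ev_single, ev_dL]

theorem ev_mapC (φ : Co Y) (f : X → Y) (c : Ch F2 X) :
    ev φ (mapC f c) = ev (fun l => φ (l.map f)) c := by
  refine ChainAux.ext (Φ := ev φ ∘ₗ mapC f) fun l _ => ?_
  simp [mapC_single, ev_single]

theorem ev_lc (φ : Co Y) (A : List X → Ch F2 Y) (c : Ch F2 X) :
    ev φ (lc A c) = ev (fun l => ev φ (A l)) c := by
  refine ChainAux.ext (Φ := ev φ ∘ₗ lc A) fun l _ => ?_
  simp [lc_single, ev_single]

theorem ev_congr {φ ψ : Co X} {c : Ch F2 X} (h : ChIn (fun l => φ l = ψ l) c) :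
    ev φ c = ev ψ c := by
  refine ChainAux.ext fun l hl => ?_
  rw [ev_single, ev_single, h l hl]

theorem ev_ne_zero {φ : Co X} {c : Ch F2 X} (h : ev φ c ≠ 0) : ∃ l ∈ c.support, φ l ≠ 0 := by
  by_contra hc
  push Not at hc
  refine h (ChainAux.ext (Ψ := 0) fun l hl => ?_)
  simp [ev_single, hc l hl]

end Chains

section AS
variable {X Y : Type} [TopologicalSpace X] [TopologicalSpace Y]

/-- multiplication by the indicator of the head. -/
noncomputable def hd (P : Set X) (φ : Co X) : Co X := fun l =>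
  open Classical in if ∃ x ∈ l.head?, x ∈ P then φ l else 0

omit [TopologicalSpace X] in
theorem hd_nil (P : Set X) (φ : Co X) : hd P φ [] = 0 := by
  simp [hd]

omit [TopologicalSpace X] in
theorem hd_cons_mem {P : Set X} (φ : Co X) {x : X} (hx : x ∈ P) (l : List X) :
    hd P φ (x :: l) = φ (x :: l) := by
  simp [hd, hx]

omit [TopologicalSpace X] in
theorem hd_cons_notMem {P : Set X} (φ : Co X) {x : X} (hx : x ∉ P) (l : List X) :
    hd P φ (x :: l) = 0 := by
  simp [hd, hx]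

omit [TopologicalSpace X] in
theorem cob_add' (φ ψ : Co X) : cob (φ + ψ) = cob φ + cob ψ := by
  exact funext fun l => cob_add φ ψ l

omit [TopologicalSpace X] in
theorem co_add_self (φ : Co X) : φ + φ = 0 := by
  exact funext fun l => F2.add_self (φ l)

omit [TopologicalSpace X] [TopologicalSpace Y] in
theorem cob_pull (e : Y → X) (φ : Co X) : cob (pull e φ) = pull e (cob φ) := by
  exact funext fun l => cob_map e φ l

theorem LZ.zero (n : ℕ) (x : X) : LZ n (0 : Co X) x := by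
  exact ⟨univ, univ_mem, fun _ _ _ => rfl⟩

theorem LZ.add {n : ℕ} {φ ψ : Co X} {x : X} (h : LZ n φ x) (h' : LZ n ψ x) : LZ n (φ + ψ) x := by
  obtain ⟨N, hN, h⟩ := h
  obtain ⟨N', hN', h'⟩ := h'
  refine ⟨N ∩ N', inter_mem hN hN', fun l hl hm => ?_⟩
  rw [Pi.add_apply, h l hl fun y hy => (hm y hy).1, h' l hl fun y hy => (hm y hy).2, add_zero]

theorem LZ.sum {ι : Type} {n : ℕ} (s : Finset ι) {φ : ι → Co X} {x : X}
    (h : ∀ i ∈ s, LZ n (φ i) x) : LZ n (∑ i ∈ s, φ i) x := by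
  exact Finset.sum_induction _ (fun φ => LZ n φ x) (fun _ _ => LZ.add) (LZ.zero n x) h

theorem LZ.cob {n : ℕ} {φ : Co X} {x : X} (h : LZ n φ x) : LZ (n + 1) (cob φ) x := by
  obtain ⟨N, hN, h⟩ := h
  refine ⟨N, hN, fun l hl hm => ?_⟩
  rw [cob_congr (ψ := fun _ => 0) fun m hs hl' =>
    h m (by omega) fun y hy => hm y (hs.subset hy), cob_zero]

theorem LZ.congr {n : ℕ} {φ ψ : Co X} {x : X} (h : LZ n φ x)
    (he : ∀ l : List X, l.length = n → φ l = ψ l) : LZ n ψ x := by
  obtain ⟨N, hN, h⟩ := h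
  exact ⟨N, hN, fun l hl hm => (he l hl).symm.trans (h l hl hm)⟩

theorem LZ.of_ne_zero {n : ℕ} {φ ψ : Co X} {x : X} (h : LZ n φ x)
    (he : ∀ l : List X, l.length = n → φ l = 0 → ψ l = 0) : LZ n ψ x := by
  obtain ⟨N, hN, h⟩ := h
  exact ⟨N, hN, fun l hl hm => he l hl (h l hl hm)⟩

theorem LZ.hd {n : ℕ} {φ : Co X} {x : X} (h : LZ n φ x) (P : Set X) : LZ n (hd P φ) x := by
  refine h.of_ne_zero fun l _ h0 => ?_
  simp [R224.hd, h0]

theorem LZ.hd_of_notMem_closure (n : ℕ) (φ : Co X) {x : X} {P : Set X} (h : x ∉ closure P) :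
    LZ n (R224.hd P φ) x := by
  refine ⟨(closure P)ᶜ, isClosed_closure.isOpen_compl.mem_nhds h, fun l _ hm => ?_⟩
  cases l with
  | nil => exact hd_nil P φ
  | cons y l =>
    exact hd_cons_notMem φ (fun hy => hm y List.mem_cons_self (subset_closure hy)) l

theorem LZ.hd_add_of_mem_nhds {n : ℕ} (hn : 1 ≤ n) (φ : Co X) {x : X} {P : Set X} (h : P ∈ 𝓝 x) :
    LZ n (R224.hd P φ + φ) x := by
  refine ⟨P, h, fun l hl hm => ?_⟩
  cases l with
  | nil => simp at hl; omega
  | cons y l => rw [Pi.add_apply, hd_cons_mem φ (hm y List.mem_cons_self), F2.add_self]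

theorem LZ.pull {n : ℕ} {φ : Co X} {e : Y → X} {y : Y} (he : ContinuousAt e y)
    (h : LZ n φ (e y)) : LZ n (pull e φ) y := by
  obtain ⟨N, hN, h⟩ := h
  refine ⟨e ⁻¹' N, he hN, fun l hl hm => h _ (by simpa using hl) fun z hz => ?_⟩
  obtain ⟨w, hw, rfl⟩ := List.mem_map.1 hz
  exact hm w hw

theorem isOpen_LZ (n : ℕ) (φ : Co X) : IsOpen {x | LZ n φ x} := by
  refine isOpen_iff_mem_nhds.2 fun x ⟨N, hN, h⟩ => ?_
  filter_upwards [eventually_mem_nhds_iff.2 hN] with y hy using ⟨N, hy, h⟩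

/-- Lebesgue number. -/
theorem LZ.exists_unif {X : Type} [PseudoMetricSpace X] {n : ℕ} {φ : Co X} {K : Set X}
    (hK : IsCompact K) (h : ∀ x ∈ K, LZ n φ x) : ∃ η : ℝ, 0 < η ∧ ∀ x ∈ K, ∀ l : List X,
      l.length = n → (∀ y ∈ l, dist y x < η) → φ l = 0 := by
  choose N hN h using h
  obtain ⟨η, hη, hb⟩ := lebesgue_number_lemma_of_metric (c := fun x : K => interior (N x x.2)) hK
    (fun _ => isOpen_interior) fun x hx =>
      mem_iUnion.2 ⟨⟨x, hx⟩, mem_interior_iff_mem_nhds.2 (hN x hx)⟩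
  refine ⟨η, hη, fun x hx l hl hm => ?_⟩
  obtain ⟨i, hi⟩ := hb x hx
  exact h i i.2 l hl fun y hy => interior_subset (hi (hm y hy))

theorem CS.zero (n : ℕ) (U : Set X) : CS n U (0 : Co X) := by
  exact ⟨∅, isCompact_empty, empty_subset U, fun x _ => LZ.zero n x⟩

theorem CS.of_LZ {n : ℕ} {φ : Co X} (h : ∀ x, LZ n φ x) (U : Set X) : CS n U φ := by
  exact ⟨∅, isCompact_empty, empty_subset U, fun x _ => h x⟩

theorem CS.add {n : ℕ} {U : Set X} {φ ψ : Co X} (h : CS n U φ) (h' : CS n U ψ) :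
    CS n U (φ + ψ) := by
  obtain ⟨K, hK, hU, h⟩ := h
  obtain ⟨K', hK', hU', h'⟩ := h'
  exact ⟨K ∪ K', hK.union hK', union_subset hU hU', fun x hx =>
    (h x fun hk => hx (Or.inl hk)).add (h' x fun hk => hx (Or.inr hk))⟩

theorem CS.sum {ι : Type} {n : ℕ} {U : Set X} (s : Finset ι) {φ : ι → Co X}
    (h : ∀ i ∈ s, CS n U (φ i)) : CS n U (∑ i ∈ s, φ i) := by
  exact Finset.sum_induction _ (CS n U) (fun _ _ => CS.add) (CS.zero n U) h

theorem CS.mono {n : ℕ} {U V : Set X} {φ : Co X} (h : CS n U φ) (hUV : U ⊆ V) : CS n V φ := by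
  obtain ⟨K, hK, hU, h⟩ := h
  exact ⟨K, hK, hU.trans hUV, h⟩

theorem CS.cob {n : ℕ} {U : Set X} {φ : Co X} (h : CS n U φ) : CS (n + 1) U (cob φ) := by
  obtain ⟨K, hK, hU, h⟩ := h
  exact ⟨K, hK, hU, fun x hx => (h x hx).cob⟩

theorem CS.congr {n : ℕ} {U : Set X} {φ ψ : Co X} (h : CS n U φ) (he : ∀ x, LZ n (φ + ψ) x) :
    CS n U ψ := by
  have := h.add (CS.of_LZ he U)
  rwa [← add_assoc, co_add_self, zero_add] at this

theorem Zc.add {n : ℕ} {U : Set X} {φ ψ : Co X} (h : Zc n U φ) (h' : Zc n U ψ) :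
    Zc n U (φ + ψ) := by
  refine ⟨h.1.add h'.1, fun x => ?_⟩
  rw [cob_add']
  exact (h.2 x).add (h'.2 x)

theorem Zc.mono {n : ℕ} {U V : Set X} {φ : Co X} (h : Zc n U φ) (hUV : U ⊆ V) : Zc n V φ := by
  exact ⟨h.1.mono hUV, h.2⟩

theorem Zc.congr {n : ℕ} {U : Set X} {φ ψ : Co X} (h : Zc n U φ) (he : ∀ x, LZ n (φ + ψ) x) :
    Zc n U ψ := by
  have := h.add ⟨CS.of_LZ he U, fun x => (he x).cob⟩
  rwa [← add_assoc, co_add_self, zero_add] at this

theorem Bc.add {n : ℕ} {U : Set X} {φ ψ : Co X} (h : Bc n U φ) (h' : Bc n U ψ) :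
    Bc n U (φ + ψ) := by
  obtain ⟨α, h0, h1, h2⟩ := h
  obtain ⟨β, h0', h1', h2'⟩ := h'
  refine ⟨α + β, by rw [Pi.add_apply, h0, h0', add_zero], h1.add h1', fun x => ?_⟩
  rw [cob_add', add_add_add_comm]
  exact (h2 x).add (h2' x)

theorem Bc.sum {ι : Type} {n : ℕ} {U : Set X} (s : Finset ι) {φ : ι → Co X}
    (h : ∀ i ∈ s, Bc n U (φ i)) : Bc n U (∑ i ∈ s, φ i) := by
  refine Finset.sum_induction _ (Bc n U) (fun _ _ => Bc.add) ⟨0, rfl, CS.zero _ U, fun x => ?_⟩ h
  exact (LZ.zero n x).congr fun l _ => by rw [zero_add]; exact (cob_zero l).symm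

theorem Bc.mono {n : ℕ} {U V : Set X} {φ : Co X} (h : Bc n U φ) (hUV : U ⊆ V) : Bc n V φ := by
  obtain ⟨α, h0, h1, h2⟩ := h
  exact ⟨α, h0, h1.mono hUV, h2⟩

theorem Bc.congr {n : ℕ} {U : Set X} {φ ψ : Co X} (h : Bc n U φ) (he : ∀ x, LZ n (φ + ψ) x) :
    Bc n U ψ := by
  obtain ⟨α, h0, h1, h2⟩ := h
  refine ⟨α, h0, h1, fun x => ?_⟩
  have := (he x).add (h2 x)
  rwa [add_add_add_comm, co_add_self, zero_add] at this

theorem Bc.of_LZ {n : ℕ} {φ : Co X} (h : ∀ x, LZ n φ x) (U : Set X) : Bc n U φ := by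
  refine ⟨0, rfl, CS.zero _ U, fun x => (h x).congr fun l _ => ?_⟩
  rw [Pi.add_apply, show cob (0 : Co X) l = 0 from cob_zero l, add_zero]

/-- for `n ≥ 1` the condition `ψ [] = 0` is not needed. -/
theorem Bc.of_cob {n : ℕ} (hn : 1 ≤ n) {U : Set X} {φ ψ : Co X} (h : CS n U ψ)
    (he : ∀ x, LZ (n + 1) (φ + cob ψ) x) : Bc (n + 1) U φ := by
  classical
  have e : ∀ l : List X, l.length = n → ψ l = if l = [] then 0 else ψ l := fun l hl =>
    (if_neg (by rintro rfl; simp at hl; omega)).symm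
  obtain ⟨K, hK, hU, h⟩ := h
  refine ⟨fun l => if l = [] then 0 else ψ l, if_pos rfl, ⟨K, hK, hU, fun x hx =>
    (h x hx).congr e⟩, fun x => (he x).congr fun l hl => ?_⟩
  rw [Pi.add_apply, Pi.add_apply, cob_congr fun m _ hm => e m (by omega)]

theorem Bc.zc {n : ℕ} (hn : 1 ≤ n) {U : Set X} {φ : Co X} (h : Bc n U φ) : Zc n U φ := by
  obtain ⟨α, -, h1, h2⟩ := h
  have h3 := h1.cob
  rw [Nat.sub_add_cancel hn] at h3
  refine ⟨h3.congr fun x => add_comm φ _ ▸ h2 x, fun x => (h2 x).cob.congr fun l _ => ?_⟩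
  rw [cob_add', Pi.add_apply, cob_cob, add_zero]

end AS

end Crest.Agent.R224
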