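import Crest.Agent.R224.Basic
import Crest.Agent.R224.Chain

/-! Row 224: the comparison chain map `G → X`. -/

namespace Crest.Agent.R224

open Crest.Agent.Lib.KyFan Set Filter Topology

namespace CmpAux

variable {G X : Type} [Group G] [MetricSpace X] [MulAction G X]

theorem ch_add_self {Z : Type} (c : Ch F2 Z) : c + c = 0 := by
  ext l
  exact F2.add_self (c l)

omit [MetricSpace X] in
theorem mapC_lc {A : List G → Ch F2 X}
    (hA : ∀ (g : G) (l : List G), A (l.map (g * ·)) = mapC (g • ·) (A l)) (g : G) (c : Ch F2 G) :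
    mapC (g • ·) (lc A c) = lc A (mapC (g * ·) c) := by
  refine ChainAux.ext (Φ := mapC (g • ·) ∘ₗ lc A) (Ψ := lc A ∘ₗ mapC (g * ·)) fun l _ => ?_
  simp [lc_single, mapC_single, hA]

/-- the equivariant chain map. -/
theorem exists_A0 (isom : ∀ (g : G) (x y : X), dist (g • x) (g • y) = dist x y)
    (hF : FillX F2 X) (m : ℕ) : ∀ δ : ℝ, 0 < δ → ∃ A : List G → Ch F2 X,
      A [] = Finsupp.single [] 1 ∧
      (∀ (g : G) (l : List G), A (l.map (g * ·)) = mapC (g • ·) (A l)) ∧
      ∀ l : List G, l.length ≤ m →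
        ChIn (fun l' => l'.length = l.length ∧ SmallL δ l') (A l) ∧
        dC (A l) = lc A (dL F2 l) := by
  classical
  induction m with
  | zero =>
    intro δ _
    refine ⟨fun l => if l = [] then Finsupp.single [] 1 else 0, if_pos rfl, fun g l => ?_,
      fun l hl => ?_⟩
    · cases l <;> simp [mapC_single]
    · obtain rfl : l = [] := List.length_eq_zero_iff.1 (Nat.le_zero.1 hl)
      refine ⟨?_, by simp [dC_single, dL_nil]⟩
      simp only [if_true]
      exact ChIn.single ⟨rfl, fun a ha => by simp at ha⟩ _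
  | succ m ih =>
    intro δ hδ
    obtain ⟨δ', hδ', hfill⟩ := hF m δ hδ
    obtain ⟨A, hA0, hAe, hA⟩ := ih (min δ δ') (lt_min hδ hδ')
    have hB : ∀ l : List G, ∃ c : Ch F2 X, l.length = m →
        ChIn (fun l => l.length = m + 1 ∧ SmallL δ l) c ∧ dC c = lc A (dL F2 (1 :: l)) := by
      intro l
      by_cases hl : l.length = m
      · have h1 : ChIn (fun l' => l'.length = m) (dL F2 ((1 : G) :: l)) :=
          (chIn_dL _).mono fun l' h => by have := h.2; simp at this; omega
        obtain ⟨c, hc⟩ := hfill (lc A (dL F2 (1 :: l)))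
          (h1.lc fun l' h => (hA l' h.le).1.mono fun l'' h' =>
            ⟨h'.1.trans h, fun a ha b hb => (h'.2 a ha b hb).trans_le (min_le_right _ _)⟩)
          (by rw [dC_lc (h1.mono fun l' h => (hA l' h.le).2), dC_dL, map_zero])
        exact ⟨c, fun _ => hc⟩
      · exact ⟨0, fun h => absurd h hl⟩
    choose B hB using hB
    let A' : List G → Ch F2 X := fun l =>
      if l.length = m + 1 then
        mapC (l.headD 1 • ·) (B (l.tail.map ((l.headD 1)⁻¹ * ·))) else A l
    have hA'1 : ∀ l : List G, l.length ≠ m + 1 → A' l = A l := fun l hl => if_neg hl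
    have hA'2 : ∀ (a : G) (l : List G), l.length = m →
        A' (a :: l) = mapC (a • ·) (B (l.map (a⁻¹ * ·))) := fun a l hl =>
      if_pos (by simp [hl])
    have hlc : ∀ l : List G, l.length ≤ m + 1 → lc A' (dL F2 l) = lc A (dL F2 l) := fun l hl =>
      lc_congr ((chIn_dL l).mono fun l' h => hA'1 l' (by have := h.2; omega))
    refine ⟨A', by rw [hA'1 _ (by simp), hA0], fun g l => ?_, fun l hl => ?_⟩
    · by_cases hl : l.length = m + 1
      · cases l with
        | nil => simp at hl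
        | cons a l =>
          have hl' : l.length = m := by simpa using hl
          rw [List.map_cons, hA'2 _ _ (by simpa using hl'), hA'2 _ _ hl', mapC_mapC, List.map_map]
          congr 2
          · funext x; simp [mul_smul]
          · congr 1; funext x; simp [mul_assoc]
      · rw [hA'1 _ hl, hA'1 _ (by simpa using hl), hAe]
    · rw [hlc l hl]
      by_cases hl' : l.length = m + 1
      · cases l with
        | nil => simp at hl'
        | cons a l =>
          have hl'' : l.length = m := by simpa using hl'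
          obtain ⟨h1, h2⟩ := hB (l.map (a⁻¹ * ·)) (by simpa using hl'')
          rw [hA'2 _ _ hl'']
          refine ⟨h1.mapC _ fun l' h => ⟨by simpa [hl''] using h.1, fun x hx y hy => ?_⟩, ?_⟩
          · obtain ⟨x, hx', rfl⟩ := List.mem_map.1 hx
            obtain ⟨y, hy', rfl⟩ := List.mem_map.1 hy
            rw [isom]; exact h.2 x hx' y hy'
          · rw [dC_mapC, h2, mapC_lc hAe, mapC_dL]
            simp [List.map_map, Function.comp_def]
      · rw [hA'1 _ hl']
        obtain ⟨h1, h2⟩ := hA l (by omega)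
        exact ⟨h1.mono fun l' h =>
          ⟨h.1, fun a ha b hb => (h.2 a ha b hb).trans_le (min_le_left _ _)⟩, h2⟩

/-- the chain homotopy. -/
theorem exists_D {T : Finset G} (P : List G → Ch F2 G) (r rA m : ℕ)
    (h0 : P [] = Finsupp.single [] 1)
    (hP : ∀ l : List G, l.length ≤ m → SmallG T r l →
      ChIn (fun l' => l'.length = l.length ∧ ∀ b ∈ l', ∃ a ∈ l, Near T rA a b) (P l) ∧
      dC (P l) = lc P (dL F2 l)) (n : ℕ) (hn : n ≤ m) :
    ∃ D : List G → Ch F2 G, ∀ l : List G, l.length ≤ n → SmallG T r l →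
      ChIn (fun l' => l'.length = l.length + 1 ∧ ∀ b ∈ l', ∃ a ∈ l, Near T rA a b) (D l) ∧
      dC (D l) + lc D (dL F2 l) = P l + Finsupp.single l 1 := by
  classical
  induction n with
  | zero =>
    refine ⟨fun _ => 0, fun l hl _ => ⟨ChIn.zero _, ?_⟩⟩
    obtain rfl : l = [] := List.length_eq_zero_iff.1 (Nat.le_zero.1 hl)
    rw [h0, ch_add_self, dL_nil]; simp
  | succ n ih =>
    obtain ⟨D, hD⟩ := ih (by omega)
    let D' : List G → Ch F2 G := fun l =>
      if l.length = n + 1 then
        consC (l.headD 1) (P l + Finsupp.single l 1 + lc D (dL F2 l)) else D l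
    have hD'1 : ∀ l : List G, l.length ≠ n + 1 → D' l = D l := fun l hl => if_neg hl
    have hlc : ∀ l : List G, l.length ≤ n + 1 → lc D' (dL F2 l) = lc D (dL F2 l) := fun l hl =>
      lc_congr ((chIn_dL l).mono fun l' h => hD'1 l' (by have := h.2; omega))
    refine ⟨D', fun l hl hs => ?_⟩
    rw [hlc l hl]
    by_cases hl' : l.length = n + 1
    · cases l with
      | nil => simp at hl'
      | cons a l =>
        have e : D' (a :: l) =
            consC a (P (a :: l) + Finsupp.single (a :: l) 1 + lc D (dL F2 (a :: l))) := if_pos hl'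
        have hface : ChIn (fun l' => l'.Sublist (a :: l) ∧ l'.length = n ∧ SmallG T r l')
            (dL F2 (a :: l)) := (chIn_dL _).mono fun l' h =>
          ⟨h.1, by have := h.2; omega, fun x hx y hy => hs x (h.1.subset hx) y (h.1.subset hy)⟩
        obtain ⟨hP1, hP2⟩ := hP (a :: l) (by omega) hs
        rw [e]
        constructor
        · refine ChIn.consC (P := fun l' => l'.length = (a :: l).length ∧
            ∀ b ∈ l', ∃ a' ∈ a :: l, Near T rA a' b) a ((hP1.add (ChIn.single ⟨rfl, fun b hb =>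
              ⟨b, hb, Near.refl _ _⟩⟩ _)).add (hface.lc fun l' h => ?_)) fun l' h => ⟨?_, ?_⟩
          · refine (hD l' h.2.1.le h.2.2).1.mono fun l'' h' => ⟨by omega, fun b hb => ?_⟩
            obtain ⟨a', ha', h''⟩ := h'.2 b hb
            exact ⟨a', h.1.subset ha', h''⟩
          · simp [h.1]
          · intro b hb
            rcases List.mem_cons.1 hb with rfl | hb
            · exact ⟨b, List.mem_cons_self, Near.refl _ _⟩
            · exact h.2 b hb
        · have h1 : dC (lc D (dL F2 (a :: l))) + lc D (dC (dL F2 (a :: l))) =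
              lc P (dL F2 (a :: l)) + dL F2 (a :: l) := by
            refine ChainAux.ext (k := F2) (Φ := dC ∘ₗ lc D + lc D ∘ₗ dC)
              (Ψ := lc P + LinearMap.id) fun l' hl' => ?_
            have := (hD l' (hface l' hl').2.1.le (hface l' hl').2.2).2
            simpa [lc_single, dC_single] using this
          rw [dC_dL, map_zero, add_zero] at h1
          have h2 : dC (P (a :: l) + Finsupp.single (a :: l) 1 + lc D (dL F2 (a :: l))) = 0 := by
            rw [map_add, map_add, hP2, dC_single, one_smul, h1, ch_add_self]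
          rw [dC_consC, h2, map_zero, sub_zero, add_assoc, ch_add_self, add_zero]
    · rw [hD'1 _ hl']
      exact hD l (by omega) hs

theorem thick {r : ℝ} (hr : 0 < r) (hc : ∀ x : X, IsCompact (Metric.closedBall x r)) {K : Set X}
    (hK : IsCompact K) : ∃ K' : Set X, IsCompact K' ∧ ∀ x ∈ K, ∀ y, dist y x < r / 2 → y ∈ K' := by
  obtain ⟨t, -, ht, hcov⟩ := hK.finite_cover_balls (half_pos hr)
  refine ⟨⋃ c ∈ t, Metric.closedBall c r, ht.isCompact_biUnion fun c _ => hc c, fun x hx y hy => ?_⟩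
  obtain ⟨c, hct, hxc⟩ := mem_iUnion₂.1 (hcov hx)
  refine mem_biUnion hct ?_
  rw [Metric.mem_ball] at hxc
  rw [Metric.mem_closedBall]
  linarith [dist_triangle y x c]

end CmpAux

open CmpAux in
theorem cmpP : CmpP := by
  intro G X _ _ _ T hT hS hg hF hR
  classical
  obtain ⟨K, hK, hKc⟩ := hT.cocpt
  choose γ hγ using hKc
  obtain ⟨ρ, hρ, hρc⟩ := hT.ucpt
  have near : ∀ K' : Set X, IsCompact K' → ∃ n : ℕ, ∀ (a : G) (y : X), a⁻¹ • y ∈ K' →
      Near T n a (γ y)⁻¹ := by
    intro K' hK'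
    obtain ⟨n, hn⟩ := exists_subset_Bl hS (hT.pd K K' hK hK') (by rw [hg]; exact subset_univ _)
    exact ⟨n, fun a y h => hn ⟨γ y • y, hγ y, by rwa [mul_smul, inv_smul_smul]⟩⟩
  obtain ⟨K', hK', hKK'⟩ := thick hρ hρc hK
  obtain ⟨r1, hr1⟩ := near K' hK'
  refine ⟨fun x => (γ x)⁻¹, ρ / 2, r1, half_pos hρ, fun x y hxy => hr1 _ _ ?_, fun F hFf => ?_,
    fun r m => ?_⟩
  · rw [inv_inv]
    exact hKK' _ (hγ x) _ (by rwa [hT.isom, dist_comm])
  · refine ⟨⋃ g ∈ F, (fun x => g • x) '' K, hFf.isCompact_biUnion fun g _ =>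
      hK.image (Isometry.of_dist_eq (hT.isom g)).continuous, fun x hx => ?_⟩
    exact mem_biUnion hx ⟨γ x • x, hγ x, inv_smul_smul _ _⟩
  obtain ⟨δ, hδ, hRef⟩ := hR m (ρ / 2) (half_pos hρ)
  obtain ⟨A0, hA00, hA0e, hA0⟩ := exists_A0 hT.isom hF m δ hδ
  have hfin : (⋃ l ∈ {l : List G | l.length ≤ m ∧ SmallG T r l ∧ ∃ a ∈ l, a ∈ ({1} : Set G)},
      ⋃ l' ∈ ((A0 l).support : Set (List X)), {x | x ∈ l'}).Finite :=
    (smallG_finite r m (finite_singleton 1)).biUnion fun l _ =>
      (Finset.finite_toSet _).biUnion fun l' _ => List.finite_toSet l'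
  obtain ⟨K'', hK'', hKK''⟩ := thick hρ hρc hfin.isCompact
  obtain ⟨rA, hrA⟩ := near K'' hK''
  have hent : ∀ (a : G) (l : List G), (a :: l).length ≤ m → SmallG T r (a :: l) →
      ChIn (fun l' => ∀ x ∈ l', ∀ y, dist y x < ρ / 2 → a⁻¹ • y ∈ K'') (A0 (a :: l)) := by
    intro a l hl hs
    have e : a :: l = ((a :: l).map (a⁻¹ * ·)).map (a * ·) := by
      simp [List.map_map, Function.comp_def]
    rw [e, hA0e]
    refine ChIn.mapC (P := fun l' => l' ∈ (A0 ((a :: l).map (a⁻¹ * ·))).support) _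
      (fun _ h => h) fun l' hl' x hx y hy => ?_
    obtain ⟨x, hx', rfl⟩ := List.mem_map.1 hx
    refine hKK'' x (mem_biUnion (x := (a :: l).map (a⁻¹ * ·)) ⟨by simpa using hl, ?_, 1, by simp, rfl⟩
      (mem_biUnion hl' hx')) _ ?_
    · intro u hu v hv
      obtain ⟨u, hu', rfl⟩ := List.mem_map.1 hu
      obtain ⟨v, hv', rfl⟩ := List.mem_map.1 hv
      exact (near_mul_left _).2 (hs u hu' v hv')
    · rwa [← hT.isom a, smul_inv_smul]
  refine ⟨rA + r + rA, fun η hη => ?_⟩
  obtain ⟨R, hR0, -, hRl⟩ := hRef η hη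
  let A : List G → Ch F2 X := fun l => lc R (A0 l)
  have hAnil : A [] = Finsupp.single [] 1 := by
    simp only [A]; rw [hA00, lc_single, hR0, one_smul]
  have hA1 : ∀ l : List G, l.length ≤ m → SmallG T r l →
      ChIn (fun l' => l'.length = l.length ∧ SmallL η l' ∧
        ∀ y ∈ l', ∃ a ∈ l, a⁻¹ • y ∈ K'') (A l) := by
    intro l hl hs
    cases l with
    | nil => rw [hAnil]; exact ChIn.single ⟨rfl, fun a ha => by simp at ha, by simp⟩ _
    | cons a l =>
      refine ((hA0 _ hl).1.and (hent a l hl hs)).lc fun l' h => ?_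
      cases l' with
      | nil => have := h.1.1; simp at this
      | cons x l' =>
        refine (hRl x l' (h.1.1.trans_le hl) h.1.2).1.mono fun l'' h' =>
          ⟨h'.1.trans h.1.1, h'.2.1, fun y hy =>
            ⟨a, List.mem_cons_self, h.2 x List.mem_cons_self y (h'.2.2 y hy)⟩⟩
  have hA2 : ∀ l : List G, l.length ≤ m → dC (A l) = lc A (dL F2 l) := by
    intro l hl
    simp only [A]
    rw [dC_lc, (hA0 l hl).2, lc_lc]
    refine (hA0 l hl).1.mono fun l' h => ?_
    cases l' with
    | nil => rw [hR0, dC_single, dL_nil]; simp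
    | cons x l' => exact (hRl x l' (h.1.trans_le hl) h.2).2
  obtain ⟨D, hD⟩ := exists_D (T := T) (fun l => mapC (fun x => (γ x)⁻¹) (A l)) r rA m
    (by rw [hAnil, mapC_single]; rfl) (fun l hl hs => ⟨(hA1 l hl hs).mapC _ fun l' h =>
      ⟨by simpa using h.1, fun b hb => by
        obtain ⟨y, hy, rfl⟩ := List.mem_map.1 hb
        obtain ⟨a, ha, h'⟩ := h.2.2 y hy
        exact ⟨a, ha, hrA a y h'⟩⟩, by rw [dC_mapC, hA2 l hl, map_lc]⟩) m le_rfl
  refine ⟨A, D, fun l hl hs => ⟨(hA1 l hl hs).mono fun l' h => ⟨h.1, h.2.1⟩, hA2 l hl,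
    (hD l hl hs).1.mono fun l' h => ⟨h.1, fun b hb b' hb' => ?_, fun a ha b hb => ?_⟩,
    (hD l hl hs).2⟩, fun K0 hK0 => ?_⟩
  · obtain ⟨a, ha, h1⟩ := h.2 b hb
    obtain ⟨a', ha', h2⟩ := h.2 b' hb'
    exact ((h1.symm hS).trans (hs a ha a' ha')).trans h2
  · obtain ⟨a', ha', h2⟩ := h.2 b hb
    exact ((hs a ha a' ha').trans h2).mono (by omega)
  · have hf := (hT.pd K0 K'' hK0 hK'').preimage (f := fun g : G => g⁻¹) inv_injective.injOn
    refine (smallG_finite (T := T) r m hf).subset ?_
    rintro l ⟨hl, hs, l', hl', x, hx, hxK⟩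
    obtain ⟨a, ha, h⟩ := (hA1 l hl hs l' hl').2.2 x hx
    exact ⟨hl, hs, a, ha, x, hxK, h⟩

end Crest.Agent.R224
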