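import Crest.Agent.R224.Defs

/-! Row 224: a co-area inequality on Cayley graphs. -/

namespace Crest.Agent.R224

open Crest.Agent.Lib.KyFan Set Filter Topology MeasureTheory

namespace CoareaAux

variable {G : Type} [Group G] {T : Finset G}

/-- a boundary vertex of a sublevel set has its value close to the level. -/
theorem mem_Icc_of_bd {ψ v : G → ℝ} (hv : ∀ x y, Adj T x y → |v y - v x| ≤ ψ x) {s : ℝ} {x : G}
    (hx : x ∈ bd T {x | v x < s}) : s ∈ Icc (v x - ψ x) (v x + ψ x) := by
  obtain ⟨y, hxy, hn⟩ := hx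
  have h1 := abs_le.1 (hv x y hxy)
  simp only [mem_ofPred_eq] at hn
  by_cases hx : v x < s
  · have hy : s ≤ v y := not_lt.1 fun hy => hn (iff_of_true hx hy)
    exact ⟨by linarith [h1.1, h1.2], by linarith [h1.1, h1.2]⟩
  · have hy : v y < s := by
      by_contra hy
      exact hn (iff_of_false hx hy)
    have hx' := not_lt.1 hx
    exact ⟨by linarith [h1.1, h1.2], by linarith [h1.1, h1.2]⟩

end CoareaAux

open CoareaAux in
theorem coareaP : CoareaP := by
  intro G _ _ T φ ψ v α β c hφ hψ hv hsum hαβ hlt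
  by_contra hcon
  push Not at hcon
  set g : ℝ → ENNReal := fun s =>
    ∑' x : G, (Icc (v x - ψ x) (v x + ψ x)).indicator (fun _ => ENNReal.ofReal (φ x)) s with hg
  have hnull : volume (range v) = 0 := (countable_range v).measure_zero _
  have hae : ∀ᵐ s ∂(volume.restrict (Ioo α β)), ENNReal.ofReal c ≤ g s := by
    rw [ae_restrict_iff' measurableSet_Ioo]
    filter_upwards [measure_eq_zero_iff_ae_notMem.1 hnull] with s hs hsI
    obtain ⟨F, hF, hcF⟩ := hcon s hsI fun x hx => hs ⟨x, hx⟩
    calc ENNReal.ofReal c ≤ ENNReal.ofReal (∑ x ∈ F, φ x) := ENNReal.ofReal_le_ofReal hcF.le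
      _ = ∑ x ∈ F, (Icc (v x - ψ x) (v x + ψ x)).indicator
            (fun _ => ENNReal.ofReal (φ x)) s := by
          rw [ENNReal.ofReal_sum_of_nonneg fun x _ => hφ x]
          exact Finset.sum_congr rfl fun x hx => by
            rw [indicator_of_mem (mem_Icc_of_bd hv (hF x hx))]
      _ ≤ g s := ENNReal.sum_le_tsum F
  have h1 : ENNReal.ofReal (c * (β - α)) ≤ ∫⁻ s in Ioo α β, g s := by
    have hc : 0 ≤ c := by
      have h0 : 0 ≤ ∑' x, φ x * ψ x := tsum_nonneg fun x => mul_nonneg (hφ x) (hψ x)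
      by_contra hc
      have := mul_neg_of_neg_of_pos (not_le.1 hc) (sub_pos.2 hαβ)
      linarith
    calc ENNReal.ofReal (c * (β - α)) = ∫⁻ _ in Ioo α β, ENNReal.ofReal c := by
          rw [setLIntegral_const, Real.volume_Ioo, ENNReal.ofReal_mul hc]
      _ ≤ _ := lintegral_mono_ae hae
  have h2 : ∫⁻ s, g s = ENNReal.ofReal (2 * ∑' x, φ x * ψ x) := by
    rw [hg, lintegral_tsum fun x =>
      (measurable_const.indicator measurableSet_Icc).aemeasurable, ← tsum_mul_left,
      ENNReal.ofReal_tsum_of_nonneg (fun x => by have := hφ x; have := hψ x; positivity)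
        (hsum.mul_left 2)]
    refine tsum_congr fun x => ?_
    rw [lintegral_indicator_const measurableSet_Icc, Real.volume_Icc, ← ENNReal.ofReal_mul (hφ x)]
    congr 1
    ring
  have h3 : ENNReal.ofReal (c * (β - α)) ≤ ENNReal.ofReal (2 * ∑' x, φ x * ψ x) :=
    h1.trans ((setLIntegral_le_lintegral _ _).trans h2.le)
  have h0 : 0 ≤ ∑' x, φ x * ψ x := tsum_nonneg fun x => mul_nonneg (hφ x) (hψ x)
  rw [ENNReal.ofReal_le_ofReal_iff (by linarith)] at h3
  linarith

end Crest.Agent.R224
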