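import Crest.Agent.R224.Chain

/-! Row 224: filling small cycles along a contraction of a compact set. -/

namespace Crest.Agent.R224

open Set Filter Topology Metric

theorem contrP : ContrP := by
  intro k X _ _ A B x0 H hA hH h0 h1 hB hx0 η hη
  have hU := (isCompact_Icc.prod hA).uniformContinuousOn_of_continuous hH
  obtain ⟨δ, hδ, hUC⟩ := Metric.uniformContinuousOn_iff.1 hU η hη
  obtain ⟨N, hN⟩ := exists_nat_one_div_lt hδ
  refine ⟨δ, hδ, fun n z hz hdz => ?_⟩
  have hN0 : (0 : ℝ) < (N : ℝ) + 1 := by positivity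
  set τ : ℕ → ℝ := fun i => (i : ℝ) / ((N : ℝ) + 1) with hτ
  have hτI : ∀ i ≤ N + 1, τ i ∈ Icc (0 : ℝ) 1 := by
    intro i hi
    refine ⟨by positivity, (div_le_one hN0).2 ?_⟩
    exact_mod_cast hi
  have hstep : ∀ i, dist (τ i) (τ (i + 1)) < δ := by
    intro i
    have : τ i - τ (i + 1) = -(1 / ((N : ℝ) + 1)) := by
      simp only [hτ]; push_cast; field_simp; ring
    rw [Real.dist_eq, this, abs_neg, abs_of_pos (by positivity)]
    exact hN
  have key : ∀ i ≤ N + 1, ∃ c : Ch k X,
      ChIn (fun l => l.length = n + 1 ∧ SmallL η l ∧ ∀ a ∈ l, a ∈ B) c ∧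
        dC c = z - mapC (H (τ i)) z := by
    intro i
    induction i with
    | zero =>
      intro _
      refine ⟨0, ChIn.zero _, ?_⟩
      have : mapC (H (τ 0)) z = mapC (fun x => x) z := by
        refine mapC_congr (hz.mono fun l hl a ha => ?_)
        have : τ 0 = 0 := by simp [hτ]
        rw [this]
        exact h0 a (hl.2.2 a ha)
      rw [this, mapC_id, map_zero, sub_self]
    | succ i ih =>
      intro hi
      obtain ⟨c, hc, hdc⟩ := ih (by omega)
      have hi0 := hτI i (by omega)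
      have hi1 := hτI (i + 1) hi
      refine ⟨c - lc (prL k (H (τ i)) (H (τ (i + 1)))) z, hc.sub (hz.lc fun l hl => ?_), ?_⟩
      · refine (chIn_prL _ _ l).mono fun m hm => ⟨by rw [hm.1, hl.1], fun a ha b hb => ?_,
          fun b hb => ?_⟩
        · obtain ⟨a', ha', ea⟩ := hm.2 a ha
          obtain ⟨b', hb', eb⟩ := hm.2 b hb
          have hd := hl.2.1 a' ha' b' hb'
          have gen : ∀ s t : ℝ, s ∈ Icc (0 : ℝ) 1 → t ∈ Icc (0 : ℝ) 1 → dist s t < δ →
              dist (H s a') (H t b') < η := fun s t hs ht hst =>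
            hUC (s, a') ⟨hs, hl.2.2 a' ha'⟩ (t, b') ⟨ht, hl.2.2 b' hb'⟩
              (by rw [Prod.dist_eq]; exact max_lt hst hd)
          rcases ea with rfl | rfl <;> rcases eb with rfl | rfl
          · exact gen _ _ hi0 hi0 (by rw [dist_self]; exact hδ)
          · exact gen _ _ hi0 hi1 (hstep i)
          · exact gen _ _ hi1 hi0 (by rw [dist_comm]; exact hstep i)
          · exact gen _ _ hi1 hi1 (by rw [dist_self]; exact hδ)
        · obtain ⟨b', hb', eb⟩ := hm.2 b hb
          rcases eb with rfl | rfl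
          · exact hB _ hi0 _ (hl.2.2 b' hb')
          · exact hB _ hi1 _ (hl.2.2 b' hb')
      · have h2 := dC_lc_prL (H (τ i)) (H (τ (i + 1))) z
        rw [hdz, map_zero, add_zero] at h2
        rw [map_sub, hdc, h2]
        abel
  obtain ⟨c, hc, hdc⟩ := key (N + 1) le_rfl
  have hw : mapC (H (τ (N + 1))) z = mapC (fun _ => x0) z := by
    refine mapC_congr (hz.mono fun l hl a ha => ?_)
    have : τ (N + 1) = 1 := by
      simp only [hτ]; push_cast; exact div_self hN0.ne'
    rw [this]
    exact h1 a (hl.2.2 a ha)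
  rw [hw] at hdc
  refine ⟨c + consC x0 (mapC (fun _ => x0) z), hc.add ?_, ?_⟩
  · refine ChIn.consC (P := fun l => l.length = n ∧ ∀ a ∈ l, a = x0) x0
      (hz.mapC _ fun l hl => ⟨by rw [List.length_map, hl.1], fun a ha => ?_⟩) fun l hl => ?_
    · obtain ⟨_, _, rfl⟩ := List.mem_map.1 ha
      rfl
    · have h2 : ∀ a ∈ x0 :: l, a = x0 := fun a ha =>
        (List.mem_cons.1 ha).elim id (hl.2 a)
      refine ⟨by rw [List.length_cons, hl.1], fun a ha b hb => ?_, fun a ha => ?_⟩
      · rw [h2 a ha, h2 b hb, dist_self]; exact hη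
      · rw [h2 a ha]; exact hx0
  · rw [map_add, hdc, dC_consC, dC_mapC, hdz, map_zero, map_zero]
    abel

end Crest.Agent.R224
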