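import Crest.Agent.R224.Api

/-! Row 224: the convergence property. -/

namespace Crest.Agent.R224

open Set Filter Topology
open scoped Pointwise

namespace ConvAux

variable {G : Type} [Group G] {Y : Type} [MetricSpace Y] [MulAction G Y] {T : Finset G} {o : Y}

open Classical in
theorem tail {α : Type} {f : α → ℝ} (h0 : ∀ x, 0 ≤ f x) (hf : Summable f) {δ : ℝ} (hδ : 0 < δ) :
    ∃ F : Finset α, Summable (fun x => if x ∈ F then 0 else f x) ∧
      ∑' x, (if x ∈ F then 0 else f x) ≤ δ := by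
  obtain ⟨F, hF⟩ := summable_iff_vanishing.1 hf (Iio δ) (Iio_mem_nhds hδ)
  have hs : Summable fun x => if x ∈ F then 0 else f x :=
    Summable.of_nonneg_of_le (fun x => by split_ifs; exacts [le_rfl, h0 x])
      (fun x => by split_ifs; exacts [h0 x, le_rfl]) hf
  refine ⟨F, hs, hs.tsum_le_of_sum_le fun s => ?_⟩
  have h1 := hF (s.filter fun x => x ∉ F) (Finset.disjoint_left.2 fun x hx => by
    simpa using (Finset.mem_filter.1 hx).2)
  rw [Finset.sum_filter] at h1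
  refine le_of_eq_of_le (Finset.sum_congr rfl fun x _ => ?_) (le_of_lt h1)
  by_cases hx : x ∈ F <;> simp [hx]

/-- matrix coefficients of the regular representation vanish at infinity. -/
theorem weak {φ ψ : G → ℝ} (h1 : ∀ x, 0 ≤ φ x) (h2 : ∀ x, 0 ≤ ψ x)
    (hφ : Summable fun x => φ x ^ 2) (hψ : Summable fun x => ψ x ^ 2) {c : ℝ} (hc : 0 < c) :
    ∃ F : Set G, F.Finite ∧ ∀ g, g ∉ F → Summable (fun x => φ x * ψ (g⁻¹ * x)) ∧
      ∑' x, φ x * ψ (g⁻¹ * x) < c := by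
  classical
  have hA : 0 ≤ ∑' x, φ x ^ 2 := tsum_nonneg fun _ => sq_nonneg _
  have hB : 0 ≤ ∑' x, ψ x ^ 2 := tsum_nonneg fun _ => sq_nonneg _
  set A := ∑' x, φ x ^ 2 with hAdef
  set B := ∑' x, ψ x ^ 2 with hBdef
  obtain ⟨t, ht, htc⟩ : ∃ t : ℝ, 0 < t ∧ t * (A + B) < c / 2 := by
    refine ⟨c / 2 / (A + B + 1), by positivity, ?_⟩
    rw [div_mul_eq_mul_div, div_lt_iff₀ (by positivity)]
    nlinarith
  have hδ : 0 < t * c / 4 := by positivity
  obtain ⟨F, hF, hF'⟩ := tail (fun x => sq_nonneg (φ x)) hφ hδ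
  obtain ⟨E, hE, hE'⟩ := tail (fun x => sq_nonneg (ψ x)) hψ hδ
  refine ⟨(F : Set G) * (E : Set G)⁻¹, F.finite_toSet.mul E.finite_toSet.inv, fun g hg => ?_⟩
  have k1 := ((Equiv.mulLeft g⁻¹).hasSum_iff.2 hψ.hasSum)
  have k2 := ((Equiv.mulLeft g⁻¹).hasSum_iff.2 hE.hasSum)
  have k3 := ((hφ.hasSum.add k1).mul_left t).add ((hF.hasSum.add k2).mul_left t⁻¹)
  have k4 : ∀ x, φ x * ψ (g⁻¹ * x) ≤ t * (φ x ^ 2 + ψ (g⁻¹ * x) ^ 2) +
      t⁻¹ * ((if x ∈ F then 0 else φ x ^ 2) + if g⁻¹ * x ∈ E then 0 else ψ (g⁻¹ * x) ^ 2) := by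
    intro x
    have amgm : ∀ a b : ℝ, 0 ≤ a → 0 ≤ b → a * b ≤ t * b ^ 2 + t⁻¹ * a ^ 2 := fun a b ha hb => by
      have e : t * b ^ 2 + t⁻¹ * a ^ 2 - 2 * (a * b) = t⁻¹ * (a - t * b) ^ 2 := by
        field_simp; ring
      have : 0 ≤ t⁻¹ * (a - t * b) ^ 2 := by positivity
      have : 0 ≤ a * b := by positivity
      linarith
    have p1 : 0 ≤ t * φ x ^ 2 := by positivity
    have p2 : 0 ≤ t * ψ (g⁻¹ * x) ^ 2 := by positivity
    have p3 : 0 ≤ t⁻¹ * φ x ^ 2 := by positivity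
    have p4 : 0 ≤ t⁻¹ * ψ (g⁻¹ * x) ^ 2 := by positivity
    have a1 := amgm _ _ (h1 x) (h2 (g⁻¹ * x))
    have a2 := amgm _ _ (h2 (g⁻¹ * x)) (h1 x)
    by_cases hx : x ∈ F <;> by_cases hx' : g⁻¹ * x ∈ E
    · exact absurd ⟨x, hx, (g⁻¹ * x)⁻¹, by simpa using hx', by simp⟩ hg
    · rw [if_pos hx, if_neg hx']; linarith
    · rw [if_neg hx, if_pos hx']; linarith
    · rw [if_neg hx, if_neg hx']; linarith
  have k5 : Summable fun x => φ x * ψ (g⁻¹ * x) :=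
    Summable.of_nonneg_of_le (fun x => mul_nonneg (h1 _) (h2 _)) k4 k3.summable
  refine ⟨k5, (hasSum_le k4 k5.hasSum k3).trans_lt ?_⟩
  have k6 := mul_le_mul_of_nonneg_left (add_le_add hF' hE') (inv_pos.2 ht).le
  have e : t⁻¹ * (t * c / 4 + t * c / 4) = c / 2 := by field_simp; ring
  linarith

/-- connected sets away from `g⁻¹` are contracted by `g`. -/
theorem h0 (hC : CoareaP) (hT : Hyp T) (hs : Sp T o) (hM : MaxP T o) {ε η : ℝ} (hε : 0 < ε)
    (hη : 0 < η) : ∃ F : Set G, F.Finite ∧ ∀ g, g ∉ F → ∀ a b : G,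
      Path T {x | ε ≤ dist (g⁻¹ • o) (x • o)} a b → dist ((g * a) • o) ((g * b) • o) ≤ η := by
  have := countable_of_gen hT.gen
  obtain ⟨R1, hR1⟩ := hT.wall_conn
  obtain ⟨φ, φ0, φs, hφ⟩ := hs.exists_phi R1
  obtain ⟨ψ, ψ0, ψs, hψ⟩ := hs.exists_phi 1
  obtain ⟨F1, hF1, h1⟩ := weak φ0 ψ0 φs ψs (c := η * ε / 8) (by positivity)
  obtain ⟨F0, hF0, hmax⟩ := hM (η / 2) (half_pos hη)
  have hF2 := hs.shrink hF0 (half_pos hε)
  refine ⟨F1 ∪ {x : G | ∃ e ∈ F0, ε / 2 ≤ dist (x • o) ((x * e) • o)}⁻¹, hF1.union hF2.inv,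
    fun g hg a b hab => ?_⟩
  simp only [mem_union, not_or, Set.mem_inv, mem_ofPred_eq, not_exists, not_and, not_le] at hg
  obtain ⟨k1, k2⟩ := h1 g hg.1
  obtain ⟨s, hs1, -, hs2⟩ := hC G T φ (fun x => ψ (g⁻¹ * x))
    (fun x => dist (g⁻¹ • o) ((g⁻¹ * x) • o)) (ε / 2) ε (η / 2) φ0 (fun x => ψ0 _)
    (fun x y hxy => by
      refine le_trans ?_ (hψ (g⁻¹ * x) (g⁻¹ * y) ((adj_mul_left g⁻¹).2 hxy).near)
      rw [dist_comm (g⁻¹ • o), dist_comm (g⁻¹ • o), dist_comm ((g⁻¹ * x) • o) ((g⁻¹ * y) • o)]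
      exact abs_dist_sub_le _ _ _)
    k1 (by linarith) (by linarith)
  set H : Set G := {x | dist (g⁻¹ • o) ((g⁻¹ * x) • o) < s} with hH
  have hH1 : ∀ x ∈ H, Path T H 1 x := fun x hx => by
    have := (hs.inner g⁻¹ (g⁻¹ * x) s hx).mul_left g
    rwa [mul_inv_cancel, mul_inv_cancel_left] at this
  have hHc : Conn T H := fun x hx y hy => ((hH1 x hx).symm hT.symm).trans (hH1 y hy)
  have hne : H.Nonempty := ⟨1, by
    rw [hH, mem_ofPred_eq, mul_one, dist_self]; linarith [hs1.1]⟩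
  obtain ⟨c1, c2, c3⟩ := component_compl hT.symm hT.gen hHc hne (g * a)
  have hp : Path T Hᶜ (g * a) (g * b) :=
    (hab.mul_left g).mono fun x hx hx' => by
      have h3 : ε ≤ dist (g⁻¹ • o) ((g⁻¹ * x) • o) := hx
      have h4 : dist (g⁻¹ • o) ((g⁻¹ * x) • o) < s := hx'
      linarith [hs1.2]
  have := hmax _ (η / 2) c1
    (disjoint_left.2 fun x hx hx' => Path.right hx ((hg.2 x hx').trans hs1.1))
    (fun x hx x' hx' => chain_dist φ0 hφ (fun F hF => hs2 F fun x hx => c3 (hF x hx)) hx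
      (hR1 _ c1 c2 x hx x' hx')) (g * a) (Path.refl hp.left) (g * b) hp
  linarith

theorem vertex (hC : CoareaP) (hT : Hyp T) (hs : Sp T o) (hM : MaxP T o) {ε η : ℝ} (hε : 0 < ε)
    (hη : 0 < η) : ∃ F : Set G, F.Finite ∧ ∀ g, g ∉ F → ∀ a : G,
      ε ≤ dist (g⁻¹ • o) (a • o) → dist (g • o) ((g * a) • o) ≤ η := by
  obtain ⟨F1, hF1, h1⟩ := h0 hC hT hs hM (ε := η / 2) (η := ε / 4) (by positivity) (by positivity)
  obtain ⟨F2, hF2, h2⟩ :=
    h0 hC hT hs hM (ε := 3 * ε / 4) (η := η / 4) (by positivity) (by positivity)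
  have hE := hs.shrink_adj (ε := η / 4) (by positivity)
  have hF3 := hs.shrink hE (ε := 3 * ε / 4) (by positivity)
  refine ⟨_, (hF1.inv.union hF2).union hF3.inv, fun g hg a ha => ?_⟩
  simp only [mem_union, not_or, Set.mem_inv] at hg
  by_contra hlt
  rw [not_le] at hlt
  set S : Set G := {c | Path T {x | η / 2 ≤ dist (g • o) (x • o)} (g * a) c} with hS
  have ha' : g * a ∈ S := Path.refl (by rw [mem_ofPred_eq]; linarith)
  have hg' : g ∉ S := fun h => by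
    have h3 := Path.right h
    rw [mem_ofPred_eq, dist_self] at h3
    linarith
  obtain ⟨q, h, hq, hh, hqh⟩ : ∃ q h, q ∈ S ∧ h ∉ S ∧ Adj T q h := by
    obtain ⟨x, -, y, -, hxy, hn⟩ := (conn_univ hT.symm hT.gen (g * a) trivial g trivial).exists_cross
      (H := S) fun h => hg' (h.1 ha')
    by_cases hx : x ∈ S
    · exact ⟨x, y, hx, fun hy => hn (iff_of_true hx hy), hxy⟩
    · exact ⟨y, x, by_contra fun hy => hn (iff_of_false hx hy), hx, hxy.symm hT.symm⟩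
  have hh' : dist (g • o) (h • o) < η / 2 := by
    by_contra h3
    exact hh (Path.tail hq hqh (not_lt.1 h3))
  have k1 : ∀ c ∈ S, 3 * ε / 4 ≤ dist (g⁻¹ • o) ((g⁻¹ * c) • o) := fun c hc => by
    have h3 := h1 g⁻¹ hg.1.1 (g * a) c (by rwa [inv_inv])
    rw [inv_mul_cancel_left] at h3
    linarith [dist_triangle_right (g⁻¹ • o) (a • o) ((g⁻¹ * c) • o)]
  have k2 : Path T {x | 3 * ε / 4 ≤ dist (g⁻¹ • o) (x • o)} a (g⁻¹ * q) := by
    have h3 := (Path.reach hq).mul_left g⁻¹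
    rw [inv_mul_cancel_left] at h3
    refine h3.mono fun x hx => ?_
    have h4 := k1 _ hx
    rwa [inv_inv, inv_mul_cancel_left] at h4
  have k3 := h2 g hg.1.2 a (g⁻¹ * q) k2
  rw [mul_inv_cancel_left] at k3
  have k4 : dist (q • o) (h • o) < η / 4 := by
    by_contra h3
    exact hg.2 ⟨q, ⟨h, hqh, not_lt.1 h3⟩, k1 q hq⟩
  linarith [dist_triangle_right (g • o) ((g * a) • o) (h • o),
    dist_triangle ((g * a) • o) (q • o) (h • o)]

end ConvAux

theorem convP (hC : CoareaP) : ConvP := by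
  intro G _ Y _ _ T o hT hs hM ε η hε hη
  obtain ⟨F, hF, h⟩ := ConvAux.vertex hC hT hs hM (half_pos hε) (half_pos hη)
  refine ⟨F, hF, fun g hg y hy => ?_⟩
  obtain ⟨δ, hδ, h1⟩ := Metric.continuousAt_iff.1 (hs.cont g).continuousAt (η / 2) (half_pos hη)
  obtain ⟨a, ha⟩ := hs.exists_vertex y (lt_min hδ (half_pos hε))
  have h2 := h1 (ha.trans_le (min_le_left _ _))
  have h3 := ha.trans_le (min_le_right _ _)
  have h5 := dist_triangle_left y (g⁻¹ • o) (a • o)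
  have h4 := h g hg a (by linarith [dist_comm (a • o) (g⁻¹ • o)])
  rw [mul_smul] at h4
  linarith [dist_triangle_left (g • y) (g • o) (g • a • o), dist_comm (g • o) (g • a • o)]

end Crest.Agent.R224
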