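import Crest.Agent.R224.Defs

/-! Row 224: the deck action of the fundamental group on a contractible covering space. -/

namespace Crest.Agent.R224

namespace DeckAux

variable {M E : Type} [TopologicalSpace M] [TopologicalSpace E] {p : E → M}

theorem lpc [LocallyPathConnectedSpace M] (hp : IsCoveringMap p) : LocallyPathConnectedSpace E := by
  choose φ h1 h2 using hp.isLocalHomeomorph
  let : ChartedSpace M E := ⟨Set.range φ, φ, h1, fun x => ⟨x, rfl⟩⟩
  exact ChartedSpace.locallyPathConnectedSpace M E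

/-- the deck group -/
def deck (p : E → M) : Subgroup (Equiv.Perm E) where
  carrier := {F | Continuous F ∧ Continuous F.symm ∧ ∀ z, p (F z) = p z}
  one_mem' := ⟨continuous_id, continuous_id, fun _ => rfl⟩
  mul_mem' := fun {F G} hF hG =>
    ⟨hF.1.comp hG.1, hG.2.1.comp hF.2.1, fun z => (hF.2.2 _).trans (hG.2.2 z)⟩
  inv_mem' := fun {F} hF => ⟨hF.2.1, hF.1, fun z => by
    have := hF.2.2 (F.symm z)
    rw [Equiv.apply_symm_apply] at this
    exact this.symm⟩

variable [SimplyConnectedSpace E]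

theorem deck_free (hp : IsCoveringMap p) {F : deck p} {x : E} (h : F • x = x) : F = 1 :=
  Subtype.ext (Equiv.ext (congrFun
    (hp.eq_of_comp_eq F.2.1 continuous_id (funext F.2.2.2) x h)))

theorem deck_trans [LocallyPathConnectedSpace E] (hp : IsCoveringMap p) {x y : E}
    (h : p x = p y) : ∃ F : deck p, F • x = y := by
  obtain ⟨F, ⟨F0, Fp⟩, -⟩ := hp.existsUnique_continuousMap_lifts ⟨p, hp.continuous⟩ x y h.symm
  obtain ⟨G, ⟨G0, Gp⟩, -⟩ := hp.existsUnique_continuousMap_lifts ⟨p, hp.continuous⟩ y x h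
  have h1 : G ∘ F = id := hp.eq_of_comp_eq (G.continuous.comp F.continuous) continuous_id
    (funext fun z => (congrFun Gp _).trans (congrFun Fp z)) x (by simp [F0, G0])
  have h2 : F ∘ G = id := hp.eq_of_comp_eq (F.continuous.comp G.continuous) continuous_id
    (funext fun z => (congrFun Fp _).trans (congrFun Gp z)) y (by simp [F0, G0])
  exact ⟨⟨⟨F, G, congrFun h1, congrFun h2⟩, F.continuous, G.continuous, congrFun Fp⟩, F0⟩

theorem quot [LocallyPathConnectedSpace E] (hp : IsCoveringMap p) (hs : Function.Surjective p) :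
    IsQuotientCoveringMap p (deck p) := by
  refine (isQuotientCoveringMap_iff_isCoveringMap_and _ _).2
    ⟨hp, hs, ⟨fun F => F.2.1⟩, ⟨fun F G x h => ?_⟩, fun {x y} => ⟨fun h => ?_, ?_⟩⟩
  · exact (inv_mul_eq_one.1 (deck_free hp (x := x) (by rw [mul_smul, h, inv_smul_smul]))).symm
  · exact deck_trans hp h.symm
  · rintro ⟨F, rfl⟩; exact F.2.2.2 y

end DeckAux

open DeckAux in
theorem deckP : DeckP := by
  intro M E _ _ _ _ p x hp hs
  have := lpc hp
  obtain ⟨e, he⟩ := hs x
  let φ : FundamentalGroup M x ≃* deck p :=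
    ((quot hp hs).fundamentalGroupEquiv ⟨e, he⟩).trans (MulEquiv.inv' (deck p)).symm
  refine ⟨MulAction.compHom E φ.toMonoidHom, fun g => (φ g).2.1, fun g z h => ?_,
    fun z z' => ⟨fun h => ?_, ?_⟩⟩
  · exact (MulEquiv.map_eq_one_iff φ).1 (deck_free hp h)
  · obtain ⟨F, hF⟩ := deck_trans hp h
    obtain ⟨g, rfl⟩ := φ.surjective F
    exact ⟨g, hF⟩
  · rintro ⟨g, rfl⟩; exact ((φ g).2.2.2 z).symm

end Crest.Agent.R224
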