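import Mathlib
import Crest.Agent.Lib.KyFan.Chains

/-!
# Row 224 (vanishing of the first L2-Betti number of closed aspherical 4-manifolds): definitions

Every task of row 224 proves one of the `...P` propositions of this file (possibly from other
`...P` propositions given as hypotheses).
-/

namespace Crest.Agent.R224

open Crest.Agent.Lib.KyFan Set Filter Topology
open scoped Pointwise

/-! ## Part 0. Cayley graphs -/

section Cayley
variable {G : Type} [Group G]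

/-- `b = a t` with `t ∈ T`. -/
def Adj (T : Finset G) (a b : G) : Prop := a⁻¹ * b ∈ T

/-- ball of radius `n` about `1` in the word metric. -/
def Bl (T : Finset G) (n : ℕ) : Set G := (insert 1 (T : Set G)) ^ n

/-- word distance at most `n`. -/
def Near (T : Finset G) (n : ℕ) (a b : G) : Prop := a⁻¹ * b ∈ Bl T n

/-- vertices with a neighbour on the other side of `H`. -/
def bd (T : Finset G) (H : Set G) : Set G := {a | ∃ b, Adj T a b ∧ ¬ (a ∈ H ↔ b ∈ H)}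

/-- an edge path from `a` to `b` inside `Q`. -/
def Path (T : Finset G) (Q : Set G) (a b : G) : Prop :=
  a ∈ Q ∧ Relation.ReflTransGen (fun x y => y ∈ Q ∧ Adj T x y) a b

def Conn (T : Finset G) (Q : Set G) : Prop := ∀ a ∈ Q, ∀ b ∈ Q, Path T Q a b

def Symm (T : Finset G) : Prop := ∀ t ∈ T, t⁻¹ ∈ T

/-- the edge cochain `ω` is exact on the `R`-ball about `x`. -/
def LocEx (T : Finset G) (R : ℕ) (ω : G → G → F2) (x : G) : Prop :=
  ∃ h : G → F2, ∀ a b, Near T R x a → Near T R x b → Adj T a b → ω a b = h a + h b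

/-- `S` is split into two colours, each colour into labelled pieces of diameter `≤ R` that are
more than `lam` apart. -/
def Lab (T : Finset G) (lam R : ℕ) (S : Set G) (col : G → Bool) (lab : G → ℕ) : Prop :=
  ∀ a ∈ S, ∀ b ∈ S, col a = col b →
    (lab a = lab b → Near T R a b) ∧ (Near T lam a b → lab a = lab b)

/-- uniform filling: an edge cochain that is locally exact away from a finite "one-dimensional"
set `S` is exact away from a uniform neighbourhood of `S`. -/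
def Fill (T : Finset G) : Prop :=
  ∃ R0 lam : ℕ, ∀ R : ℕ, ∃ Φ : ℕ, ∀ (ω : G → G → F2) (S : Set G) (col : G → Bool) (lab : G → ℕ),
    S.Finite → Lab T lam R S col lab →
    (∀ x, (∀ s ∈ S, ¬ Near T R0 x s) → LocEx T R0 ω x) →
    ∃ h : G → F2, ∀ a b, Adj T a b → (∀ s ∈ S, ¬ Near T Φ a s) → ω a b = h a + h b

/-- all that is used about the group. -/
structure Hyp (T : Finset G) : Prop where
  symm : Symm T
  gen : Subgroup.closure (T : Set G) = ⊤
  oneEnd : ∀ H : Set G, (bd T H).Finite → H.Finite ∨ Hᶜ.Finite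
  fill : Fill T
  tf : ∀ g : G, IsOfFinOrder g → g = 1

def SmallG (T : Finset G) (r : ℕ) (l : List G) : Prop := ∀ a ∈ l, ∀ b ∈ l, Near T r a b

/-- coarse cohomology with finite supports vanishes in degree `n` (lists of length `n + 1`). -/
def HX (T : Finset G) (n : ℕ) : Prop :=
  ∀ r : ℕ, ∃ r' : ℕ, ∀ κ : Co G,
    (∀ l : List G, l.length = n + 2 → SmallG T r' l → cob κ l = 0) →
    {l : List G | l.length = n + 1 ∧ SmallG T r' l ∧ κ l ≠ 0}.Finite →
    ∃ φ : Co G, {l : List G | l.length = n ∧ SmallG T r l ∧ φ l ≠ 0}.Finite ∧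
      ∀ l : List G, l.length = n + 1 → SmallG T r l → κ l = cob φ l

/-- arbitrary coarse one-cocycles are exact on edges. -/
def Z1 (T : Finset G) : Prop :=
  ∃ r' : ℕ, ∀ κ : Co G, (∀ l : List G, l.length = 3 → SmallG T r' l → cob κ l = 0) →
    ∃ h : G → F2, ∀ a b, Adj T a b → κ [a, b] = h a + h b

/-- the subgroup generated by `U` is transient. -/
def Trans (U : Finset G) : Prop :=
  ∃ κ : ℝ, 0 < κ ∧ ∀ φ : G → ℝ, {c | c ∈ Subgroup.closure (U : Set G) ∧ φ c ≠ 0}.Finite →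
    κ * φ 1 ^ 2 ≤ ∑' c : Subgroup.closure (U : Set G), ∑ u ∈ U, (φ ((c : G) * u) - φ c) ^ 2

/-- inner frontier of `P` at scale `Λ`. -/
def fr (Λ P : Set G) : Set G := {p | p ∈ P ∧ ∃ l ∈ Λ, p * l ∉ P}

/-- finite subsets of the subgroup generated by `U` lie in finite subsets whose frontier is
"one-dimensional" with uniform mesh. -/
def Dim2 (U : Finset G) : Prop :=
  ∀ Λ : Set G, Λ.Finite → Λ ⊆ Subgroup.closure (U : Set G) → ∃ R : Set G, R.Finite ∧
    ∀ D : Set G, D.Finite → D ⊆ Subgroup.closure (U : Set G) →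
      ∃ P : Set G, P.Finite ∧ D ⊆ P ∧ P ⊆ Subgroup.closure (U : Set G) ∧
        ∃ (col : G → Bool) (lab : G → ℕ), ∀ p ∈ fr Λ P, ∀ q ∈ fr Λ P, col p = col q →
          (lab p = lab q → p⁻¹ * q ∈ R) ∧ (p⁻¹ * q ∈ Λ → lab p = lab q)

/-- at least cubic growth. -/
def BigG (U : Finset G) : Prop :=
  ∃ ε : ℝ, 0 < ε ∧ ∀ n : ℕ, 1 ≤ n → ε * (n : ℝ) ^ 3 ≤ ((Bl U n).ncard : ℝ)

/-- finite energy. -/
def En (T : Finset G) (f : G → ℝ) : Prop :=
  Summable fun p : G × T => (f (p.1 * (p.2 : G)) - f p.1) ^ 2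

def Approx (T : Finset G) (f : G → ℝ) : Prop :=
  ∀ ε : ℝ, 0 < ε → ∃ u : G → ℝ, (Function.support u).Finite ∧
    ∑' p : G × T, ((f - u) (p.1 * (p.2 : G)) - (f - u) p.1) ^ 2 < ε

/-- free-current dipole between `1` and `s`. -/
def IsDip (T : Finset G) (s : G) (u : G → ℝ) : Prop :=
  En T u ∧ ∀ f : G → ℝ, En T f →
    ∑' p : G × T, (f (p.1 * (p.2 : G)) - f p.1) * (u (p.1 * (p.2 : G)) - u p.1) = f s - f 1

end Cayley

/-! ## Part 1. List chains -/

section Chains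

/-- chains: finitely supported functions on lists of points (the empty list is the
augmentation). -/
abbrev Ch (k X : Type) [CommRing k] := List X →₀ k

variable {k X Y : Type} [CommRing k]

/-- cone with vertex `x`. -/
noncomputable def consC (x : X) : Ch k X →ₗ[k] Ch k X := Finsupp.lmapDomain k k (List.cons x)

/-- linear extension. -/
noncomputable def lc (A : List X → Ch k Y) : Ch k X →ₗ[k] Ch k Y := Finsupp.linearCombination k A

/-- boundary of a list. -/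
noncomputable def dL (k : Type) [CommRing k] : List X → Ch k X
  | [] => 0
  | x :: l => Finsupp.single l 1 - consC x (dL k l)

theorem dL_nil : dL k ([] : List X) = 0 := by simp [dL]

theorem dL_cons (x : X) (l : List X) :
    dL k (x :: l) = Finsupp.single l 1 - consC x (dL k l) := by simp [dL]

/-- boundary of a chain. -/
noncomputable def dC : Ch k X →ₗ[k] Ch k X := lc (dL k)

noncomputable def mapC (f : X → Y) : Ch k X →ₗ[k] Ch k Y := Finsupp.lmapDomain k k (List.map f)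

/-- prism operator. -/
noncomputable def prL (k : Type) [CommRing k] (f g : X → Y) : List X → Ch k Y
  | [] => 0
  | x :: l => Finsupp.single (f x :: (x :: l).map g) 1 - consC (f x) (prL k f g l)

theorem prL_nil (f g : X → Y) : prL k f g [] = 0 := by simp [prL]

theorem prL_cons (f g : X → Y) (x : X) (l : List X) :
    prL k f g (x :: l) =
      Finsupp.single (f x :: (x :: l).map g) 1 - consC (f x) (prL k f g l) := by simp [prL]

/-- all lists in the support satisfy `P`. -/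
def ChIn (P : List X → Prop) (c : Ch k X) : Prop := ∀ l ∈ c.support, P l

/-- evaluation of a cochain on a chain. -/
noncomputable def ev (φ : Co X) : Ch F2 X →ₗ[F2] F2 := Finsupp.linearCombination F2 φ

def SmallL [PseudoMetricSpace X] (ε : ℝ) (l : List X) : Prop := ∀ a ∈ l, ∀ b ∈ l, dist a b < ε

end Chains

/-- small cycles bound small chains. -/
def FillX (k X : Type) [CommRing k] [MetricSpace X] : Prop :=
  ∀ (n : ℕ) (ε : ℝ), 0 < ε → ∃ δ : ℝ, 0 < δ ∧ ∀ z : Ch k X,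
    ChIn (fun l => l.length = n ∧ SmallL δ l) z → dC z = 0 →
    ∃ c : Ch k X, ChIn (fun l => l.length = n + 1 ∧ SmallL ε l) c ∧ dC c = z

/-- a subdivision operator. -/
def Refine (k X : Type) [CommRing k] [MetricSpace X] : Prop :=
  ∀ (m : ℕ) (ε : ℝ), 0 < ε → ∃ δ : ℝ, 0 < δ ∧ ∀ η : ℝ, 0 < η → ∃ R : List X → Ch k X,
    R [] = Finsupp.single [] 1 ∧ (∀ x, R [x] = Finsupp.single [x] 1) ∧
    ∀ (x : X) (l : List X), (x :: l).length ≤ m → SmallL δ (x :: l) →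
      ChIn (fun l' => l'.length = (x :: l).length ∧ SmallL η l' ∧ ∀ a ∈ l', dist a x < ε)
        (R (x :: l)) ∧ dC (R (x :: l)) = lc R (dL k (x :: l))

/-! ## Part 2. The universal cover -/

def IsCell {X : Type} [TopologicalSpace X] (V : Set X) : Prop :=
  ∃ e : (Fin 4 → ℝ) → X, IsOpenEmbedding e ∧ range e = V

structure Top0 (G X : Type) [Group G] [MetricSpace X] [MulAction G X] : Prop where
  isom : ∀ (g : G) (x y : X), dist (g • x) (g • y) = dist x y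
  sep : ∃ ε : ℝ, 0 < ε ∧ ∀ (g : G) (x : X), g ≠ 1 → ε ≤ dist (g • x) x
  cocpt : ∃ K : Set X, IsCompact K ∧ ∀ x : X, ∃ g : G, g • x ∈ K
  cells : ∀ (x : X) (ε : ℝ), 0 < ε → ∃ V, IsCell V ∧ x ∈ V ∧ V ⊆ Metric.ball x ε
  contr : ContractibleSpace X

structure Top (G X : Type) [Group G] [MetricSpace X] [MulAction G X] : Prop extends Top0 G X where
  ucell : ∀ ε : ℝ, 0 < ε → ∃ δ : ℝ, 0 < δ ∧ ∀ x : X, ∃ V, IsCell V ∧
    Metric.ball x δ ⊆ V ∧ V ⊆ Metric.ball x ε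
  ucpt : ∃ r : ℝ, 0 < r ∧ ∀ x : X, IsCompact (Metric.closedBall x r)
  pd : ∀ K K' : Set X, IsCompact K → IsCompact K' → {g : G | ∃ x ∈ K, g • x ∈ K'}.Finite

/-- comparison between coarse chains on `G` and small chains on `X`. -/
def Cmp {G : Type} [Group G] (T : Finset G) (X : Type) [MetricSpace X] : Prop :=
  ∃ (π : X → G) (ε1 : ℝ) (r1 : ℕ), 0 < ε1 ∧
    (∀ x y, dist x y < ε1 → Near T r1 (π x) (π y)) ∧
    (∀ F : Set G, F.Finite → ∃ K : Set X, IsCompact K ∧ ∀ x, π x ∈ F → x ∈ K) ∧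
    ∀ r m : ℕ, ∃ r' : ℕ, ∀ η : ℝ, 0 < η → ∃ (A : List G → Ch F2 X) (D : List G → Ch F2 G),
      (∀ l : List G, l.length ≤ m → SmallG T r l →
        ChIn (fun l' => l'.length = l.length ∧ SmallL η l') (A l) ∧
        dC (A l) = lc A (dL F2 l) ∧
        ChIn (fun l' => l'.length = l.length + 1 ∧ SmallG T r' l' ∧
          ∀ a ∈ l, ∀ b ∈ l', Near T r' a b) (D l) ∧
        dC (D l) + lc D (dL F2 l) = mapC π (A l) + Finsupp.single l 1) ∧
      ∀ K : Set X, IsCompact K →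
        {l : List G | l.length ≤ m ∧ SmallG T r l ∧ ∃ l' ∈ (A l).support, ∃ x ∈ l', x ∈ K}.Finite

/-! ## Part 3. Alexander-Spanier cochains with compact supports (`n` = length of the lists) -/

section AS
variable {X Y : Type} [TopologicalSpace X] [TopologicalSpace Y]

/-- locally zero at `x`. -/
def LZ (n : ℕ) (φ : Co X) (x : X) : Prop :=
  ∃ N ∈ 𝓝 x, ∀ l : List X, l.length = n → (∀ y ∈ l, y ∈ N) → φ l = 0

/-- compact support in `U`. -/
def CS (n : ℕ) (U : Set X) (φ : Co X) : Prop :=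
  ∃ K : Set X, IsCompact K ∧ K ⊆ U ∧ ∀ x, x ∉ K → LZ n φ x

def Zc (n : ℕ) (U : Set X) (φ : Co X) : Prop := CS n U φ ∧ ∀ x, LZ (n + 1) (cob φ) x

def Bc (n : ℕ) (U : Set X) (φ : Co X) : Prop :=
  ∃ ψ : Co X, ψ [] = 0 ∧ CS (n - 1) U ψ ∧ ∀ x, LZ n (φ + cob ψ) x

def Van (n : ℕ) (U : Set X) : Prop := ∀ φ : Co X, Zc n U φ → Bc n U φ

/-- pull-back of cochains. -/
def pull (e : Y → X) (φ : Co X) : Co Y := fun l => φ (l.map e)

/-- suspension of a cochain at level `c`. -/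
noncomputable def susp (c : ℝ) (φ : Co Y) : Co (Y × ℝ)
  | p :: q :: r =>
      ((if c < p.2 then 1 else 0) + (if c < q.2 then 1 else 0)) * φ ((q :: r).map Prod.fst)
  | _ => 0

omit [TopologicalSpace Y] in
theorem susp_cons_cons (c : ℝ) (φ : Co Y) (p q : Y × ℝ) (r : List (Y × ℝ)) :
    susp c φ (p :: q :: r) =
      ((if c < p.2 then 1 else 0) + (if c < q.2 then 1 else 0)) * φ ((q :: r).map Prod.fst) := by
  simp only [susp]

omit [TopologicalSpace Y] in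
theorem susp_nil (c : ℝ) (φ : Co Y) : susp c φ [] = 0 := by simp only [susp]

omit [TopologicalSpace Y] in
theorem susp_single (c : ℝ) (φ : Co Y) (p : Y × ℝ) : susp c φ [p] = 0 := by simp only [susp]

def Box {d : ℕ} (a b : Fin d → ℝ) : Set (Fin d → ℝ) := Set.pi univ fun i => Ioo (a i) (b i)

structure CellP (X : Type) [TopologicalSpace X] : Prop where
  van : ∀ V : Set X, IsCell V → ∀ n, 1 ≤ n → n ≠ 5 → Van n V
  two : ∀ V : Set X, IsCell V → ∃ γ : Co X, Zc 5 V γ ∧ ¬ Bc 5 V γ ∧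
    ∀ φ, Zc 5 V φ → Bc 5 V φ ∨ Bc 5 V (φ + γ)
  inj : ∀ V V' : Set X, IsCell V → IsCell V' → V ⊆ V' → ∀ φ, Zc 5 V φ → Bc 5 V' φ → Bc 5 V φ
  high : ∀ U : Set X, IsOpen U → ∀ n, 6 ≤ n → Van n U

end AS

/-! ## Part 4. The completed space `Y` -/

section Space
variable {G : Type} [Group G] {Y : Type} [MetricSpace Y] [MulAction G Y]

structure Sp (T : Finset G) (o : Y) : Prop where
  cpl : CompleteSpace Y
  uc : ∀ g : G, UniformContinuous fun y : Y => g • y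
  dense : DenseRange fun g : G => g • o
  l2 : ∀ e : G, Summable fun x : G => dist (x • o) ((x * e) • o) ^ 2
  inner : ∀ (a b : G) (δ : ℝ), dist (a • o) (b • o) < δ →
    Path T {c : G | dist (a • o) (c • o) < δ} a b
  iso : ∀ a : G, ∃ ε : ℝ, 0 < ε ∧ ∀ b : G, b ≠ a → ε ≤ dist (a • o) (b • o)

/-- maximum principle. -/
def MaxP (T : Finset G) (o : Y) : Prop :=
  ∀ η : ℝ, 0 < η → ∃ F : Set G, F.Finite ∧ ∀ (Q : Set G) (δ : ℝ), Conn T Q → Disjoint Q F →
    (∀ x ∈ bd T Q, ∀ x' ∈ bd T Q, dist (x • o) (x' • o) ≤ δ) →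
    ∀ a ∈ Q, ∀ b ∈ Q, dist (a • o) (b • o) ≤ δ + η

def NonTriv (T : Finset G) (o : Y) : Prop :=
  ∃ u : G → ℝ, (∀ a b : G, |u a - u b| ≤ dist (a • o) (b • o)) ∧
    (∀ t : ℝ, Conn T {x | u x < t} ∧ Conn T {x | t < u x}) ∧
    ∃ t1 t2 : ℝ, t1 < t2 ∧ {x | u x < t1}.Infinite ∧ {x | t2 < u x}.Infinite

/-- convergence property. -/
def Conv (G : Type) [Group G] [MulAction G Y] (o : Y) : Prop :=
  ∀ ε η : ℝ, 0 < ε → 0 < η → ∃ F : Set G, F.Finite ∧ ∀ g : G, g ∉ F → ∀ y : Y,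
    ε ≤ dist y (g⁻¹ • o) → dist (g • y) (g • o) ≤ η

/-- the boundary: points of `Y` that are not vertices. -/
def Zt (G : Type) [Group G] [MulAction G Y] (o : Y) : Type := {y : Y // ∀ g : G, y ≠ g • o}

instance (o : Y) : MulAction G (Zt G o) where
  smul g z := ⟨g • z.1, fun g' h => z.2 (g⁻¹ * g') (by rw [mul_smul, ← h, inv_smul_smul])⟩
  one_smul z := Subtype.ext (one_smul G z.1)
  mul_smul a b z := Subtype.ext (mul_smul a b z.1)

omit [MetricSpace Y] in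
theorem Zt.smul_val {o : Y} (g : G) (z : Zt G o) : (g • z).1 = g • z.1 := rfl

/-- the world: everything that Stages II-IV use. -/
structure W (T : Finset G) (o : Y) : Prop where
  hyp : Hyp T
  sp : Sp T o
  conv : Conv G o
  two : ∃ p q : Zt G o, p ≠ q

/-- all vertices near `z` lie in `H`. -/
def In (o : Y) (z : Y) (H : Set G) : Prop :=
  ∃ r : ℝ, 0 < r ∧ ∀ g : G, dist (g • o) z < r → g ∈ H

/-- up to a finite set, the boundary of `H` lies in the `ε`-ball about `y`. -/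
def Res (T : Finset G) (o : Y) (H : Set G) (y : Y) (ε : ℝ) : Prop :=
  {g : G | g ∈ bd T H ∧ ε ≤ dist (g • o) y}.Finite

def Cut (T : Finset G) (o : Y) (r : Y) (H : Set G) : Prop := ∀ ε : ℝ, 0 < ε → Res T o H r ε

variable {o : Y}

/-- `r` separates `a` from `b`. -/
def Sep (T : Finset G) (r a b : Zt G o) : Prop :=
  a ≠ r ∧ b ≠ r ∧ ∃ H : Set G, Cut T o r.1 H ∧ In o a.1 H ∧ In o b.1 Hᶜ

/-- closed betweenness: `r` lies between `a` and `b`. -/
def Btw (T : Finset G) (a r b : Zt G o) : Prop := r = a ∨ r = b ∨ Sep T r a b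

def IsCP (T : Finset G) (r : Zt G o) : Prop := ∃ a b, Sep T r a b

def Core (T : Finset G) (a a' b b' : Zt G o) : Set (Zt G o) :=
  {v | Btw T a v b ∧ Btw T a v b' ∧ Btw T a' v b ∧ Btw T a' v b'}

/-- two of the three points `x • τ i` satisfy `A`. -/
def Two (τ : Fin 3 → Zt G o) (x : G) (A : Zt G o → Prop) : Prop :=
  ∃ i j, i ≠ j ∧ A (x • τ i) ∧ A (x • τ j)

def Tame (T : Finset G) (τ : Fin 3 → Zt G o) : Prop :=
  Function.Injective τ ∧ ∀ (g : G) (i j : Fin 3), {r | Sep T r (τ i) (g • τ j)}.Finite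

def Line (T : Finset G) (a b : Zt G o) (L : Set G) : Prop :=
  Conn T L ∧
  (∀ ε : ℝ, 0 < ε → {g : G | g ∈ L ∧ ε ≤ dist (g • o) a.1 ∧ ε ≤ dist (g • o) b.1}.Finite) ∧
  (∀ ε : ℝ, 0 < ε → ∃ g ∈ L, dist (g • o) a.1 < ε) ∧
  (∀ ε : ℝ, 0 < ε → ∃ g ∈ L, dist (g • o) b.1 < ε)

def Split (L : Set (Zt G o × Zt G o × Zt G o × Zt G o)) (H : Set G) (x : G) : Prop :=
  ∃ θ ∈ L, In o (x • θ.1).1 H ∧ In o (x • θ.2.1).1 H ∧
    ¬ In o (x • θ.2.2.1).1 H ∧ ¬ In o (x • θ.2.2.2).1 H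

/-- strictly monotone sequence. -/
def Mono (T : Finset G) (w : ℕ → Zt G o) : Prop :=
  ∀ i j k, i < j → j < k → Sep T (w j) (w i) (w k)

def Tail (T : Finset G) (w : ℕ → Zt G o) (i : ℕ) : Set (Zt G o) :=
  {v | ∃ j, i ≤ j ∧ Btw T (w i) v (w j)}

/-- an invariant length on the interval `[A, B]`. -/
structure Len (T : Finset G) (A B : Zt G o) (t : Zt G o → ℝ) : Prop where
  t0 : t A = 0
  t1 : t B = 1
  mono : ∀ v w, Btw T A v w → Btw T A w B → t v ≤ t w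
  dense : ∀ c c' : ℝ, 0 ≤ c → c < c' → c' ≤ 1 → ∃ w, Btw T A w B ∧ c < t w ∧ t w < c'
  inv : ∀ (g : G) (v w : Zt G o), Btw T A v B → Btw T A w B → Btw T A (g • v) B →
    Btw T A (g • w) B → |t (g • v) - t (g • w)| = |t v - t w|

/-- `h` translates the `η`-interval about `c` by `s`. -/
def Tr (T : Finset G) (A B : Zt G o) (t : Zt G o → ℝ) (c η : ℝ) (h : G) (s : ℝ) : Prop :=
  ∀ w, Btw T A w B → |t w - c| < η → |t w + s - c| < η →
    Btw T A (h • w) B ∧ t (h • w) = t w + s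

/-! ### Properties of a world -/

/-- approximate cuts. -/
def Kon (T : Finset G) (o : Y) : Prop :=
  ∀ p q : Zt G o, p ≠ q → ∃ y : Zt G o, y ≠ p ∧ y ≠ q ∧
    ∀ ε : ℝ, 0 < ε → ∃ H : Set G, Res T o H y.1 ε ∧ In o p.1 H ∧ In o q.1 Hᶜ

/-- one piece of a decomposed wall is essential. -/
def Ess (T : Finset G) (o : Y) : Prop :=
  ∃ R1 : ℕ, ∀ (ι : Type) (k : G → ι) (H : Set G) (a b : Zt G o), In o a.1 H → In o b.1 Hᶜ →
    {w | w ∈ bd T H ∧ ∃ w' ∈ bd T H, Near T R1 w w' ∧ k w ≠ k w'}.Finite →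
    ∃ (i : ι) (H' : Set G), (bd T H' \ {w | w ∈ bd T H ∧ k w = i}).Finite ∧
      In o a.1 H' ∧ In o b.1 H'ᶜ

/-- hierarchical point picking. -/
def Pick (G : Type) [Group G] [MulAction G Y] (o : Y) : Prop :=
  ∀ ε : ℕ → ℝ, (∀ j, 0 < ε j) → ∃ (F : ℕ → Set G) (ε' : ℕ → ℝ), (∀ j, (F j).Finite) ∧
    (∀ j, 0 < ε' j) ∧ ∀ (k : ℕ) (X : Set G), X.Finite → ∀ x0 ∈ X, ∃ x ∈ X,
      (x = x0 ∨ ε' k ≤ dist ((x0⁻¹ * x) • o) (x0⁻¹ • o)) ∧
      ∀ j, j ≤ k → ∀ x' ∈ X, x⁻¹ * x' ∈ F j ∨ dist ((x⁻¹ * x') • o) (x⁻¹ • o) < ε j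

/-- limits of confined sets are cuts. -/
def Lim (T : Finset G) (o : Y) : Prop :=
  ∀ (𝒰 : Ultrafilter ℕ) (N : ℕ → Set G) (y : ℕ → Y) (a b : Zt G o) (c : ℝ), 0 < c →
    (∀ ε : ℝ, 0 < ε → ∃ E : Set G, E.Finite ∧
      ∀ᶠ n in (𝒰 : Filter ℕ), ∀ g ∈ bd T (N n), g ∈ E ∨ dist (g • o) (y n) < ε) →
    (∀ᶠ n in (𝒰 : Filter ℕ), c ≤ dist (y n) a.1 ∧ c ≤ dist (y n) b.1 ∧
      In o a.1 (N n) ∧ In o b.1 (N n)ᶜ) →
    ∃ r, Sep T r a b

/-- the main picking lemma. -/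
def GP (T : Finset G) (o : Y) : Prop :=
  ∀ (L : Set (Zt G o × Zt G o × Zt G o × Zt G o)) (M : Set G → Set G), L.Finite →
    (∀ θ ∈ L, θ.1 ≠ θ.2.1 ∧ θ.2.2.1 ≠ θ.2.2.2) →
    (∀ (z : Zt G o) (H : Set G), In o z.1 H → In o z.1 (M H)) →
    (∀ (z : Zt G o) (H : Set G), In o z.1 Hᶜ → In o z.1 (M H)ᶜ) →
    (∀ η : ℝ, 0 < η → ∀ E : Set G, E.Finite → ∃ E' : Set G, E'.Finite ∧
      ∀ (H : Set G) (x : G), x ∈ bd T (M H) → x ∉ E' →
        {g : G | g ∈ bd T H ∧ dist (g • o) (x • o) < 2 * η}.Finite →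
        ∃ x', Split L H x' ∧ x' ∉ E ∧ dist (x' • o) (x • o) ≤ η) →
    ∀ p q : Zt G o, p ≠ q → (∃ y, Sep T y p q) ∨
      ∃ r, ∃ θ ∈ L, ∃ a b, (a = θ.1 ∨ a = θ.2.1) ∧ (b = θ.2.2.1 ∨ b = θ.2.2.2) ∧ Sep T r a b

/-- finiteness of thick translates. -/
def PF (T : Finset G) (o : Y) : Prop :=
  ∀ l r r1 r2 a a' b b' : Zt G o, r1 ≠ r2 → Sep T r1 l r → Sep T r2 l r → a ≠ a' → b ≠ b' →
    {g : G | g • l ∈ Core T a a' b b' ∧ g • r ∈ Core T a a' b b'}.Finite

/-- groups that are cocompact on a wall are transient. -/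
def Wall (T : Finset G) (o : Y) : Prop :=
  ∀ (U : Finset G) (Φ H : Set G) (a b : Zt G o), Symm U → Φ.Finite →
    bd T H ⊆ (Subgroup.closure (U : Set G) : Set G) * Φ → In o a.1 H → In o b.1 Hᶜ → Trans U

/-- stabilisers of cut points are parabolic. -/
def Par (T : Finset G) (o : Y) : Prop :=
  ∀ y : Zt G o, IsCP T y → ∀ ε : ℝ, 0 < ε → {c : G | c • y = y ∧ ε ≤ dist (c • o) y.1}.Finite

/-- every direction at a cut point is preserved by a transient subgroup. -/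
def DirTr (T : Finset G) (o : Y) : Prop :=
  ∀ y a : Zt G o, IsCP T y → a ≠ y → ∃ U : Finset G, Symm U ∧ Trans U ∧
    ∀ c ∈ Subgroup.closure (U : Set G), c • y = y ∧ ¬ Sep T y a (c • a)

/-- far cosets of transient parabolic subgroups are small. -/
def Ray (G : Type) [Group G] [MulAction G Y] (o : Y) : Prop :=
  ∀ (U : Finset G) (r : Zt G o), Symm U → Trans U →
    (∀ ε : ℝ, 0 < ε → {c : G | c ∈ Subgroup.closure (U : Set G) ∧ ε ≤ dist (c • o) r.1}.Finite) →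
    (Subgroup.closure (U : Set G) : Set G).Infinite ∧
    (∀ η : ℝ, 0 < η → {x : G | η < dist (x • r.1) (x • o)}.Finite) ∧
    ∀ η : ℝ, 0 < η → ∀ E : Set G, E.Finite → ∃ E' : Set G, E'.Finite ∧ ∀ x : G, x ∉ E' →
      x ∉ E ∧ ∀ B : Set G, B.Finite → ∃ c : G, c ∉ B ∧ Relation.ReflTransGen
        (fun c c' : G => c⁻¹ * c' ∈ U ∧ x * c' ∉ E ∧ dist ((x * c') • o) (x • o) ≤ η) 1 c

/-- all intervals between cut points are finite. -/
def FinI (T : Finset G) (o : Y) : Prop :=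
  ∀ a b : Zt G o, IsCP T a → IsCP T b → {r | Sep T r a b}.Finite

/-- many disjoint translates of the tail of a monotone sequence lie in one core. -/
def Germ (T : Finset G) (o : Y) : Prop :=
  ∀ (τ : Fin 3 → Zt G o) (w : ℕ → Zt G o), Function.Injective τ → Mono T w →
    (∃ r b, Sep T r (w 0) b ∧ ∀ j, Btw T (w 0) (w j) r) →
    ∀ K : ℕ, ∃ (i j k l : Fin 3) (t : G) (x : Fin K → G) (n0 : ℕ), i ≠ j ∧ k ≠ l ∧ t ∈ T ∧
      ∀ n, n0 ≤ n →
        (∀ m, ∀ v ∈ Tail T w n, x m • v ∈ Core T (τ i) (τ j) (t • τ k) (t • τ l)) ∧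
        ∀ m m', m ≠ m' → ∀ v ∈ Tail T w n, ∀ v' ∈ Tail T w n, x m • v ≠ x m' • v'

/-- there are arbitrarily small good scales. -/
def Good (T : Finset G) (A B : Zt G o) (t : Zt G o → ℝ) : Prop :=
  ∀ c η0 : ℝ, 0 < c → c < 1 → 0 < η0 → ∃ η : ℝ, 0 < η ∧ η ≤ η0 ∧
    ∀ (h : G) (s : ℝ), Tr T A B t c η h s → |s| ≤ η / 16 → h = 1

end Space

/-! ## Part 5. The statements to be proved -/

/-- deck action of the fundamental group. -/
def DeckP : Prop :=
  ∀ (M E : Type) [TopologicalSpace M] [TopologicalSpace E] [LocallyPathConnectedSpace M]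
    [ContractibleSpace E] (p : E → M) (x : M), IsCoveringMap p → Function.Surjective p →
    ∃ _ : MulAction (FundamentalGroup M x) E,
      (∀ g : FundamentalGroup M x, Continuous fun e : E => g • e) ∧
      (∀ (g : FundamentalGroup M x) (e : E), g • e = e → g = 1) ∧
      ∀ e e' : E, p e = p e' ↔ ∃ g : FundamentalGroup M x, g • e = e'

/-- invariant metric on the cover. -/
def MetricP : Prop :=
  ∀ (G M E : Type) [Group G] [TopologicalSpace M] [T2Space M] [SecondCountableTopology M]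
    [CompactSpace M] [ChartedSpace (EuclideanSpace ℝ (Fin 4)) M] [TopologicalSpace E]
    [ContractibleSpace E] [MulAction G E] (p : E → M), IsCoveringMap p → Function.Surjective p →
    (∀ g : G, Continuous fun e : E => g • e) → (∀ (g : G) (e : E), g • e = e → g = 1) →
    (∀ e e' : E, p e = p e' ↔ ∃ g : G, g • e = e') →
    ∃ (X : Type) (_ : MetricSpace X) (_ : MulAction G X), Top0 G X

def UnifP : Prop :=
  ∀ (G X : Type) [Group G] [MetricSpace X] [MulAction G X], Top0 G X → Top G X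

/-- filling along a contraction of a compact set. -/
def ContrP : Prop :=
  ∀ (k X : Type) [CommRing k] [MetricSpace X] (A B : Set X) (x0 : X) (H : ℝ → X → X),
    IsCompact A → ContinuousOn (fun p : ℝ × X => H p.1 p.2) (Icc 0 1 ×ˢ A) →
    (∀ x ∈ A, H 0 x = x) → (∀ x ∈ A, H 1 x = x0) → (∀ t ∈ Icc (0 : ℝ) 1, ∀ x ∈ A, H t x ∈ B) →
    x0 ∈ B → ∀ η : ℝ, 0 < η → ∃ η' : ℝ, 0 < η' ∧ ∀ (n : ℕ) (z : Ch k X),
      ChIn (fun l => l.length = n ∧ SmallL η' l ∧ ∀ a ∈ l, a ∈ A) z → dC z = 0 →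
      ∃ c : Ch k X, ChIn (fun l => l.length = n + 1 ∧ SmallL η l ∧ ∀ a ∈ l, a ∈ B) c ∧ dC c = z

def RefineP : Prop :=
  ∀ (k G X : Type) [CommRing k] [Group G] [MetricSpace X] [MulAction G X], Top G X → Refine k X

def FillXP : Prop :=
  ∀ (k G X : Type) [CommRing k] [Group G] [MetricSpace X] [MulAction G X], Top G X →
    Refine k X → FillX k X

def TorsP : Prop :=
  ∀ (G X : Type) [Group G] [MetricSpace X] [MulAction G X], Top G X →
    (∀ n : ℕ, FillX (ZMod n) X) → ∀ g : G, IsOfFinOrder g → g = 1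

def MVP : Prop :=
  ∀ (X : Type) [TopologicalSpace X] [T2Space X] (U V : Set X) (n : ℕ), IsOpen U → IsOpen V →
    1 ≤ n → Van n U → Van n V → Van (n + 1) (U ∩ V) → Van n (U ∪ V)

def TranspP : Prop :=
  ∀ (X Y : Type) [TopologicalSpace X] [T3Space X] [TopologicalSpace Y] (e : Y → X) (U : Set Y)
    (n : ℕ), IsOpenEmbedding e → 1 ≤ n →
    (∀ φ : Co X, Zc n (e '' U) φ → Zc n U (pull e φ)) ∧
    (∀ φ : Co X, CS n (e '' U) φ → (Bc n (e '' U) φ ↔ Bc n U (pull e φ))) ∧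
    ∀ ψ : Co Y, Zc n U ψ → ∃ φ : Co X, Zc n (e '' U) φ ∧ ∀ y, LZ n (pull e φ + ψ) y

def SuspP : Prop :=
  ∀ (Y : Type) [MetricSpace Y] [ProperSpace Y] (V : Set Y) (a b c : ℝ), IsOpen V → a < c → c < b →
    Van 1 (V ×ˢ Ioo a b) ∧ ∀ n, 1 ≤ n →
      (∀ φ, Zc n V φ → Zc (n + 1) (V ×ˢ Ioo a b) (susp c φ)) ∧
      (∀ φ, Bc n V φ → Bc (n + 1) (V ×ˢ Ioo a b) (susp c φ)) ∧
      (∀ φ, Zc n V φ → Bc (n + 1) (V ×ˢ Ioo a b) (susp c φ) → Bc n V φ) ∧
      ∀ Φ, Zc (n + 1) (V ×ˢ Ioo a b) Φ →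
        ∃ φ, Zc n V φ ∧ Bc (n + 1) (V ×ˢ Ioo a b) (Φ + susp c φ)

def BoxP : Prop :=
  (∀ (a b : Fin 4 → ℝ) (n : ℕ), 1 ≤ n → n ≠ 5 → Van n (Box a b)) ∧
  ∀ c : Fin 4 → ℝ, ∃ γ : Co (Fin 4 → ℝ), ∀ a b : Fin 4 → ℝ, c ∈ Box a b →
    Zc 5 (Box a b) γ ∧ ¬ Bc 5 (Box a b) γ ∧
    ∀ φ, Zc 5 (Box a b) φ → Bc 5 (Box a b) φ ∨ Bc 5 (Box a b) (φ + γ)

def CellPP : Prop :=
  ∀ (X : Type) [MetricSpace X],
    (∀ (x : X) (ε : ℝ), 0 < ε → ∃ V, IsCell V ∧ x ∈ V ∧ V ⊆ Metric.ball x ε) → CellP X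

def ZigP : Prop :=
  ∀ (G X : Type) [Group G] [MetricSpace X] [MulAction G X], Top G X → CellP X → FillX F2 X →
    ∀ n, 2 ≤ n → n ≤ 4 → Van n (univ : Set X)

def CmpP : Prop :=
  ∀ (G X : Type) [Group G] [MetricSpace X] [MulAction G X] (T : Finset G), Top G X → Symm T →
    Subgroup.closure (T : Set G) = ⊤ → FillX F2 X → Refine F2 X → Cmp T X

def HXP : Prop :=
  ∀ (G X : Type) [Group G] [MetricSpace X] [MulAction G X] (T : Finset G), Top G X → Symm T →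
    Subgroup.closure (T : Set G) = ⊤ → FillX F2 X → Cmp T X →
    Z1 T ∧ ∀ n, 1 ≤ n → Van (n + 1) (univ : Set X) → HX T n

def FillP : Prop :=
  ∀ (G : Type) [Group G] (T : Finset G), Symm T → Subgroup.closure (T : Set G) = ⊤ →
    HX T 1 → HX T 2 → HX T 3 → Z1 T →
    (∀ H : Set G, (bd T H).Finite → H.Finite ∨ Hᶜ.Finite) ∧ Fill T

def G1P : Prop := ∀ (G : Type) [Group G] (U : Finset G), Symm U → ¬ BigG U → Dim2 U

def G2P : Prop := ∀ (G : Type) [Group G] (U : Finset G), BigG U → Trans U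

def DipP : Prop :=
  ∀ (G : Type) [Group G] (T : Finset G) (f : G → ℝ), Subgroup.closure (T : Set G) = ⊤ →
    En T f → ¬ Approx T f → ∃ u : G → G → ℝ, (∀ s ∈ T, IsDip T s (u s)) ∧
      ∃ s ∈ T, ∀ c : ℝ, ¬ Tendsto (u s) cofinite (𝓝 c)

/-- level sets of dipoles. -/
def LevP : Prop :=
  ∀ (G : Type) [Group G] (T : Finset G) (s : G) (u : G → ℝ), Symm T →
    Subgroup.closure (T : Set G) = ⊤ → s ∈ T → IsDip T s u →
    (∀ t : ℝ, Conn T {x | u x < t} ∧ Conn T {x | t < u x}) ∧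
    (∀ x, u 1 ≤ u x ∧ u x ≤ u s) ∧ u s - u 1 ≤ 1 ∧ (s ≠ 1 → u 1 < u s) ∧
    ∑' p : G × T, (u (p.1 * (p.2 : G)) - u p.1) ^ 2 ≤ 1

def MetP : Prop :=
  ∀ (G : Type) [Group G] (T : Finset G) (u : G → G → ℝ), Symm T →
    Subgroup.closure (T : Set G) = ⊤ → (∀ s ∈ T, IsDip T s (u s)) →
    (∃ s ∈ T, ∀ c : ℝ, ¬ Tendsto (u s) cofinite (𝓝 c)) →
    ∃ (Y : Type) (_ : MetricSpace Y) (_ : MulAction G Y) (o : Y),
      Sp T o ∧ MaxP T o ∧ NonTriv T o

def CoareaP : Prop :=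
  ∀ (G : Type) [Group G] [Countable G] (T : Finset G) (φ ψ v : G → ℝ) (α β c : ℝ),
    (∀ x, 0 ≤ φ x) → (∀ x, 0 ≤ ψ x) → (∀ x y, Adj T x y → |v y - v x| ≤ ψ x) →
    Summable (fun x => φ x * ψ x) → α < β → 2 * ∑' x, φ x * ψ x < c * (β - α) →
    ∃ s ∈ Ioo α β, (∀ x, v x ≠ s) ∧
      ∀ F : Finset G, (∀ x ∈ F, x ∈ bd T {x | v x < s}) → ∑ x ∈ F, φ x ≤ c

/-- a statement about all groups acting on a metric space with base point. -/
def All (P : ∀ {G : Type} [Group G] {Y : Type} [MetricSpace Y] [MulAction G Y],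
    Finset G → Y → Prop) : Prop :=
  ∀ (G : Type) [Group G] (Y : Type) [MetricSpace Y] [MulAction G Y] (T : Finset G) (o : Y), P T o

def ConvP : Prop := All fun {G} _ _ _ _ T o => Hyp T → Sp T o → MaxP T o → Conv G o

def TwoP : Prop := All fun {G} _ _ _ _ T o => Hyp T → Sp T o → NonTriv T o → ∃ p q : Zt G o, p ≠ q

def EssP : Prop := All fun T o => Hyp T → Sp T o → Ess T o

def KonP : Prop := All fun T o => Hyp T → Sp T o → Ess T o → Kon T o

def PickP : Prop := All fun {G} _ _ _ _ T o => W T o → Pick G o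

def LimP : Prop := All fun T o => W T o → Lim T o

def GPP : Prop := All fun {G} _ _ _ _ T o => W T o → Kon T o → Pick G o → Lim T o → GP T o

def PFP : Prop := All fun T o => W T o → PF T o

def LineP : Prop := All fun {G} _ _ _ _ T o => W T o → ∀ a b : Zt G o, ∃ L, Line T a b L

def WallP : Prop := All fun {G} _ _ _ _ T o => W T o → (∀ a b : Zt G o, ∃ L, Line T a b L) →
  (∀ U : Finset G, Symm U → ¬ Trans U → Dim2 U) → Wall T o

def ParP : Prop := All fun {G} _ _ _ _ T o => W T o → Wall T o →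
  (∃ τ : Fin 3 → Zt G o, Tame T τ) → Par T o

def DirTrP : Prop := All fun {G} _ _ _ _ T o => W T o → Wall T o → Ess T o → Par T o →
  (∃ τ : Fin 3 → Zt G o, Tame T τ) → DirTr T o

def RayP : Prop := All fun {G} _ _ _ _ T o => W T o → Ray G o

def S3P : Prop := All fun {G} _ _ _ _ T o => W T o → GP T o → Ray G o → Par T o → DirTr T o →
  FinI T o → (∃ r : Zt G o, IsCP T r) → False

def GermP : Prop := All fun T o => W T o → PF T o → Germ T o

def LenP : Prop := All fun {G} _ _ _ _ T o => W T o → PF T o → Germ T o → ¬ FinI T o →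
  ∃ (A B : Zt G o) (t : Zt G o → ℝ), Len T A B t

def GoodP : Prop := All fun {G} _ _ _ _ T o => W T o → PF T o →
  ∀ (A B : Zt G o) (t : Zt G o → ℝ), Len T A B t → Good T A B t

def S4P : Prop := All fun {G} _ _ _ _ T o => W T o → PF T o →
  (∀ a b : Zt G o, ∃ L, Line T a b L) →
  ∀ (A B : Zt G o) (t : Zt G o → ℝ), Len T A B t → Good T A B t → False

end Crest.Agent.R224
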