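import Crest.Agent.R224.Basic

/-! Row 224: free-current dipoles. -/

namespace Crest.Agent.R224

open Set Filter Topology

namespace DipAux

variable {G : Type} [Group G] {T : Finset G}

/-- edge differences. -/
def d (T : Finset G) (f : G → ℝ) (p : G × T) : ℝ := f (p.1 * (p.2 : G)) - f p.1

theorem en_iff {f : G → ℝ} : En T f ↔ Summable fun p => d T f p ^ 2 := Iff.rfl

theorem const_of_d (hg : Subgroup.closure (T : Set G) = ⊤) {f : G → ℝ} (h : ∀ p, d T f p = 0)
    (g : G) : f g = f 1 := by
  have hg' : g ∈ Subgroup.closure (T : Set G) := hg ▸ Subgroup.mem_top g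
  induction hg' using Subgroup.closure_induction_right with
  | one => rfl
  | mul_right x _ y hy ih =>
    have := h (x, ⟨y, hy⟩)
    simp only [d] at this
    linarith
  | mul_inv_cancel x _ y hy ih =>
    have := h (x * y⁻¹, ⟨y, hy⟩)
    simp only [d, inv_mul_cancel_right] at this
    linarith

theorem en_of_finite {f : G → ℝ} (h : (Function.support f).Finite) : En T f := by
  refine summable_of_hasFiniteSupport ?_
  have h1 : (⋃ t : T, (fun x => (x, t)) ''
      (Function.support f ∪ (fun x => x * (t : G)⁻¹) '' Function.support f)).Finite :=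
    finite_iUnion fun t => (h.union (h.image _)).image _
  refine h1.subset ?_
  rintro ⟨x, t⟩ hp
  simp only [Function.mem_support] at hp
  refine mem_iUnion.2 ⟨t, x, ?_, rfl⟩
  by_cases hx : f x = 0
  · right
    refine ⟨x * t, ?_, by simp⟩
    intro h0
    exact hp (by simp [h0, hx])
  · exact Or.inl hx

theorem summable_mul {f u : G → ℝ} (hf : En T f) (hu : En T u) :
    Summable fun p => d T f p * d T u p := by
  refine Summable.of_norm_bounded ((en_iff.1 hf).add (en_iff.1 hu)) fun p => ?_
  rw [Real.norm_eq_abs, abs_le]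
  constructor <;> nlinarith [sq_nonneg (d T f p + d T u p), sq_nonneg (d T f p - d T u p)]

/-- maximum principle in path form. -/
theorem path_to (hT : Symm T) (hg : Subgroup.closure (T : Set G) = ⊤) {v : G → ℝ} (hv : En T v)
    {b : G} (hb : ∀ f : G → ℝ, En T f → (∀ x, 0 ≤ f x) → f b = 0 →
      ∑' p, d T f p * d T v p ≤ 0) {t : ℝ} {a : G} (ha : t < v a) : Path T {x | t < v x} a b := by
  classical
  by_contra hn
  set f : G → ℝ := fun x => if Path T {x | t < v x} a x then v x - t else 0 with hf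
  have key : ∀ p, d T f p ^ 2 ≤ d T f p * d T v p ∧ d T f p ^ 2 ≤ d T v p ^ 2 := by
    rintro ⟨x, s⟩
    have hadj : Adj T x (x * s) := adj_mul s.2 x
    simp only [d, hf]
    by_cases h1 : Path T {x | t < v x} a x <;> by_cases h2 : Path T {x | t < v x} a (x * s)
    · simp only [h1, h2, if_true]
      constructor <;> nlinarith
    · have h3 : t < v x := h1.right
      have h4 : v (x * s) ≤ t := not_lt.1 fun h => h2 (h1.tail hadj h)
      simp only [h1, h2, if_true, if_false]
      constructor <;> nlinarith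
    · have h3 : t < v (x * s) := h2.right
      have h4 : v x ≤ t := not_lt.1 fun h => h1 (h2.tail (hadj.symm hT) h)
      simp only [h1, h2, if_true, if_false]
      constructor <;> nlinarith
    · simp only [h1, h2, if_false]
      constructor <;> nlinarith [sq_nonneg (v (x * s) - v x)]
  have hfe : En T f := Summable.of_nonneg_of_le (fun p => sq_nonneg _) (fun p => (key p).2) hv
  have hf0 : ∀ x, 0 ≤ f x := by
    intro x
    simp only [hf]
    split_ifs with h
    · exact sub_nonneg.2 (le_of_lt h.right)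
    · exact le_rfl
  have hfb : f b = 0 := by simp only [hf, hn, if_false]
  have h1 := hb f hfe hf0 hfb
  have h2 : ∑' p, d T f p ^ 2 ≤ 0 :=
    (Summable.tsum_le_tsum (fun p => (key p).1) hfe (summable_mul hfe hv)).trans h1
  have h3 : ∀ p, d T f p = 0 := by
    intro p
    have := (en_iff.1 hfe).le_tsum p fun _ _ => sq_nonneg _
    nlinarith [sq_nonneg (d T f p)]
  have h4 : f a = f b := (const_of_d hg h3 a).trans (const_of_d hg h3 b).symm
  have h5 : f a = v a - t := by simp only [hf, Path.refl (Q := {x | t < v x}) ha, if_true]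
  linarith

/-- the Hilbert space of edge functions. -/
abbrev HH (T : Finset G) : Type := lp (fun _ : G × T => ℝ) 2

/-- `d f` as a vector. -/
noncomputable def dv {f : G → ℝ} (hf : En T f) : HH T :=
  ⟨d T f, memℓp_gen (by simpa [sq_abs] using en_iff.1 hf)⟩

theorem dv_apply {f : G → ℝ} (hf : En T f) (p : G × T) : dv hf p = d T f p := rfl

theorem norm_sq_eq (ω : HH T) : ‖ω‖ ^ 2 = ∑' p, ω p ^ 2 := by
  rw [← real_inner_self_eq_norm_sq, lp.inner_eq_tsum]
  refine tsum_congr fun p => ?_
  simp [sq]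

theorem inner_eq (ω η : HH T) : inner ℝ ω η = ∑' p, ω p * η p := by
  rw [lp.inner_eq_tsum]
  refine tsum_congr fun p => ?_
  simp [mul_comm]

theorem en_of_eq {ω : HH T} {f : G → ℝ} (h : ∀ p, ω p = d T f p) : En T f := by
  have := (lp.memℓp ω).summable (by norm_num)
  simp only [ENNReal.toReal_ofNat, Real.norm_eq_abs, Real.rpow_ofNat, sq_abs, h] at this
  exact this

/-- gradients. -/
def DD (T : Finset G) : Submodule ℝ (HH T) where
  carrier := {ω | ∃ f : G → ℝ, ∀ p, ω p = d T f p}
  zero_mem' := ⟨0, fun p => by simp [d]⟩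
  add_mem' := by
    rintro a b ⟨f, hf⟩ ⟨g, hg⟩
    exact ⟨f + g, fun p => by simp [hf, hg, d]; ring⟩
  smul_mem' := by
    rintro c a ⟨f, hf⟩
    exact ⟨c • f, fun p => by simp [hf, d]; ring⟩

/-- gradients of finitely supported functions. -/
def K0 (T : Finset G) : Submodule ℝ (HH T) where
  carrier := {ω | ∃ f : G → ℝ, (Function.support f).Finite ∧ ∀ p, ω p = d T f p}
  zero_mem' := ⟨0, by simp, fun p => by simp [d]⟩
  add_mem' := by
    rintro a b ⟨f, h1, hf⟩ ⟨g, h2, hg⟩
    exact ⟨f + g, (h1.union h2).subset (Function.support_add f g),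
      fun p => by simp [hf, hg, d]; ring⟩
  smul_mem' := by
    rintro c a ⟨f, h1, hf⟩
    exact ⟨c • f, h1.subset (Function.support_const_smul_subset c f),
      fun p => by simp [hf, d]; ring⟩

theorem closed_DD (hg : Subgroup.closure (T : Set G) = ⊤) : IsClosed (DD T : Set (HH T)) := by
  refine IsSeqClosed.isClosed ?_
  intro ω ω0 hω hlim
  choose f hf using hω
  have hp : ∀ p, Tendsto (fun n => ω n p) atTop (𝓝 (ω0 p)) := fun p =>
    ((lp.lipschitzWith_one_eval (E := fun _ : G × T => ℝ) 2 p).continuous.tendsto ω0).comp hlim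
  have hex : ∀ g : G, ∃ L, Tendsto (fun n => f n g - f n 1) atTop (𝓝 L) := by
    intro g
    have hg' : g ∈ Subgroup.closure (T : Set G) := hg ▸ Subgroup.mem_top g
    induction hg' using Subgroup.closure_induction_right with
    | one => exact ⟨0, by simp⟩
    | mul_right x _ y hy ih =>
      obtain ⟨L, hL⟩ := ih
      refine ⟨_, (hL.add (hp (x, ⟨y, hy⟩))).congr fun n => ?_⟩
      simp only [hf, d]
      ring
    | mul_inv_cancel x _ y hy ih =>
      obtain ⟨L, hL⟩ := ih
      refine ⟨_, (hL.sub (hp (x * y⁻¹, ⟨y, hy⟩))).congr fun n => ?_⟩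
      simp only [hf, d, inv_mul_cancel_right]
      ring
  choose F hF using hex
  refine ⟨F, fun p => tendsto_nhds_unique (hp p) ?_⟩
  refine ((hF (p.1 * p.2)).sub (hF p.1)).congr fun n => ?_
  simp only [hf, d]
  ring

theorem approx_of_tendsto {w : G → ℝ} (hw : En T w) {c : ℝ} (hc : Tendsto w cofinite (𝓝 c)) :
    Approx T w := by
  intro ε hε
  let cl : ℕ → ℝ → ℝ := fun n x => max (-(1 / ((n : ℝ) + 1))) (min x (1 / ((n : ℝ) + 1)))
  have hpos : ∀ n : ℕ, (0 : ℝ) < 1 / ((n : ℝ) + 1) := fun n => by positivity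
  have hlip : ∀ n x y, |cl n x - cl n y| ≤ |x - y| := by
    intro n x y
    exact (abs_max_sub_max_le_max _ _ _ _).trans (max_le (by simp)
      ((abs_min_sub_min_le_max _ _ _ _).trans (max_le le_rfl (by simp))))
  have hbd : ∀ n x, |cl n x| ≤ 1 / ((n : ℝ) + 1) := by
    intro n x
    rw [abs_le]
    exact ⟨le_max_left _ _, max_le (by linarith [hpos n]) (min_le_right _ _)⟩
  have h0 : Tendsto (fun n : ℕ => 1 / ((n : ℝ) + 1)) atTop (𝓝 0) :=
    tendsto_one_div_add_atTop_nhds_zero_nat
  have hlim : Tendsto (fun n : ℕ => ∑' p : G × T,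
      (cl n (w (p.1 * (p.2 : G)) - c) - cl n (w p.1 - c)) ^ 2) atTop (𝓝 (∑' _ : G × T, (0 : ℝ))) := by
    refine tendsto_tsum_of_dominated_convergence (bound := fun p => d T w p ^ 2) hw ?_ ?_
    · intro p
      have h1 : ∀ x, Tendsto (fun n => cl n x) atTop (𝓝 0) := fun x =>
        squeeze_zero_norm (fun n => hbd n x) h0
      simpa using ((h1 (w (p.1 * (p.2 : G)) - c)).sub (h1 (w p.1 - c))).pow 2
    · refine Eventually.of_forall fun n p => ?_
      rw [Real.norm_eq_abs, abs_pow, sq_abs, sq_le_sq]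
      refine (hlip n _ _).trans (le_of_eq ?_)
      simp [d]
  rw [tsum_zero] at hlim
  obtain ⟨n, hn⟩ := (hlim.eventually (gt_mem_nhds hε)).exists
  refine ⟨fun x => w x - c - cl n (w x - c), ?_, ?_⟩
  · have h1 : ∀ᶠ x in cofinite, dist (w x) c < 1 / ((n : ℝ) + 1) :=
      Metric.tendsto_nhds.1 hc _ (hpos n)
    refine (eventually_cofinite.1 h1).subset fun x hx h2 => hx ?_
    rw [Real.dist_eq, abs_lt] at h2
    simp only [cl]
    rw [min_eq_left h2.2.le, max_eq_right h2.1.le, sub_self]
  · refine lt_of_eq_of_lt (tsum_congr fun p => ?_) hn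
    simp only [Pi.sub_apply]
    ring

theorem mem_K_iff {w : G → ℝ} (hw : En T w) :
    dv hw ∈ (K0 T).topologicalClosure ↔ Approx T w := by
  have hd : ∀ (v : G → ℝ) (ω : HH T), (∀ p, ω p = d T v p) → dist (dv hw) ω ^ 2 =
      ∑' p : G × T, ((w - v) (p.1 * (p.2 : G)) - (w - v) p.1) ^ 2 := by
    intro v ω h
    rw [dist_eq_norm, norm_sq_eq]
    refine tsum_congr fun p => ?_
    simp only [lp.coeFn_sub, Pi.sub_apply, dv_apply, h, d]
    ring
  rw [← SetLike.mem_coe, Submodule.topologicalClosure_coe, Metric.mem_closure_iff]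
  constructor
  · intro h ε hε
    obtain ⟨ω, ⟨v, hv, hω⟩, hlt⟩ := h (Real.sqrt ε) (Real.sqrt_pos.2 hε)
    refine ⟨v, hv, ?_⟩
    rw [← hd v ω hω]
    exact (Real.lt_sqrt dist_nonneg).1 hlt
  · intro h ε hε
    obtain ⟨v, hv, hlt⟩ := h (ε ^ 2) (by positivity)
    refine ⟨dv (en_of_finite hv), ⟨v, hv, fun p => rfl⟩, ?_⟩
    rw [← hd v (dv (en_of_finite hv)) fun p => rfl] at hlt
    exact lt_of_pow_lt_pow_left₀ 2 hε.le hlt

theorem exists_dip (hg : Subgroup.closure (T : Set G) = ⊤) {s : G} (hs : s ∈ T) :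
    ∃ u, IsDip T s u := by
  classical
  haveI : CompleteSpace (DD T) := (closed_DD hg).completeSpace_coe
  let δ : HH T := lp.single 2 ((1 : G), (⟨s, hs⟩ : T)) (1 : ℝ)
  obtain ⟨u, hu⟩ := (DD T).starProjection_apply_mem δ
  refine ⟨u, en_of_eq hu, fun f hf => ?_⟩
  have h1 : dv hf ∈ DD T := ⟨f, fun p => rfl⟩
  have h2 : inner ℝ (dv hf) (δ - (DD T).starProjection δ) = 0 :=
    Submodule.inner_right_of_mem_orthogonal h1 ((DD T).sub_starProjection_mem_orthogonal δ)
  rw [inner_sub_right, sub_eq_zero, lp.inner_single_right, inner_eq] at h2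
  simp only [hu, dv_apply] at h2
  have h3 : inner ℝ (d T f (1, ⟨s, hs⟩)) (1 : ℝ) = f s - f 1 := by simp [d]
  rw [← h3, h2]
  rfl

/-- translation of edges. -/
def tr (T : Finset G) (g : G) : G × T ≃ G × T := (Equiv.mulLeft g).prodCongr (Equiv.refl _)

theorem d_tr (f : G → ℝ) (g : G) (p : G × T) : d T (fun x => f (g * x)) p = d T f (tr T g p) := by
  simp [d, tr, mul_assoc]

theorem en_tr {f : G → ℝ} (hf : En T f) (g : G) : En T fun x => f (g * x) := by
  rw [en_iff]
  simp only [d_tr]
  exact (tr T g).summable_iff.2 (en_iff.1 hf)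

end DipAux

open DipAux

theorem dipP : DipP := by
  intro G _ T f hg hf hna
  classical
  have hex : ∀ s : G, ∃ u : G → ℝ, s ∈ T → IsDip T s u := by
    intro s
    by_cases hs : s ∈ T
    · obtain ⟨u, hu⟩ := exists_dip hg hs
      exact ⟨u, fun _ => hu⟩
    · exact ⟨0, fun h => absurd h hs⟩
  choose u hu using hex
  refine ⟨u, hu, ?_⟩
  by_contra hn
  push Not at hn
  apply hna
  rw [← mem_K_iff hf]
  set K := (K0 T).topologicalClosure with hK
  have hKD : K ≤ DD T :=
    Submodule.topologicalClosure_minimal _ (fun ω ⟨v, _, hv⟩ => ⟨v, hv⟩) (closed_DD hg)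
  obtain ⟨f', hf'⟩ : dv hf - K.starProjection (dv hf) ∈ DD T :=
    (DD T).sub_mem ⟨f, fun p => rfl⟩ (hKD (K.starProjection_apply_mem _))
  have he' : En T f' := en_of_eq hf'
  have hz : ∀ p, d T f' p = 0 := by
    rintro ⟨g, s, hs⟩
    obtain ⟨c, hc⟩ := hn s hs
    have h1 : En T fun x => u s (g⁻¹ * x) := en_tr (hu s hs).1 g⁻¹
    have h2 : dv h1 ∈ K := (mem_K_iff h1).2 (approx_of_tendsto h1
      (hc.comp (mul_right_injective g⁻¹).tendsto_cofinite))
    have h3 := Submodule.inner_left_of_mem_orthogonal h2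
      (K.sub_starProjection_mem_orthogonal (dv hf))
    rw [inner_eq] at h3
    simp only [hf', dv_apply] at h3
    have h4 := (hu s hs).2 _ (en_tr he' g)
    rw [← (tr T g).tsum_eq] at h3
    have h5 : ∑' p : G × T, d T f' (tr T g p) * d T (fun x => u s (g⁻¹ * x)) (tr T g p) =
        f' (g * s) - f' (g * 1) := by
      rw [← h4]
      refine tsum_congr fun p => ?_
      simp [d, tr, mul_assoc]
    rw [h3, mul_one] at h5
    exact h5.symm
  have : dv hf - K.starProjection (dv hf) = 0 := by
    ext p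
    rw [hf', hz]
    rfl
  rw [sub_eq_zero.1 this]
  exact K.starProjection_apply_mem _

theorem levP : LevP := by
  intro G _ T s u hT hg hs hu
  classical
  have hd : ∀ f : G → ℝ, En T f → ∑' p, d T f p * d T u p = f s - f 1 := hu.2
  have hneg : En T (fun x => -u x) := by
    refine (en_iff.1 hu.1).congr fun p => ?_
    simp only [d]
    ring
  have up : ∀ {t a}, t < u a → Path T {x | t < u x} a s := fun ha =>
    path_to hT hg hu.1 (fun f hf h0 hb => by rw [hd f hf, hb]; linarith [h0 1]) ha
  have down : ∀ {t a}, u a < t → Path T {x | u x < t} a 1 := by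
    intro t a ha
    have := path_to (t := -t) (a := a) (b := 1) hT hg hneg (fun f hf h0 hb => by
      have e : ∑' p, d T f p * d T (fun x => -u x) p = -∑' p, d T f p * d T u p := by
        rw [← tsum_neg]
        refine tsum_congr fun p => ?_
        simp only [d]
        ring
      rw [e, hd f hf, hb]
      linarith [h0 s]) (neg_lt_neg ha)
    simpa only [neg_lt_neg_iff] using this
  have hE : ∑' p, d T u p ^ 2 = u s - u 1 := by
    rw [← hd u hu.1]
    exact tsum_congr fun p => sq _
  have hE1 : (u s - u 1) ^ 2 ≤ u s - u 1 := by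
    have := (en_iff.1 hu.1).le_tsum (1, ⟨s, hs⟩) fun _ _ => sq_nonneg _
    rw [hE] at this
    simpa [d] using this
  have hle : u s - u 1 ≤ 1 := by nlinarith
  refine ⟨fun t => ⟨fun a ha b hb => (down ha).trans ((down hb).symm hT),
    fun a ha b hb => (up ha).trans ((up hb).symm hT)⟩, fun x => ⟨?_, ?_⟩, hle, fun hs1 => ?_,
    hE.trans_le hle⟩
  · exact not_lt.1 fun h => lt_irrefl (u 1) (down h).right
  · exact not_lt.1 fun h => lt_irrefl (u s) (up h).right
  · by_contra hn
    have hz : ∀ p, d T u p = 0 := by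
      intro p
      have := (en_iff.1 hu.1).le_tsum p fun _ _ => sq_nonneg _
      rw [hE] at this
      nlinarith [sq_nonneg (d T u p), not_lt.1 hn]
    have h1 := hd (Pi.single s 1) (en_of_finite ((finite_singleton s).subset
      (Pi.support_single_subset)))
    simp [hz, hs1.symm] at h1

end Crest.Agent.R224
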