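import Crest.Agent.R224.Api

/-! Row 224: every direction at a cut point is preserved by a transient subgroup. -/

namespace Crest.Agent.R224

open Crest.Agent.Lib.KyFan Set Filter Topology
open scoped Pointwise

namespace DirTrAux

variable {G : Type} [Group G] {Y : Type} [MetricSpace Y] [MulAction G Y] {T : Finset G} {o : Y}

/-- the orbit of a finite set under a parabolic stabiliser accumulates only at `y`. -/
theorem orbit_finite (h : W T o) (hP : Par T o) {y : Zt G o} (hy : IsCP T y) {Φ : Set G}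
    (hΦ : Φ.Finite) {ε : ℝ} (hε : 0 < ε) :
    {x : G | (∃ c : G, c • y = y ∧ c⁻¹ * x ∈ Φ) ∧ ε ≤ dist (x • o) y.1}.Finite := by
  have h1 := hP y hy (ε / 2) (half_pos hε)
  have h2 := h.sp.shrink hΦ (half_pos hε)
  refine ((h1.union h2).mul hΦ).subset ?_
  rintro x ⟨⟨c, hc, hx⟩, hd⟩
  refine ⟨c, ?_, c⁻¹ * x, hx, by simp⟩
  by_cases h3 : ε / 2 ≤ dist (c • o) y.1
  · exact Or.inl ⟨hc, h3⟩
  · refine Or.inr ⟨c⁻¹ * x, hx, ?_⟩
    rw [mul_inv_cancel_left]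
    have h4 := dist_triangle (x • o) (c • o) y.1
    rw [dist_comm (x • o) (c • o)] at h4
    push Not at h3
    linarith

/-- directions at `y` are open. -/
theorem dir_open (h : W T o) (hP : Par T o) {τ : Fin 3 → Zt G o} (hτ : Tame T τ) {y : Zt G o}
    (hy : IsCP T y) {z : Zt G o} (hz : z ≠ y) :
    ∃ δ : ℝ, 0 < δ ∧ ∀ z' : Zt G o, dist z'.1 z.1 < δ → z' ≠ y ∧ ¬ Sep T y z z' := by
  obtain ⟨Φ, hΦ, hbd⟩ := h.stab_bd hτ y
  have hc : 0 < dist z.1 y.1 / 2 := half_pos (Zt.dist_pos hz)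
  obtain ⟨δ, hδ, hball⟩ := h.sp.const_ball (orbit_finite h hP hy hΦ hc) hc
  refine ⟨min δ (dist z.1 y.1), lt_min hδ (Zt.dist_pos hz), fun z' hz' => ⟨?_, ?_⟩⟩
  · rintro rfl
    rw [dist_comm] at hz'
    exact lt_irrefl _ (hz'.trans_le (min_le_right _ _))
  · rintro ⟨-, -, H, hH, h1, h2⟩
    have hd : dist z'.1 z.1 < δ := hz'.trans_le (min_le_left _ _)
    obtain ⟨δ1, hδ1, h1'⟩ := h1.nhds
    obtain ⟨δ2, hδ2, h2'⟩ := h2.nhds
    obtain ⟨r, hr, hin⟩ := h.in_two hτ.1 (A := fun v => In o v.1 H) hδ1 fun v hv => h1' v.1 hv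
    obtain ⟨r', hr', hout⟩ := h.in_not_two hτ.1 (A := fun v => In o v.1 H) hδ2
      fun v hv hv' => hv'.not_compl h.sp (h2' v.1 hv)
    obtain ⟨g, hg⟩ := h.sp.exists_vertex z.1 (lt_min hr hδ)
    obtain ⟨g', hg'⟩ := h.sp.exists_vertex z'.1 (lt_min hr' (sub_pos.2 hd))
    have key := hball {x | Two τ x fun v => In o v.1 H} z.1 (by
      rintro x ⟨x', hxx, hne⟩ hx
      obtain ⟨i, j, hs⟩ := h.btw_of_cross hτ.1 hH hne
      refine ⟨hbd x x' hxx ⟨i, j, hs.btw⟩, ?_⟩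
      have h4 := dist_triangle z.1 (x • o) y.1
      rw [dist_comm z.1 (x • o)] at h4
      linarith) g g' (hg.trans_le (min_le_right _ _)) (by
      have h4 := dist_triangle (g' • o) z'.1 z.1
      have h5 := hg'.trans_le (min_le_right _ _)
      linarith)
    exact hout g' (hg'.trans_le (min_le_left _ _))
      (key.1 (hin g (hg.trans_le (min_le_left _ _))))

theorem smul_ne {y a : Zt G o} {c : G} (hc : c • y = y) (ha : a ≠ y) : c • a ≠ y := by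
  intro e
  exact ha ((smul_left_cancel_iff c).1 (e.trans hc.symm))

theorem sep_fix (h : W T o) {y u v : Zt G o} {c : G} (hc : c • y = y) :
    Sep T y (c • u) (c • v) ↔ Sep T y u v := by
  have := h.sep_smul c (r := y) (a := u) (b := v)
  rwa [hc] at this

/-- the stabiliser of the direction of `a` at `y`. -/
def C0 (h : W T o) (y a : Zt G o) (ha : a ≠ y) : Subgroup G where
  carrier := {c | c • y = y ∧ ¬ Sep T y a (c • a)}
  one_mem' := ⟨one_smul _ _, fun hs => h.sep_ne hs (one_smul _ _).symm⟩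
  mul_mem' := by
    rintro c c' ⟨h1, h2⟩ ⟨h3, h4⟩
    refine ⟨by rw [mul_smul, h3, h1], fun hs => ?_⟩
    rcases h.sep_or hs (smul_ne h1 ha) with h5 | h5
    · exact h2 h5
    · rw [mul_smul] at h5
      exact h4 ((sep_fix h h1).1 h5)
  inv_mem' := by
    rintro c ⟨h1, h2⟩
    refine ⟨inv_smul_eq_iff.2 h1.symm, fun hs => h2 ?_⟩
    have := (sep_fix h h1).2 hs
    rw [smul_inv_smul] at this
    exact this.symm

theorem mem_C0 (h : W T o) {y a : Zt G o} (ha : a ≠ y) {c : G} :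
    c ∈ C0 h y a ha ↔ c • y = y ∧ ¬ Sep T y a (c • a) := Iff.rfl

/-- the boundary of the majority set of a direction is cocompact for the stabiliser of the
direction. -/
theorem bd_sub (h : W T o) {τ : Fin 3 → Zt G o} (hτ : Tame T τ) {y a : Zt G o} (ha : a ≠ y) :
    ∃ Φ' : Set G, Φ'.Finite ∧ ∀ x ∈ bd T {x | Two τ x fun z => z ≠ y ∧ ¬ Sep T y a z},
      ∃ c ∈ C0 h y a ha, c⁻¹ * x ∈ Φ' := by
  obtain ⟨Φ, hΦ, hbd⟩ := h.stab_bd hτ y
  have hch : ∀ θ : Zt G o, ∃ c : G, (∃ c' : G, c' • y = y ∧ c' • θ ≠ y ∧ ¬ Sep T y a (c' • θ)) →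
      c • y = y ∧ c • θ ≠ y ∧ ¬ Sep T y a (c • θ) := fun θ => by
    by_cases hθ : ∃ c' : G, c' • y = y ∧ c' • θ ≠ y ∧ ¬ Sep T y a (c' • θ)
    · obtain ⟨c, hc⟩ := hθ
      exact ⟨c, fun _ => hc⟩
    · exact ⟨1, fun h' => (hθ h').elim⟩
  choose ch hch using hch
  have btw : ∀ u v : Zt G o, (u ≠ y ∧ ¬ Sep T y a u) → ¬ (v ≠ y ∧ ¬ Sep T y a v) →
      Btw T u y v := by
    rintro u v ⟨hu, hu'⟩ hv
    by_cases e : v = y
    · rw [e]; exact btw_right _ _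
    · have hs : Sep T y a v := by
        by_contra hs
        exact hv ⟨e, hs⟩
      exact ((h.sep_or hs hu).resolve_left hu').btw
  refine ⟨(fun p : G × G × Fin 3 => ch ((p.1 * p.2.1) • τ p.2.2) * p.1) ''
    (Φ ×ˢ (insert 1 (T : Set G)) ×ˢ univ),
    (hΦ.prod ((T.finite_toSet.insert 1).prod finite_univ)).image _, ?_⟩
  rintro x ⟨x', hxx, hne⟩
  have key : (∃ i j, Btw T (x • τ i) y (x' • τ j)) ∧
      ∃ s ∈ insert 1 (T : Set G), ∃ i, (x * s) • τ i ≠ y ∧ ¬ Sep T y a ((x * s) • τ i) := by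
    by_cases hx : Two τ x fun z => z ≠ y ∧ ¬ Sep T y a z
    · have hx' : ¬ Two τ x' fun z => z ≠ y ∧ ¬ Sep T y a z := fun hx' => hne ⟨fun _ => hx', fun _ => hx⟩
      obtain ⟨i, -, -, hi, -⟩ := hx
      obtain ⟨j, -, -, hj, -⟩ := two_not_iff.2 hx'
      exact ⟨⟨i, j, btw _ _ hi hj⟩, 1, mem_insert _ _, i, by rw [mul_one]; exact hi⟩
    · have hx' : Two τ x' fun z => z ≠ y ∧ ¬ Sep T y a z := by
        by_contra hx'
        exact hne ⟨fun h1 => (hx h1).elim, fun h1 => (hx' h1).elim⟩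
      obtain ⟨i, -, -, hi, -⟩ := two_not_iff.2 hx
      obtain ⟨j, -, -, hj, -⟩ := hx'
      refine ⟨⟨i, j, (btw _ _ hj hi).symm⟩, x⁻¹ * x', mem_insert_of_mem _ hxx, j, ?_⟩
      rw [mul_inv_cancel_left]; exact hj
  obtain ⟨hb, s, hs, i, hi, hi'⟩ := key
  obtain ⟨c, hc, hφ⟩ := hbd x x' hxx hb
  have hθ : c • ((c⁻¹ * x * s) • τ i) = (x * s) • τ i := by
    rw [← mul_smul, mul_assoc, mul_inv_cancel_left]
  obtain ⟨k1, k2, k3⟩ := hch ((c⁻¹ * x * s) • τ i) ⟨c, hc, by rw [hθ]; exact hi, by rw [hθ]; exact hi'⟩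
  set e := ch ((c⁻¹ * x * s) • τ i) with he
  have hγ : (c * e⁻¹) • y = y := by rw [mul_smul, inv_smul_eq_iff.2 k1.symm, hc]
  refine ⟨c * e⁻¹, (mem_C0 h ha).2 ⟨hγ, fun hsep => ?_⟩, (c⁻¹ * x, s, i), ⟨hφ, hs, mem_univ _⟩, ?_⟩
  · rcases h.sep_or hsep hi with h5 | h5
    · exact hi' h5
    · refine k3 ((sep_fix h hγ).1 ?_)
      rw [mul_smul c e⁻¹ (e • _), inv_smul_smul, hθ]
      exact h5.symm
  · show e * (c⁻¹ * x) = (c * e⁻¹)⁻¹ * x
    rw [mul_inv_rev, inv_inv, mul_assoc]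

end DirTrAux

open DirTrAux in
theorem dirTrP : DirTrP := by
  intro G _ Y _ _ T o h hWall hEss hP hτ y a hy ha
  obtain ⟨τ, hτ⟩ := hτ
  obtain ⟨b, hb⟩ : ∃ b, Sep T y a b := by
    obtain ⟨p, q, hpq⟩ := hy
    rcases h.sep_or hpq ha with h1 | h1
    · exact ⟨p, h1.symm⟩
    · exact ⟨q, h1⟩
  have hina : In o a.1 {x | Two τ x fun z => z ≠ y ∧ ¬ Sep T y a z} := by
    obtain ⟨δ, hδ, h1⟩ := dir_open h hP hτ hy ha
    exact h.in_two hτ.1 hδ h1
  have hinb : In o b.1 {x | Two τ x fun z => z ≠ y ∧ ¬ Sep T y a z}ᶜ := by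
    obtain ⟨δ, hδ, h1⟩ := dir_open h hP hτ hy hb.2.1
    refine h.in_not_two hτ.1 hδ fun z hz h2 => ?_
    rcases h.sep_or hb h2.1 with h3 | h3
    · exact h2.2 h3
    · exact (h1 z hz).2 h3.symm
  obtain ⟨Φ', hΦ', hbd⟩ := bd_sub h hτ ha
  set M : Set G := {x | Two τ x fun z => z ≠ y ∧ ¬ Sep T y a z} with hM
  obtain ⟨ρ, hρ⟩ := exists_subset_Bl h.hyp.symm hΦ' (by rw [h.hyp.gen]; exact subset_univ _)
  obtain ⟨R1, hE⟩ := hEss
  have hfin : ((C0 h y a ha : Set G) ∩ Bl T (ρ + R1 + ρ)).Finite :=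
    (Bl_finite T _).subset inter_subset_right
  have hU : ∀ c, c ∈ hfin.toFinset ↔ c ∈ C0 h y a ha ∧ c ∈ Bl T (ρ + R1 + ρ) := fun c => by
    rw [Set.Finite.mem_toFinset]; rfl
  have hsymm : Symm hfin.toFinset := fun t ht =>
    (hU _).2 ⟨inv_mem ((hU _).1 ht).1, inv_mem_Bl h.hyp.symm ((hU _).1 ht).2⟩
  have hle : Subgroup.closure (hfin.toFinset : Set G) ≤ C0 h y a ha :=
    (Subgroup.closure_le _).2 fun c hc => ((hU c).1 hc).1
  refine ⟨hfin.toFinset, hsymm, ?_, fun c hc => (mem_C0 h ha).1 (hle hc)⟩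
  have hch : ∀ w : G, ∃ c : G, w ∈ bd T M → c ∈ C0 h y a ha ∧ c⁻¹ * w ∈ Φ' := fun w => by
    by_cases hw : w ∈ bd T M
    · obtain ⟨c, hc⟩ := hbd w hw
      exact ⟨c, fun _ => hc⟩
    · exact ⟨1, fun h' => (hw h').elim⟩
  choose cw hcw using hch
  obtain ⟨i, H', hH', ha', hb'⟩ := hE (G ⧸ Subgroup.closure (hfin.toFinset : Set G))
    (fun w => QuotientGroup.mk (cw w)) M a b hina hinb (by
      refine finite_empty.subset ?_
      rintro w ⟨hw, w', hw', hn, hne⟩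
      refine hne (QuotientGroup.eq.2 (Subgroup.subset_closure ((hU _).2 ⟨?_, ?_⟩)))
      · exact mul_mem (inv_mem (hcw w hw).1) (hcw w' hw').1
      · have h1 := mul_mem_Bl (mul_mem_Bl (hρ (hcw w hw).2) hn)
          (inv_mem_Bl h.hyp.symm (hρ (hcw w' hw').2))
        have e : (cw w)⁻¹ * w * (w⁻¹ * w') * ((cw w')⁻¹ * w')⁻¹ = (cw w)⁻¹ * cw w' := by group
        rwa [e] at h1)
  obtain ⟨c0, rfl⟩ := QuotientGroup.mk_surjective i
  refine hWall hfin.toFinset (Φ' ∪ (fun w => c0⁻¹ * w) '' _) {x | c0 * x ∈ H'} (c0⁻¹ • a)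
    (c0⁻¹ • b) hsymm (hΦ'.union (hH'.image _)) ?_ ?_ ?_
  · intro x hx
    rw [mem_bd_preimage] at hx
    by_cases hx' : c0 * x ∈ bd T M ∧ (QuotientGroup.mk (cw (c0 * x)) :
        G ⧸ Subgroup.closure (hfin.toFinset : Set G)) = QuotientGroup.mk c0
    · refine ⟨c0⁻¹ * cw (c0 * x), QuotientGroup.eq.1 hx'.2.symm, (cw (c0 * x))⁻¹ * (c0 * x),
        Or.inl (hcw _ hx'.1).2, ?_⟩
      show c0⁻¹ * cw (c0 * x) * ((cw (c0 * x))⁻¹ * (c0 * x)) = x
      group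
    · exact ⟨1, one_mem _, x, Or.inr ⟨c0 * x, ⟨hx, hx'⟩, inv_mul_cancel_left _ _⟩, one_mul _⟩
  · refine (in_smul h.sp c0).1 ?_
    rw [Zt.smul_val, smul_inv_smul]; exact ha'
  · refine (in_smul h.sp c0 (H := H'ᶜ)).1 ?_
    rw [Zt.smul_val, smul_inv_smul]; exact hb'

end Crest.Agent.R224
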