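import Crest.Agent.R224.Api

/-! Row 224: one piece of a decomposed wall is essential. -/

namespace Crest.Agent.R224

open Set Filter Topology

namespace EssAux

variable {G : Type} [Group G] {Y : Type} [MetricSpace Y] [MulAction G Y] {T : Finset G} {o : Y}
variable {ι : Type} {k : G → ι} {H : Set G}

/-- up to finitely many edges, the wall of `H'` is the part of the wall of `H` with class in `I` -/
def Gd (T : Finset G) (k : G → ι) (H : Set G) (I : Set ι) (H' : Set G) : Prop :=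
  ∃ F : Set G, F.Finite ∧ ∀ x y, Adj T x y → x ∉ F →
    ((x ∈ H' ↔ y ∈ H') ↔ (k x ∈ I → (x ∈ H ↔ y ∈ H)))

theorem Gd.bd_finite {I : Set ι} {H' : Set G} (h : Gd T k H I H') :
    (bd T H' \ {w | w ∈ bd T H ∧ k w ∈ I}).Finite := by
  obtain ⟨F, hF, h⟩ := h
  refine hF.subset ?_
  rintro x ⟨⟨y, hxy, hx⟩, hx'⟩
  by_contra hxF
  refine hx ((h x y hxy hxF).2 fun hk => ?_)
  by_contra hc
  exact hx' ⟨⟨y, hxy, hc⟩, hk⟩

theorem Gd.in_or (hs : Sp T o) (hT : Symm T) {I : Set ι} {H' : Set G} (h : Gd T k H I H')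
    {z : Zt G o} (hz : In o z.1 H ∨ In o z.1 Hᶜ) : In o z.1 H' ∨ In o z.1 H'ᶜ := by
  obtain ⟨r, hr, hf⟩ : ∃ r : ℝ, 0 < r ∧ {g : G | g ∈ bd T H ∧ dist (g • o) z.1 < r}.Finite := by
    rcases hz with hz | hz
    · exact hz.bd_finite hs hT
    · simpa only [bd_compl] using hz.bd_finite hs hT
  refine in_or_in hs hr ((hf.union h.bd_finite).subset fun g hg => ?_)
  by_cases hb : g ∈ bd T H
  · exact Or.inl ⟨hb, hg.2⟩
  · exact Or.inr ⟨hg.1, fun h' => hb h'.1⟩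

theorem in_iff (hs : Sp T o) {z : Y} {H' : Set G} (h : In o z H' ∨ In o z H'ᶜ) :
    In o z {g | g ∈ H' ↔ In o z H'} := by
  rcases h with h | h
  · exact h.mono fun g hg => iff_of_true hg h
  · exact h.mono fun g hg => iff_of_false hg fun h' => h'.not_compl hs h

/-- additivity of the separation bit -/
theorem split (hh : Hyp T) (hs : Sp T o) {a b : Zt G o} (ha : In o a.1 H) (hb : In o b.1 Hᶜ)
    {I J : Set ι} (hIJ : Disjoint I J) {H1 H2 H3 : Set G} (h1 : Gd T k H I H1)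
    (h2 : Gd T k H J H2) (h3 : Gd T k H (I ∪ J) H3) (hsep : ¬ (In o a.1 H3 ↔ In o b.1 H3)) :
    ¬ (In o a.1 H1 ↔ In o b.1 H1) ∨ ¬ (In o a.1 H2 ↔ In o b.1 H2) := by
  have key : ∀ z : Zt G o, In o z.1 H ∨ In o z.1 Hᶜ → ∀ E : Set G, E.Finite → ∃ g, g ∉ E ∧
      (g ∈ H1 ↔ In o z.1 H1) ∧ (g ∈ H2 ↔ In o z.1 H2) ∧ (g ∈ H3 ↔ In o z.1 H3) := by
    intro z hz E hE
    obtain ⟨g, hg, hgE⟩ := (((in_iff hs (h1.in_or hs hh.symm hz)).inter
      ((in_iff hs (h2.in_or hs hh.symm hz)).inter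
        (in_iff hs (h3.in_or hs hh.symm hz)))).infinite hs).exists_notMem_finite hE
    exact ⟨g, hgE, hg⟩
  have hfin : (bd T {x | (x ∈ H1 ↔ x ∈ H2) ↔ x ∈ H3}).Finite := by
    obtain ⟨F1, hF1, e1⟩ := h1
    obtain ⟨F2, hF2, e2⟩ := h2
    obtain ⟨F3, hF3, e3⟩ := h3
    refine ((hF1.union hF2).union hF3).subset ?_
    rintro x ⟨y, hxy, hx⟩
    by_contra hxF
    simp only [mem_union, not_or] at hxF
    have f1 := e1 x y hxy hxF.1.1
    have f2 := e2 x y hxy hxF.1.2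
    have f3 := e3 x y hxy hxF.2
    have f4 : ¬ (k x ∈ I ∧ k x ∈ J) := fun h => Set.disjoint_left.1 hIJ h.1 h.2
    simp only [mem_union, mem_ofPred_eq] at f3 hx
    grind
  rcases hh.oneEnd _ hfin with hE | hE
  all_goals
    obtain ⟨g, hg, g1, g2, g3⟩ := key a (Or.inl ha) _ hE
    obtain ⟨g', hg', g1', g2', g3'⟩ := key b (Or.inr hb) _ hE
    simp only [mem_compl_iff, mem_ofPred_eq] at hg hg'
    grind

theorem sep_of (hh : Hyp T) (hs : Sp T o) {a b : Zt G o} (ha : In o a.1 H) (hb : In o b.1 Hᶜ)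
    {I : Set ι} {H' : Set G} (h : Gd T k H I H') (hsep : ¬ (In o a.1 H' ↔ In o b.1 H')) :
    ∃ H'' : Set G, bd T H'' = bd T H' ∧ In o a.1 H'' ∧ In o b.1 H''ᶜ := by
  rcases h.in_or hs hh.symm (Or.inl ha) with h1 | h1 <;>
    rcases h.in_or hs hh.symm (Or.inr hb) with h2 | h2
  · exact absurd (iff_of_true h1 h2) hsep
  · exact ⟨H', rfl, h1, h2⟩
  · exact ⟨H'ᶜ, bd_compl _, h1, by rwa [compl_compl]⟩
  · exact absurd (iff_of_false (fun h' => h'.not_compl hs h1) fun h' => h'.not_compl hs h2) hsep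

/-- the side of `z` is read off at a fixed vertex, uniformly for sub-walls -/
theorem exists_vertex (hs : Sp T o) (hT : Symm T) {z : Y} {H0 : Set G} (hz : In o z H0) :
    ∃ g : G, ∀ N : Set G, bd T N ⊆ bd T H0 → (g ∈ N ↔ In o z N) := by
  obtain ⟨r, hr, hf⟩ := hz.bd_finite hs hT
  obtain ⟨δ, hδ, h⟩ := hs.const_ball hf hr
  obtain ⟨g, hg⟩ := hs.exists_vertex z hδ
  refine ⟨g, fun N hN => ?_⟩
  have h1 := h N z (fun g hg hd => ⟨hN hg, hd⟩) g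
  by_cases hgN : g ∈ N
  · exact iff_of_true hgN ⟨δ, hδ, fun g' hg' => (h1 g' hg hg').1 hgN⟩
  · exact iff_of_false hgN fun h' =>
      h'.not_compl hs ⟨δ, hδ, fun g' hg' hc => hgN ((h1 g' hg hg').2 hc)⟩

end EssAux

open EssAux in
theorem essP : EssP := by
  intro G _ Y _ _ T o hh hs
  obtain ⟨R1, hR⟩ := hh.fillW
  refine ⟨R1, fun ι k H a b ha hb hS => ?_⟩
  set S0 := {w | w ∈ bd T H ∧ ∃ w' ∈ bd T H, Near T R1 w w' ∧ k w ≠ k w'} with hS0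
  have hex : ∀ I : Set ι, ∃ H', Gd T k H I H' := by
    intro I
    obtain ⟨Φ, hΦ⟩ := hR S0.ncard
    obtain ⟨H', h⟩ := hΦ H {w | k w ∈ I} S0 hS le_rfl fun p hp q hq hpI hqI hpq =>
      ⟨hp, q, hq, hpq, fun e => hqI (by rw [mem_ofPred_eq, ← e]; exact hpI)⟩
    exact ⟨H', _, nbhd_finite Φ hS, fun x y hxy hx => h x y hxy fun s hs' hn => hx ⟨s, hs', hn⟩⟩
  have hind : ∀ I : Set ι, I.Finite →
      (∃ H', Gd T k H I H' ∧ ¬ (In o a.1 H' ↔ In o b.1 H')) →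
      ∃ i H', Gd T k H {i} H' ∧ ¬ (In o a.1 H' ↔ In o b.1 H') := by
    intro I hI
    induction I, hI using Set.Finite.induction_on with
    | empty =>
      rintro ⟨H', h1, h2⟩
      obtain ⟨H'', e, h3, h4⟩ := sep_of hh hs ha hb h1 h2
      exact absurd (by simpa [e] using h1.bd_finite) (hh.bd_infinite hs h3 h4)
    | @insert i I hi _ ih =>
      rintro ⟨H3, h3, hsep⟩
      obtain ⟨H1, h1⟩ := hex {i}
      obtain ⟨H2, h2⟩ := hex I
      rcases split hh hs ha hb (disjoint_singleton_left.2 hi) h1 h2 h3 hsep with h | h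
      · exact ⟨i, H1, h1, h⟩
      · exact ih ⟨H2, h2, h⟩
  obtain ⟨g, hg⟩ := exists_vertex hs hh.symm ha
  obtain ⟨g', hg'⟩ := exists_vertex hs hh.symm hb
  obtain ⟨γ, hγ, -, hgγ, hgγ', hc⟩ :=
    (conn_univ hh.symm hh.gen g trivial g' trivial).exists_finite hh.symm
  obtain ⟨Φ, hΦ⟩ := hR 0
  obtain ⟨HU, hU⟩ := hΦ H {w | k w ∈ (k '' (S0 ∪ bd T H ∩ γ))ᶜ} ∅ finite_empty (by simp)
    fun p hp q hq hpI hqI hpq => hpI ⟨p, Or.inl ⟨hp, q, hq, hpq,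
      fun e => hqI (by rw [mem_ofPred_eq, ← e]; exact hpI)⟩, rfl⟩
  have hU' : ∀ x y, Adj T x y →
      ((x ∈ HU ↔ y ∈ HU) ↔ (k x ∈ (k '' (S0 ∪ bd T H ∩ γ))ᶜ → (x ∈ H ↔ y ∈ H))) :=
    fun x y hxy => hU x y hxy fun _ h => h.elim
  have hbU : bd T HU ⊆ bd T H := fun x ⟨y, hxy, hx⟩ =>
    ⟨y, hxy, fun h => hx ((hU' x y hxy).2 fun _ => h)⟩
  have hUsame : In o a.1 HU ↔ In o b.1 HU := by
    rw [← hg HU hbU, ← hg' HU (by rwa [bd_compl])]
    by_contra hne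
    obtain ⟨x, hx, y, -, hxy, hcr⟩ := (hc g hgγ g' hgγ').exists_cross hne
    exact hcr ((hU' x y hxy).2 fun hk =>
      absurd ⟨x, Or.inr ⟨hbU ⟨y, hxy, hcr⟩, hx⟩, rfl⟩ hk)
  obtain ⟨H1, h1⟩ := hex (k '' (S0 ∪ bd T H ∩ γ))
  have h3 : Gd T k H (k '' (S0 ∪ bd T H ∩ γ) ∪ (k '' (S0 ∪ bd T H ∩ γ))ᶜ) H :=
    ⟨∅, finite_empty, fun x y _ _ => by simp⟩
  rcases split hh hs ha hb disjoint_compl_right h1
    ⟨∅, finite_empty, fun x y hxy _ => hU' x y hxy⟩ h3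
    (fun h => (h.1 ha).not_compl hs hb) with h | h
  · obtain ⟨i, H', h4, h5⟩ := hind _ ((hS.union (hγ.inter_of_right _)).image k) ⟨H1, h1, h⟩
    obtain ⟨H'', e, h6, h7⟩ := sep_of hh hs ha hb h4 h5
    exact ⟨i, H'', by rw [e]; exact h4.bd_finite, h6, h7⟩
  · exact absurd hUsame h

end Crest.Agent.R224
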