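import Crest.Agent.R224.Basic
import Crest.Agent.R224.Chain

/-! Row 224: one-endedness and uniform filling from coarse cohomology. -/

set_option linter.unusedSectionVars false

namespace Crest.Agent.R224

open Crest.Agent.Lib.KyFan Set Filter Topology

namespace FillAux

variable {G : Type} [Group G] {T : Finset G}

theorem small_sub {r : ℕ} {l m : List G} (h : SmallG T r l) (hm : m.Sublist l) : SmallG T r m :=
  fun a ha b hb => h a (hm.subset ha) b (hm.subset hb)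

theorem small_map (g : G) {r : ℕ} {l : List G} (h : SmallG T r l) :
    SmallG T r (l.map (g * ·)) := by
  intro a ha b hb
  obtain ⟨a, ha', rfl⟩ := List.mem_map.1 ha
  obtain ⟨b, hb', rfl⟩ := List.mem_map.1 hb
  exact (near_mul_left g).2 (h a ha' b hb')

theorem small_pair (hT : Symm T) {r : ℕ} {a b : G} (h : Near T r a b) : SmallG T r [a, b] := by
  intro x hx y hy
  simp only [List.mem_cons, List.not_mem_nil, or_false] at hx hy
  rcases hx with rfl | rfl <;> rcases hy with rfl | rfl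
  exacts [Near.refl _ _, h, h.symm hT, Near.refl _ _]

theorem cob_pair (φ : Co G) (a b : G) : cob φ [a, b] = φ [b] + φ [a] := by
  simp [cob_cons]

theorem cob_triple (φ : Co G) (a b c : G) :
    cob φ [a, b, c] = φ [b, c] + (φ [a, c] + φ [a, b]) := by
  simp [cob_cons]

theorem cob_eq_zero {φ : Co G} {l : List G}
    (h : ∀ m, m.Sublist l → m.length + 1 = l.length → φ m = 0) : cob φ l = 0 := by
  rw [cob_congr (ψ := fun _ => 0) h, cob_zero]

theorem oneEnd (hT : Symm T) (hg : Subgroup.closure (T : Set G) = ⊤) (h1 : HX T 1) (H : Set G)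
    (hH : (bd T H).Finite) : H.Finite ∨ Hᶜ.Finite := by
  classical
  obtain ⟨r', h1⟩ := h1 1
  set χ : G → F2 := fun a => if a ∈ H then 1 else 0 with hχ
  obtain ⟨φ, hφ, e⟩ := h1 (cob (pt χ)) (fun l _ _ => cob_cob _ l) (by
    refine (smallG_finite (T := T) r' 2 (nbhd_finite (T := T) r' hH)).subset ?_
    rintro l ⟨hl, hs, h0⟩
    obtain ⟨a, b, rfl⟩ := List.length_eq_two.1 hl
    have hab : ¬ (a ∈ H ↔ b ∈ H) := fun h => h0 (by
      rw [cob_pair, pt_single, pt_single, hχ]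
      simp only [h, F2.add_self])
    obtain ⟨x, hx, y, -, hxy, hc⟩ :=
      ((hs a (by simp) b (by simp)).path hT).exists_cross hab
    exact ⟨hl.le, hs, a, by simp, x, ⟨y, hxy, hc⟩, hx⟩)
  have hE : {a : G | φ [a] ≠ 0}.Finite := by
    refine Set.Finite.of_finite_image (f := fun a => [a]) (hφ.subset ?_) fun a _ b _ h => by
      simpa using h
    rintro _ ⟨a, ha, rfl⟩
    refine ⟨rfl, fun x hx y hy => ?_, ha⟩
    rw [List.mem_singleton.1 hx, List.mem_singleton.1 hy]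
    exact Near.refl _ _
  have hc : ∀ a, χ 1 + φ [1] = χ a + φ [a] := fun a =>
    (conn_univ hT hg 1 trivial a trivial).const (fun x => χ x + φ [x]) fun x _ y _ hxy => by
      have := e [x, y] rfl (small_pair hT hxy.near)
      rw [cob_pair, cob_pair, pt_single, pt_single] at this
      have h2 : ∀ p q u v : F2, p + q = u + v → q + v = p + u := by decide
      exact h2 _ _ _ _ this
  by_cases h0 : χ 1 + φ [1] = 0
  · refine Or.inl (hE.subset fun a ha h => ?_)
    have := hc a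
    rw [h0, h, hχ] at this
    simp [ha] at this
  · refine Or.inr (hE.subset fun a ha h => h0 ?_)
    rw [hc a, h, hχ]
    simp [show a ∉ H from ha]

/-- uniform filling of cocycles supported near a point. -/
def UF (T : Finset G) (n r r' R Φ : ℕ) : Prop :=
  ∀ (x0 : G) (κ : Co G), (∀ l : List G, l.length = n + 2 → SmallG T r' l → cob κ l = 0) →
    (∀ l : List G, l.length = n + 1 → SmallG T r' l → κ l ≠ 0 → ∃ a ∈ l, Near T R x0 a) →
    ∃ φ : Co G, (∀ l, φ l ≠ 0 → ∀ a ∈ l, Near T Φ x0 a) ∧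
      ∀ l : List G, l.length = n + 1 → SmallG T r l → κ l = cob φ l

theorem exists_UF (hT : Symm T) (hg : Subgroup.closure (T : Set G) = ⊤) {n : ℕ} (h : HX T n)
    (r : ℕ) : ∃ r', r ≤ r' ∧ ∀ R, ∃ Φ, UF T n r r' R Φ := by
  classical
  obtain ⟨r'', h⟩ := h r
  refine ⟨max r r'', le_max_left _ _, fun R => ?_⟩
  set L := {l : List G | l.length ≤ n + 1 ∧ SmallG T (max r r'') l ∧
    ∃ a ∈ l, a ∈ {a | Near T R 1 a}} with hL
  have hLf : L.Finite := smallG_finite _ _ (near_finite R 1)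
  have key : ∀ A : Set (List G), ∃ Φ : ℕ, A ⊆ L →
      (∀ l : List G, l.length = n + 2 → SmallG T (max r r'') l → cob (A.indicator 1) l = 0) →
      ∃ φ : Co G, (∀ l, φ l ≠ 0 → ∀ a ∈ l, Near T Φ 1 a) ∧
        ∀ l : List G, l.length = n + 1 → SmallG T r l → A.indicator 1 l = cob φ l := by
    intro A
    by_cases hA : A ⊆ L ∧
      ∀ l : List G, l.length = n + 2 → SmallG T (max r r'') l → cob (A.indicator 1) l = 0
    swap
    · exact ⟨0, fun h1 h2 => absurd ⟨h1, h2⟩ hA⟩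
    obtain ⟨φ, hφ, e⟩ := h (A.indicator 1) (fun l hl hs => hA.2 l hl (hs.mono (le_max_right _ _)))
      (hLf.subset fun l hl => hA.1 (mem_of_indicator_ne_zero hl.2.2))
    obtain ⟨Φ, hΦ⟩ := exists_subset_Bl hT (hφ.biUnion fun l _ => l.finite_toSet)
      (by rw [hg]; exact subset_univ _)
    refine ⟨Φ, fun _ _ => ⟨fun l => if l.length = n ∧ SmallG T r l then φ l else 0,
      fun l hl a ha => ?_, fun l hl hs => ?_⟩⟩
    · by_cases hc : l.length = n ∧ SmallG T r l
      · simp only [if_pos hc] at hl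
        simpa [Near] using hΦ (mem_biUnion (show l ∈ _ from ⟨hc.1, hc.2, hl⟩) ha)
      · exact absurd (if_neg hc) hl
    · rw [e l hl hs]
      exact cob_congr fun m hm hml => (if_pos ⟨by omega, small_sub hs hm⟩).symm
  choose Φ hΦ using key
  obtain ⟨Φ0, hΦ0⟩ := (hLf.finite_subsets.image Φ).bddAbove
  refine ⟨Φ0, fun x0 κ h1 h2 => ?_⟩
  set κ' : Co G := fun l => κ (l.map (x0 * ·)) with hκ'
  set A := {l : List G | l.length = n + 1 ∧ SmallG T (max r r'') l ∧ κ' l ≠ 0} with hA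
  have hAL : A ⊆ L := by
    rintro l ⟨hl, hs, h0⟩
    obtain ⟨a, ha, hn⟩ := h2 _ (by simpa using hl) (small_map x0 hs) h0
    obtain ⟨a, ha', rfl⟩ := List.mem_map.1 ha
    exact ⟨hl.le, hs, a, ha', (near_mul_left x0).1 (by rwa [mul_one])⟩
  have hAκ : ∀ l : List G, l.length = n + 1 → SmallG T (max r r'') l →
      A.indicator 1 l = κ' l := by
    intro l hl hs
    by_cases h0 : κ' l = 0
    · rw [h0, indicator_of_notMem fun h => h.2.2 h0]
    · have h3 : ∀ x : F2, x ≠ 0 → 1 = x := by decide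
      rw [indicator_of_mem (show l ∈ A from ⟨hl, hs, h0⟩)]
      exact h3 _ h0
  obtain ⟨φ, hφ, e⟩ := hΦ A hAL fun l hl hs => by
    rw [cob_congr fun m hm hml => hAκ m (by omega) (small_sub hs hm), hκ', cob_map]
    exact h1 _ (by simpa using hl) (small_map x0 hs)
  refine ⟨fun l => φ (l.map (x0⁻¹ * ·)), fun l hl a ha => ?_, fun l hl hs => ?_⟩
  · have := (hφ _ hl _ (List.mem_map_of_mem ha)).mono (hΦ0 ⟨A, hAL, rfl⟩)
    rwa [← inv_mul_cancel x0, near_mul_left] at this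
  · rw [cob_map, ← e _ (by simpa using hl) (small_map _ hs),
      hAκ _ (by simpa using hl) ((small_map _ hs).mono (le_max_left _ _)), hκ']
    simp [Function.comp_def]

theorem hd_congr {P Q : Set G} (κ : Co G) {l : List G} (h : ∀ a ∈ l, a ∈ P ↔ a ∈ Q) :
    hd P κ l = hd Q κ l := by
  cases l with
  | nil => rw [hd_nil, hd_nil]
  | cons a l =>
    by_cases ha : a ∈ P
    · rw [hd_cons_mem κ ha, hd_cons_mem κ ((h a List.mem_cons_self).1 ha)]
    · rw [hd_cons_notMem κ ha, hd_cons_notMem κ fun h' => ha ((h a List.mem_cons_self).2 h')]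

theorem hd_ne_zero {P : Set G} {κ : Co G} {l : List G} (h : hd P κ l ≠ 0) : ∃ a ∈ l, a ∈ P := by
  cases l with
  | nil => exact absurd (hd_nil P κ) h
  | cons a l => exact ⟨a, List.mem_cons_self, by_contra fun ha => h (hd_cons_notMem κ ha l)⟩

theorem cob_hd_ne_zero {P : Set G} {κ : Co G} {l : List G} (h : cob (hd P κ) l ≠ 0) :
    ∃ a ∈ l, a ∈ P := by
  by_contra hc
  refine h (cob_eq_zero fun m hm _ => by_contra fun h0 => hc ?_)
  obtain ⟨a, ha, hP⟩ := hd_ne_zero h0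
  exact ⟨a, hm.subset ha, hP⟩

/-- filling a cocycle supported near a two-coloured family of pieces. -/
theorem core (hT : Symm T) {r1 r2 r3 : ℕ} (h12 : r1 ≤ r2) (h23 : r2 ≤ r3)
    (U2 : ∀ R, ∃ Φ, UF T 2 r1 r2 R Φ) (U3 : ∀ R, ∃ Φ, UF T 3 r2 r3 R Φ) (R1 : ℕ) :
    ∃ Φ : ℕ, ∀ (κ : Co G) (N : Set G) (cl : G → Bool) (lb : G → ℕ) (J : Finset ℕ)
      (b : Bool → ℕ → G), (∀ l, cob κ l = 0) →
      (∀ a l, (a :: l).length = 3 → SmallG T r3 (a :: l) → a ∉ N → κ (a :: l) = 0) →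
      (∀ a ∈ N, ∀ a' ∈ N, Near T r3 a a' → cl a = cl a' → lb a = lb a') →
      (∀ a ∈ N, lb a ∈ J ∧ Near T R1 (b (cl a) (lb a)) a) →
      ∃ φ : Co G, (∀ l, φ l ≠ 0 → ∃ c, ∃ n ∈ J, ∀ a ∈ l, Near T Φ (b c n) a) ∧
        ∀ l : List G, l.length = 3 → SmallG T r1 l → κ l = cob φ l := by
  classical
  obtain ⟨Φ3, U3⟩ := U3 R1
  obtain ⟨Φ2, U2⟩ := U2 (R1 + r3 + R1 + Φ3)
  refine ⟨Φ2, fun κ N cl lb J b hκ hN huniq hb => ?_⟩
  set Pc : Bool → ℕ → Set G := fun c n => {a | a ∈ N ∧ cl a = c ∧ lb a = n} with hPc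
  set Cc : Bool → Set G := fun c => {a | a ∈ N ∧ cl a = c} with hCc
  have hPb : ∀ c n, ∀ a ∈ Pc c n, Near T R1 (b c n) a := by
    rintro _ _ a ⟨ha, rfl, rfl⟩
    exact (hb a ha).2
  have hu : ∀ {l : List G} {c n m}, SmallG T r3 l → (∃ a ∈ l, a ∈ Pc c n) →
      (∃ a ∈ l, a ∈ Pc c m) → n = m := by
    rintro l _ _ _ hs ⟨a, ha, h1, rfl, rfl⟩ ⟨a', ha', h1', h2', rfl⟩
    exact huniq a h1 a' h1' (hs a ha a' ha') h2'.symm
  set Λ : Co G := cob (hd (Cc true) κ) with hΛ
  have hΛc : ∀ c (l : List G), l.length = 4 → SmallG T r3 l → Λ l = cob (hd (Cc c) κ) l := by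
    intro c l hl hs
    cases c
    swap
    · rfl
    have h1 : cob (fun m => hd (Cc true) κ m + hd (Cc false) κ m) l = cob κ l := by
      refine cob_congr fun m hm hml => ?_
      cases m with
      | nil => simp at hml; omega
      | cons a m =>
        by_cases ha : a ∈ N
        · cases hc : cl a
          · rw [hd_cons_notMem κ (fun h => by simpa [hc] using h.2), hd_cons_mem κ (show a ∈ Cc _ from ⟨ha, hc⟩),
              zero_add]
          · rw [hd_cons_mem κ (show a ∈ Cc _ from ⟨ha, hc⟩), hd_cons_notMem κ (fun h => by simpa [hc] using h.2),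
              add_zero]
        · rw [hd_cons_notMem κ fun h => ha h.1, hd_cons_notMem κ fun h => ha h.1,
            hN a m (by omega) (small_sub hs hm) ha, add_zero]
    rw [cob_add, hκ] at h1
    exact CharTwo.add_eq_zero.1 h1
  have hΛt : ∀ c (l : List G), l.length = 4 → SmallG T r3 l → Λ l ≠ 0 →
      ∃ n ∈ J, ∃ a ∈ l, a ∈ Pc c n := by
    intro c l hl hs h0
    rw [hΛc c l hl hs] at h0
    obtain ⟨a, ha, h1, h2⟩ := cob_hd_ne_zero h0
    exact ⟨lb a, (hb a h1).1, a, ha, h1, h2, rfl⟩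
  set lam : Bool → ℕ → ℕ → Co G := fun c n m l =>
    if (∃ a ∈ l, a ∈ Pc c n) ∧ (∃ a ∈ l, a ∈ Pc (!c) m) then Λ l else 0 with hlam
  have hlc : ∀ c n m (l : List G), l.length = 5 → SmallG T r3 l → cob (lam c n m) l = 0 := by
    intro c n m l hl hs
    by_cases ht : (∃ a ∈ l, a ∈ Pc c n) ∧ (∃ a ∈ l, a ∈ Pc (!c) m)
    · rw [← cob_cob (hd (Cc true) κ) l]
      refine cob_congr fun f hf hfl => ?_
      by_cases h0 : Λ f = 0
      · simp only [hlam, h0, ite_self]
        exact h0.symm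
      · obtain ⟨n', -, a, ha, h1⟩ := hΛt c f (by omega) (small_sub hs hf) h0
        obtain ⟨m', -, a', ha', h1'⟩ := hΛt (!c) f (by omega) (small_sub hs hf) h0
        obtain rfl := hu hs ht.1 ⟨a, hf.subset ha, h1⟩
        obtain rfl := hu hs ht.2 ⟨a', hf.subset ha', h1'⟩
        exact if_pos ⟨⟨a, ha, h1⟩, a', ha', h1'⟩
    · refine cob_eq_zero fun f hf _ => if_neg ?_
      rintro ⟨⟨a, ha, h1⟩, a', ha', h1'⟩
      exact ht ⟨⟨a, hf.subset ha, h1⟩, a', hf.subset ha', h1'⟩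
  have hsum : ∀ c n (l : List G), l.length = 4 → SmallG T r3 l →
      cob (hd (Pc c n) κ) l = ∑ m ∈ J, lam c n m l := by
    intro c n l hl hs
    by_cases ht : ∃ a ∈ l, a ∈ Pc c n
    · have h1 : cob (hd (Pc c n) κ) l = Λ l := by
        rw [hΛc c l hl hs]
        refine cob_congr fun f hf _ => hd_congr κ fun a ha => ⟨fun h => ⟨h.1, h.2.1⟩, fun h => ?_⟩
        exact ⟨h.1, h.2, hu hs ⟨a, hf.subset ha, h.1, h.2, rfl⟩ ht⟩
      rw [h1]
      by_cases h0 : Λ l = 0
      · simp only [hlam, h0, ite_self, Finset.sum_const_zero]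
      · obtain ⟨m, hm, h2⟩ := hΛt (!c) l hl hs h0
        rw [Finset.sum_eq_single_of_mem m hm fun m' _ hne => if_neg fun h => hne (hu hs h.2 h2)]
        exact (if_pos ⟨ht, h2⟩).symm
    · rw [Finset.sum_eq_zero fun m _ => if_neg fun h => ht h.1]
      by_contra h0
      exact ht (cob_hd_ne_zero h0)
  have hμ : ∀ n m, ∃ μ : Co G, (∀ l, μ l ≠ 0 → ∀ a ∈ l, Near T (R1 + r3 + R1 + Φ3) (b true n) a ∧
      Near T (R1 + r3 + R1 + Φ3) (b false m) a) ∧
      ∀ l : List G, l.length = 4 → SmallG T r2 l → lam true n m l = cob μ l := by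
    intro n m
    by_cases h0 : ∃ l, SmallG T r3 l ∧ (∃ a ∈ l, a ∈ Pc true n) ∧ ∃ a ∈ l, a ∈ Pc false m
    · obtain ⟨l0, hs0, ⟨a, ha, h1⟩, a', ha', h1'⟩ := h0
      have hD : Near T (R1 + r3 + R1) (b false m) (b true n) :=
        ((hPb _ _ a' h1').trans (hs0 a' ha' a ha)).trans ((hPb _ _ a h1).symm hT)
      obtain ⟨μ, h2, h3⟩ := U3 (b true n) (lam true n m) (hlc true n m) fun l _ _ h => by
        obtain ⟨⟨a, ha, h1⟩, -⟩ : (∃ a ∈ l, a ∈ Pc true n) ∧ (∃ a ∈ l, a ∈ Pc (!true) m) :=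
          by_contra fun hc => h (if_neg hc)
        exact ⟨a, ha, hPb _ _ a h1⟩
      exact ⟨μ, fun l hl a ha => ⟨(h2 l hl a ha).mono (by omega), hD.trans (h2 l hl a ha)⟩, h3⟩
    · refine ⟨fun _ => 0, fun l hl => absurd rfl hl, fun l _ hs => ?_⟩
      rw [cob_zero]
      exact if_neg fun h => h0 ⟨l, hs.mono h23, h⟩
  choose μ hμ1 hμ2 using hμ
  set ν : Bool → ℕ → ℕ → Co G := fun c n m => cond c (μ n m) (μ m n) with hν
  have hν1 : ∀ c n m l, ν c n m l ≠ 0 → ∀ a ∈ l, Near T (R1 + r3 + R1 + Φ3) (b c n) a := by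
    intro c n m l hl a ha
    cases c
    · exact (hμ1 m n l hl a ha).2
    · exact (hμ1 n m l hl a ha).1
  have hν2 : ∀ c n m (l : List G), l.length = 4 → SmallG T r2 l →
      lam c n m l = cob (ν c n m) l := by
    intro c n m l hl hs
    cases c
    · exact (if_congr and_comm rfl rfl).trans (hμ2 m n l hl hs)
    · exact hμ2 n m l hl hs
  have hφ : ∀ c n, ∃ φ : Co G, (∀ l, φ l ≠ 0 → ∀ a ∈ l, Near T Φ2 (b c n) a) ∧
      ∀ l : List G, l.length = 3 → SmallG T r1 l →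
        hd (Pc c n) κ l + ∑ m ∈ J, ν c n m l = cob φ l := by
    intro c n
    refine U2 (b c n) (fun l => hd (Pc c n) κ l + ∑ m ∈ J, ν c n m l) (fun l hl hs => ?_)
      fun l hl _ h0 => ?_
    · rw [cob_add, cob_sum, hsum c n l hl (hs.mono h23),
        Finset.sum_congr rfl fun m _ => hν2 c n m l hl hs, F2.add_self]
    · by_cases h1 : hd (Pc c n) κ l = 0
      · rw [h1, zero_add] at h0
        obtain ⟨m, -, h2⟩ := Finset.exists_ne_zero_of_sum_ne_zero h0
        obtain ⟨a, ha⟩ := List.exists_mem_of_length_pos (l := l) (by omega)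
        exact ⟨a, ha, hν1 c n m l h2 a ha⟩
      · obtain ⟨a, ha, h2⟩ := hd_ne_zero h1
        exact ⟨a, ha, (hPb _ _ a h2).mono (by omega)⟩
  choose φ hφ1 hφ2 using hφ
  refine ⟨fun l => ∑ n ∈ J, φ true n l + ∑ n ∈ J, φ false n l, fun l h0 => ?_, fun l hl hs => ?_⟩
  · by_cases h1 : ∑ n ∈ J, φ true n l = 0
    · simp only [h1, zero_add] at h0
      obtain ⟨n, hn, h2⟩ := Finset.exists_ne_zero_of_sum_ne_zero h0
      exact ⟨false, n, hn, hφ1 _ _ l h2⟩
    · obtain ⟨n, hn, h2⟩ := Finset.exists_ne_zero_of_sum_ne_zero h1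
      exact ⟨true, n, hn, hφ1 _ _ l h2⟩
  · rw [cob_add, cob_sum, cob_sum, ← Finset.sum_congr rfl fun n _ => hφ2 true n l hl hs,
      ← Finset.sum_congr rfl fun n _ => hφ2 false n l hl hs, Finset.sum_add_distrib,
      Finset.sum_add_distrib, add_add_add_comm]
    have h1 : ∑ n ∈ J, ∑ m ∈ J, ν false n m l = ∑ n ∈ J, ∑ m ∈ J, ν true n m l :=
      Finset.sum_comm
    rw [h1, F2.add_self, add_zero]
    cases l with
    | nil => simp at hl
    | cons a l =>
      by_cases ha : a ∈ N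
      · have h2 : ∀ c, ∑ n ∈ J, hd (Pc c n) κ (a :: l) = if cl a = c then κ (a :: l) else 0 := by
          intro c
          split_ifs with hc
          · rw [Finset.sum_eq_single_of_mem (lb a) (hb a ha).1 fun n _ hne =>
              hd_cons_notMem κ (fun h => hne h.2.2.symm) l, hd_cons_mem κ (show a ∈ Pc c _ from ⟨ha, hc, rfl⟩)]
          · exact Finset.sum_eq_zero fun n _ => hd_cons_notMem κ (fun h => hc h.2.1) l
        rw [h2, h2]
        cases cl a <;> simp
      · rw [hN a l hl (hs.mono (h12.trans h23)) ha,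
          Finset.sum_eq_zero fun n _ => hd_cons_notMem κ (fun h => ha h.1) l,
          Finset.sum_eq_zero fun n _ => hd_cons_notMem κ (fun h => ha h.1) l, add_zero]

/-- extension of an edge cochain to pairs. -/
theorem exists_ext (hT : Symm T) (r : ℕ) (ω : G → G → F2) (a b : G) :
    ∃ c : F2, (Adj T a b → c = ω a b) ∧ ∀ h : G → F2, Near T r a b →
      (∀ u v, Near T r a u → Near T r a v → Adj T u v → ω u v = h u + h v) → c = h a + h b := by
  by_cases hab : Adj T a b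
  · exact ⟨ω a b, fun _ => rfl, fun h hn hh => hh a b (Near.refl _ _) hn hab⟩
  by_cases hn : Near T r a b
  swap
  · exact ⟨0, fun h => absurd h hab, fun _ h => absurd h hn⟩
  suffices H : ∃ c : F2, ∀ h : G → F2,
      (∀ u v, Near T r a u → Near T r a v → Adj T u v → ω u v = h u + h v) → c = h a + h b by
    obtain ⟨c, hc⟩ := H
    exact ⟨c, fun h => absurd h hab, fun h _ => hc h⟩
  obtain ⟨ha, hp⟩ := hn.path hT
  clear hab hn
  induction hp with
  | refl => exact ⟨0, fun h _ => (F2.add_self _).symm⟩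
  | @tail x y h1 h2 ih =>
    obtain ⟨c, hc⟩ := ih
    refine ⟨c + ω x y, fun h hh => ?_⟩
    rw [hc h hh, hh x y (Path.right (Q := {c | Near T r a c}) ⟨ha, h1⟩) h2.1 h2.2, add_assoc, ← add_assoc (h x),
      F2.add_self, zero_add]

/-- the cochain on pairs given by a function of two variables. -/
def pr2 (W : G → G → F2) : Co G
  | [a, b] => W a b
  | _ => 0

theorem fill (hT : Symm T) (hg : Subgroup.closure (T : Set G) = ⊤) (h2 : HX T 2) (h3 : HX T 3)
    (hZ : Z1 T) : Fill T := by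
  classical
  obtain ⟨r1, hZ⟩ := hZ
  obtain ⟨r2, h12, U2⟩ := exists_UF hT hg h2 r1
  obtain ⟨r3, h23, U3⟩ := exists_UF hT hg h3 r2
  refine ⟨r3 + r3, r3 + r3 + r3 + (r3 + r3), fun R => ?_⟩
  obtain ⟨Φ, hΦ⟩ := core hT h12 h23 U2 U3 (R + (r3 + r3))
  refine ⟨Φ, fun ω S col lab hS hlab hloc => ?_⟩
  choose W hW1 hW2 using exists_ext hT r3 ω
  have hσ : ∀ a : G, ∃ s, (∃ s ∈ S, Near T (r3 + r3) a s) → s ∈ S ∧ Near T (r3 + r3) a s := by
    intro a
    by_cases h : ∃ s ∈ S, Near T (r3 + r3) a s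
    · exact ⟨h.choose, fun _ => h.choose_spec⟩
    · exact ⟨1, fun h' => absurd h' h⟩
  choose σ hσ using hσ
  have hb : ∀ (c : Bool) (n : ℕ), ∃ b, (n ∈ hS.toFinset.image lab → b ∈ S) ∧
      ∀ s ∈ S, col s = c → lab s = n → Near T R b s := by
    intro c n
    by_cases h : ∃ s ∈ S, col s = c ∧ lab s = n
    · obtain ⟨b, h1, h2, h3⟩ := h
      exact ⟨b, fun _ => h1, fun s hs h4 h5 =>
        (hlab b h1 s hs (h2.trans h4.symm)).1 (h3.trans h5.symm)⟩
    by_cases h' : n ∈ hS.toFinset.image lab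
    · obtain ⟨b, h1, -⟩ := Finset.mem_image.1 h'
      exact ⟨b, fun _ => hS.mem_toFinset.1 h1, fun s hs h4 h5 => absurd ⟨s, hs, h4, h5⟩ h⟩
    · exact ⟨1, fun h'' => absurd h'' h', fun s hs h4 h5 => absurd ⟨s, hs, h4, h5⟩ h⟩
  choose b hb1 hb2 using hb
  obtain ⟨φ, hφ1, hφ2⟩ := hΦ (cob (pr2 W)) {a | ∃ s ∈ S, Near T (r3 + r3) a s}
    (fun a => col (σ a)) (fun a => lab (σ a)) (hS.toFinset.image lab) b (cob_cob _)
    (fun a l hl hs ha => by
      obtain ⟨x, y, rfl⟩ := List.length_eq_two.1 (show l.length = 2 by simpa using hl)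
      obtain ⟨h, hh⟩ := hloc a fun s hs hn => ha ⟨s, hs, hn⟩
      have key : ∀ u ∈ [a, x, y], ∀ v ∈ [a, x, y], W u v = h u + h v := fun u hu v hv =>
        hW2 u v h (hs u hu v hv) fun p q hp hq hpq =>
          hh p q ((hs a (by simp) u hu).trans hp) ((hs a (by simp) u hu).trans hq) hpq
      have h4 : ∀ p q u : F2, q + u + (p + u + (p + q)) = 0 := by decide
      rw [cob_triple]
      simp only [pr2]
      rw [key x (by simp) y (by simp), key a (by simp) y (by simp), key a (by simp) x (by simp),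
        h4])
    (fun a ha a' ha' hn hc => (hlab _ (hσ a ha).1 _ (hσ a' ha').1 hc).2
      ((((hσ a ha).2.symm hT).trans hn).trans (hσ a' ha').2))
    (fun a ha => ⟨Finset.mem_image_of_mem _ (hS.mem_toFinset.2 (hσ a ha).1),
      (hb2 _ _ _ (hσ a ha).1 rfl rfl).trans ((hσ a ha).2.symm hT)⟩)
  obtain ⟨h, hh⟩ := hZ (fun l => pr2 W l + φ l) fun l hl hs => by
    rw [cob_add, hφ2 l hl hs, F2.add_self]
  refine ⟨h, fun x y hxy hx => ?_⟩
  have h0 : φ [x, y] = 0 := by
    by_contra h0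
    obtain ⟨c, n, hn, h1⟩ := hφ1 _ h0
    exact hx _ (hb1 c n hn) ((h1 x (by simp)).symm hT)
  rw [← hh x y hxy, h0, add_zero, ← hW1 x y hxy]
  rfl

end FillAux

theorem fillP : FillP := fun _ _ _ hT hg h1 h2 h3 hZ =>
  ⟨FillAux.oneEnd hT hg h1, FillAux.fill hT hg h2 h3 hZ⟩

end Crest.Agent.R224
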