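import Crest.Agent.R224.Basic

/-! Row 224: subcubic growth at one scale gives finite sets with one-dimensional frontier. -/

namespace Crest.Agent.R224

open Set

namespace G1Aux

theorem exists_min {α : Type} (S : α → Prop) (f : α → ℕ) (h : ∃ a, S a) :
    ∃ a, S a ∧ ∀ b, S b → f a ≤ f b := by
  classical
  have h' : ∃ n, ∃ a, S a ∧ f a = n := by
    obtain ⟨a, ha⟩ := h
    exact ⟨_, a, ha, rfl⟩
  obtain ⟨a, ha, e⟩ := Nat.find_spec h'
  exact ⟨a, ha, fun b hb => e ▸ Nat.find_min' h' ⟨b, hb, rfl⟩⟩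

theorem count {α : Type} {Z Z' W B : Set α} (hZ : Z.Finite) (hW : W.Finite)
    (h : Z' ⊆ (Z \ B) ∪ (W \ B)) (hle : Z.ncard ≤ Z'.ncard) :
    (Z ∩ B).ncard + (W ∩ B).ncard ≤ W.ncard := by
  have h1 := ncard_inter_add_ncard_sdiff_eq_ncard Z B hZ
  have h2 := ncard_inter_add_ncard_sdiff_eq_ncard W B hW
  have h3 := ncard_le_ncard h ((hZ.subset sdiff_subset).union (hW.subset sdiff_subset))
  have h4 := ncard_union_le (Z \ B) (W \ B)
  omega

theorem annuli {a : ℕ → ℕ} {N k : ℕ} (h : ∀ j, j < k → N + a j ≤ a (j + 1)) : k * N ≤ a k := by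
  induction k with
  | zero => simp
  | succ k ih =>
    have h1 := ih fun j hj => h j (by omega)
    have h2 := h k (by omega)
    rw [Nat.succ_mul]
    omega

variable {G : Type} [Group G] {U : Finset G}

/-- the ball of radius `r` about `x`. -/
def B (U : Finset G) (x : G) (r : ℕ) : Set G := {y | Near U r x y}

theorem B_finite (x : G) (r : ℕ) : (B U x r).Finite := near_finite r x

theorem B_mono (x : G) {r r' : ℕ} (h : r ≤ r') : B U x r ⊆ B U x r' := fun _ hy => hy.mono h

theorem B_ncard (x : G) (r : ℕ) : (B U x r).ncard = (Bl U r).ncard := by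
  have : B U x r = (fun y => x * y) '' Bl U r := by
    ext y
    constructor
    · intro h
      exact ⟨_, h, by simp⟩
    · rintro ⟨z, hz, rfl⟩
      simpa [B, Near] using hz
  rw [this, ncard_image_of_injective _ (mul_right_injective x)]

/-- the frontier at scale `lam`. -/
def F (U : Finset G) (lam : ℕ) (P : Set G) : Set G := {p | p ∈ P ∧ ∃ q, q ∉ P ∧ Near U lam p q}

/-- a finite set with the smallest frontier has a frontier that is sparse in all balls. -/
theorem exists_P (lam : ℕ) {D : Set G} (hD : D.Finite) (hDC : D ⊆ Subgroup.closure (U : Set G)) :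
    ∃ P : Set G, P.Finite ∧ D ⊆ P ∧ P ⊆ Subgroup.closure (U : Set G) ∧
      ∀ x ∈ Subgroup.closure (U : Set G), ∀ r k : ℕ,
        k * (F U lam P ∩ B U x r).ncard ≤ (Bl U (r + k * lam)).ncard := by
  obtain ⟨P, ⟨hP, hDP, hPC⟩, hmin⟩ := exists_min
    (fun P : Set G => P.Finite ∧ D ⊆ P ∧ P ⊆ Subgroup.closure (U : Set G))
    (fun P => (F U lam P).ncard) ⟨D, hD, Subset.rfl, hDC⟩
  have hF : (F U lam P).Finite := hP.subset fun _ h => h.1
  have key : ∀ x ∈ Subgroup.closure (U : Set G), ∀ r : ℕ,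
      (F U lam P ∩ B U x r).ncard + (B U x r).ncard ≤ (B U x (r + lam)).ncard := by
    intro x hx r
    have h1 := hmin (P ∪ B U x (r + lam)) ⟨hP.union (B_finite _ _),
      hDP.trans subset_union_left, union_subset hPC fun y hy => by
        have := mul_mem hx (Bl_subset_closure _ hy)
        simpa using this⟩
    have h2 := count (B := B U x r) hF (B_finite (U := U) x (r + lam)) ?_ h1
    · rwa [inter_eq_right.2 (B_mono x (Nat.le_add_right r lam))] at h2
    · rintro p ⟨hp, q, hq, hpq⟩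
      have h3 : p ∉ B U x r := fun h => hq (Or.inr (Near.trans h hpq))
      rcases hp with hp | hp
      · exact Or.inl ⟨⟨hp, q, fun h => hq (Or.inl h), hpq⟩, h3⟩
      · exact Or.inr ⟨hp, h3⟩
  refine ⟨P, hP, hDP, hPC, fun x hx r k => ?_⟩
  rw [← B_ncard x]
  refine annuli (a := fun j => (B U x (r + j * lam)).ncard) fun j _ => ?_
  have h1 := key x hx (r + j * lam)
  have h2 : (F U lam P ∩ B U x r).ncard ≤ (F U lam P ∩ B U x (r + j * lam)).ncard :=
    ncard_le_ncard (inter_subset_inter_right _ (B_mono x (Nat.le_add_right _ _)))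
      (hF.subset inter_subset_left)
  rw [Nat.succ_mul, ← add_assoc]
  omega

/-- the points of `X` that are close to a point with another label. -/
def Z (U : Finset G) (lam : ℕ) (X : Set G) (lab : G → ℕ) : Set G :=
  {p | p ∈ X ∧ ∃ q ∈ X, Near U lam p q ∧ lab p ≠ lab q}

/-- separator lemma. -/
theorem exists_lab (hU : Symm U) (lam r k : ℕ) {X : Set G} (hX : X.Finite) :
    ∃ lab : G → ℕ, (∀ a ∈ X, ∀ b ∈ X, lab a = lab b → Near U (2 * (r + k * (2 * lam))) a b) ∧
      ∀ x : G, k * (Z U lam X lab ∩ B U x r).ncard ≤ (X ∩ B U x (r + k * (2 * lam))).ncard := by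
  classical
  obtain ⟨lab, hlab, hmin⟩ := exists_min
    (fun lab : G → ℕ => ∀ a ∈ X, ∀ b ∈ X, lab a = lab b → Near U (2 * (r + k * (2 * lam))) a b)
    (fun lab => (Z U lam X lab).ncard) (by
      obtain ⟨f, hf⟩ := (Set.countable_iff_exists_injOn).1 hX.countable
      exact ⟨f, fun a ha b hb e => hf ha hb e ▸ Near.refl _ _⟩)
  have hZ : (Z U lam X lab).Finite := hX.subset fun _ h => h.1
  obtain ⟨n, hn⟩ : ∃ n, n ∉ lab '' X := (hX.image lab).exists_notMem
  have key : ∀ (x : G) (s : ℕ), s + lam ≤ r + k * (2 * lam) →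
      (Z U lam X lab ∩ B U x s).ncard + (X ∩ B U x s).ncard ≤ (X ∩ B U x (s + 2 * lam)).ncard := by
    intro x s hs
    have h1 := hmin (fun p => if p ∈ B U x (s + lam) then n else lab p) (by
      intro a ha b hb e
      by_cases h1 : a ∈ B U x (s + lam) <;> by_cases h2 : b ∈ B U x (s + lam)
      · exact ((Near.symm hU h1).trans h2).mono (by omega)
      · simp only [if_pos h1, if_neg h2] at e
        exact absurd ⟨b, hb, e.symm⟩ hn
      · simp only [if_neg h1, if_pos h2] at e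
        exact absurd ⟨a, ha, e⟩ hn
      · simp only [if_neg h1, if_neg h2] at e
        exact hlab a ha b hb e)
    have h2 := count (B := B U x s) (W := X ∩ B U x (s + 2 * lam)) hZ
      (hX.subset inter_subset_left) ?_ h1
    · rwa [inter_assoc, inter_eq_right.2 (B_mono x (Nat.le_add_right s _))] at h2
    · rintro p ⟨hp, q, hq, hpq, hne⟩
      have h3 : p ∉ B U x s := fun h => by
        have h4 : p ∈ B U x (s + lam) := B_mono x (Nat.le_add_right _ _) h
        have h5 : q ∈ B U x (s + lam) := Near.trans h hpq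
        simp only [if_pos h4, if_pos h5] at hne
        exact hne rfl
      by_cases h4 : p ∈ B U x (s + 2 * lam)
      · exact Or.inr ⟨⟨hp, h4⟩, h3⟩
      · have h5 : p ∉ B U x (s + lam) := fun h => h4 (B_mono x (by omega) h)
        have h6 : q ∉ B U x (s + lam) := fun h =>
          h4 ((Near.trans h (hpq.symm hU)).mono (by omega))
        simp only [if_neg h5, if_neg h6] at hne
        exact Or.inl ⟨⟨hp, q, hq, hpq, hne⟩, h3⟩
  refine ⟨lab, hlab, fun x => ?_⟩
  refine annuli (a := fun j => (X ∩ B U x (r + j * (2 * lam))).ncard) fun j hj => ?_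
  have h0 : (j + 1) * (2 * lam) ≤ k * (2 * lam) := Nat.mul_le_mul_right _ hj
  rw [Nat.succ_mul] at h0
  have h1 := key x (r + j * (2 * lam)) (by omega)
  have h2 : (Z U lam X lab ∩ B U x r).ncard ≤
      (Z U lam X lab ∩ B U x (r + j * (2 * lam))).ncard :=
    ncard_le_ncard (inter_subset_inter_right _ (B_mono x (Nat.le_add_right _ _)))
      (hZ.subset inter_subset_left)
  rw [Nat.succ_mul j, ← add_assoc]
  omega

theorem exists_scale (h : ¬ BigG U) {lam : ℕ} (hlam : 1 ≤ lam) :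
    ∃ k : ℕ, (Bl U (5 * (k * lam))).ncard < k * (k * k) := by
  have hl : (0 : ℝ) < (10 * lam : ℝ) ^ 3 := by positivity
  obtain ⟨n, -, hn⟩ : ∃ n : ℕ, 1 ≤ n ∧ ((Bl U n).ncard : ℝ) < ((10 * lam : ℝ) ^ 3)⁻¹ * n ^ 3 := by
    by_contra hcon
    push Not at hcon
    exact h ⟨_, inv_pos.2 hl, hcon⟩
  rw [lt_inv_mul_iff₀ hl] at hn
  have h1 : (10 * lam) ^ 3 * (Bl U n).ncard < n ^ 3 := by exact_mod_cast hn
  have h2 : 0 < (Bl U n).ncard := (ncard_pos (Bl_finite U n)).2 ⟨1, one_mem_Bl n⟩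
  have h3 : 10 * lam < n := by
    refine lt_of_pow_lt_pow_left₀ 3 (Nat.zero_le _) (lt_of_le_of_lt ?_ h1)
    exact Nat.le_mul_of_pos_right _ h2
  have h4 : 5 * lam * (n / (5 * lam)) ≤ n := Nat.mul_div_le _ _
  have h5 : n < 5 * lam * (n / (5 * lam) + 1) := Nat.lt_mul_div_succ _ (by omega)
  have h6 : 1 ≤ n / (5 * lam) := (Nat.le_div_iff_mul_le (by omega)).2 (by omega)
  generalize n / (5 * lam) = k at h4 h5 h6
  have h7 : n ≤ 10 * lam * k := by nlinarith
  have h8 : (10 * lam) ^ 3 * (Bl U n).ncard < (10 * lam) ^ 3 * (k * (k * k)) :=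
    h1.trans_le ((Nat.pow_le_pow_left h7 3).trans_eq (by ring))
  refine ⟨k, lt_of_le_of_lt ?_ (Nat.lt_of_mul_lt_mul_left h8)⟩
  exact ncard_le_ncard (Bl_mono (by nlinarith)) (Bl_finite U n)

end G1Aux

open G1Aux in
theorem g1P : G1P := by
  classical
  intro G _ U hU hB Λ hΛ hΛC
  obtain ⟨l, hl⟩ := exists_subset_Bl hU hΛ hΛC
  have hl' : Λ ⊆ Bl U (l + 1) := hl.trans (Bl_mono (Nat.le_succ l))
  generalize hlam : l + 1 = lam at hl'
  obtain ⟨k, hk⟩ := exists_scale hB (lam := lam) (by omega)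
  refine ⟨Bl U (8 * (k * lam)), Bl_finite _ _, fun D hD hDC => ?_⟩
  obtain ⟨P, hP, hDP, hPC, h2⟩ := exists_P lam hD hDC
  have hF : (F U lam P).Finite := hP.subset fun _ h => h.1
  obtain ⟨lab1, hlab1, h1⟩ := exists_lab hU lam (0 + k * (2 * lam)) k hF
  have hZ : (Z U lam (F U lam P) lab1).Finite := hF.subset fun _ h => h.1
  obtain ⟨lab0, hlab0, h0⟩ := exists_lab hU lam 0 k hZ
  have hempty : ∀ p, p ∉ Z U lam (Z U lam (F U lam P) lab1) lab0 := by
    intro p hp
    have e0 := h0 p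
    have e1 := h1 p
    have e2 := h2 p (hPC hp.1.1.1) (0 + k * (2 * lam) + k * (2 * lam)) k
    have e3 : 0 < (Z U lam (Z U lam (F U lam P) lab1) lab0 ∩ B U p 0).ncard :=
      (ncard_pos ((B_finite p 0).subset inter_subset_right)).2 ⟨p, hp, Near.refl 0 p⟩
    rw [show 0 + k * (2 * lam) + k * (2 * lam) + k * lam = 5 * (k * lam) by ring] at e2
    have e4 := (Nat.le_mul_of_pos_right k e3).trans e0
    have e5 := (Nat.mul_le_mul_left k e4).trans e1
    have e6 := (Nat.mul_le_mul_left k e5).trans e2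
    omega
  refine ⟨P, hP, hDP, hPC, fun p => decide (p ∈ Z U lam (F U lam P) lab1),
    fun p => if p ∈ Z U lam (F U lam P) lab1 then lab0 p else lab1 p, fun p hp q hq hc => ?_⟩
  have hfr : ∀ p ∈ fr Λ P, p ∈ F U lam P := by
    rintro p ⟨hp, t, ht, hpt⟩
    exact ⟨hp, p * t, hpt, by simpa [Near] using hl' ht⟩
  have hp' := hfr p hp
  have hq' := hfr q hq
  rw [decide_eq_decide] at hc
  by_cases h : p ∈ Z U lam (F U lam P) lab1
  · have h' := hc.1 h
    simp only [if_pos h, if_pos h']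
    refine ⟨fun e => (hlab0 p h q h' e).mono (le_of_eq_of_le (by ring) (Nat.mul_le_mul_right
      (k * lam) (show 4 ≤ 8 by norm_num))), fun e => ?_⟩
    by_contra hne
    exact hempty p ⟨h, q, h', hl' e, hne⟩
  · have h' : q ∉ Z U lam (F U lam P) lab1 := fun h' => h (hc.2 h')
    simp only [if_neg h, if_neg h']
    refine ⟨fun e => (hlab1 p hp' q hq' e).mono (le_of_eq (by ring)), fun e => ?_⟩
    by_contra hne
    exact h ⟨hp', q, hq', hl' e, hne⟩

end Crest.Agent.R224
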