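import Crest.Agent.R224.Basic

/-! # Row 224: cubic growth implies transience -/

namespace Crest.Agent.R224

open Set Filter Topology
open scoped Pointwise

namespace G2Aux

variable {G : Type} [Group G] {U : Finset G}

/-- every generator has energy at most `E`. -/
def EB (U : Finset G) (ψ : G → ℝ) (E : ℝ) : Prop :=
  ∀ u ∈ U, ∀ A : Finset G, (∀ c ∈ A, c ∈ Subgroup.closure (U : Set G)) →
    ∑ c ∈ A, (ψ (c * u) - ψ c) ^ 2 ≤ E

theorem sq_add_le (x y : ℝ) {R : ℝ} (hR : 0 < R) :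
    (x + y) ^ 2 ≤ (1 + 1 / R) * x ^ 2 + (1 + R) * y ^ 2 := by
  have h : (1 + 1 / R) * x ^ 2 + (1 + R) * y ^ 2 - (x + y) ^ 2 = (x - R * y) ^ 2 / R := by
    field_simp
    ring
  have h2 : 0 ≤ (x - R * y) ^ 2 / R := by positivity
  linarith

theorem word_bound {ψ : G → ℝ} {E : ℝ} (hE : 0 ≤ E) (h : EB U ψ E) (r : ℕ) :
    ∀ b ∈ Bl U r, ∀ A : Finset G, (∀ c ∈ A, c ∈ Subgroup.closure (U : Set G)) →
      ∑ c ∈ A, (ψ (c * b) - ψ c) ^ 2 ≤ ((r : ℝ) + 1) ^ 2 * E := by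
  classical
  induction r with
  | zero =>
    intro b hb A _
    rw [Bl_zero, mem_singleton_iff] at hb
    subst hb
    simpa using hE
  | succ r ih =>
    intro b hb A hA
    rw [Bl_succ] at hb
    obtain ⟨x, hx, u, hu, rfl⟩ := hb
    have hR : (0 : ℝ) < (r : ℝ) + 1 := by positivity
    have h1 := ih x hx A hA
    have h2 : ∑ c ∈ A, (ψ (c * x * u) - ψ (c * x)) ^ 2 ≤ E := by
      rcases hu with rfl | hu
      · simpa using hE
      · have := h u hu (A.image (· * x)) (by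
          intro c hc
          obtain ⟨a, ha, rfl⟩ := Finset.mem_image.1 hc
          exact mul_mem (hA a ha) (Bl_subset_closure r hx))
        rwa [Finset.sum_image fun a _ b _ hab => mul_right_cancel hab] at this
    calc ∑ c ∈ A, (ψ (c * (x * u)) - ψ c) ^ 2
        ≤ ∑ c ∈ A, ((1 + 1 / ((r : ℝ) + 1)) * (ψ (c * x) - ψ c) ^ 2 +
          (1 + ((r : ℝ) + 1)) * (ψ (c * x * u) - ψ (c * x)) ^ 2) := by
          refine Finset.sum_le_sum fun c _ => ?_
          have := sq_add_le (ψ (c * x) - ψ c) (ψ (c * x * u) - ψ (c * x)) hR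
          rwa [show ψ (c * x) - ψ c + (ψ (c * x * u) - ψ (c * x)) = ψ (c * (x * u)) - ψ c by
            rw [mul_assoc]; ring] at this
      _ = (1 + 1 / ((r : ℝ) + 1)) * ∑ c ∈ A, (ψ (c * x) - ψ c) ^ 2 +
          (1 + ((r : ℝ) + 1)) * ∑ c ∈ A, (ψ (c * x * u) - ψ (c * x)) ^ 2 := by
          rw [Finset.sum_add_distrib, Finset.mul_sum, Finset.mul_sum]
      _ ≤ (1 + 1 / ((r : ℝ) + 1)) * (((r : ℝ) + 1) ^ 2 * E) + (1 + ((r : ℝ) + 1)) * E :=
          add_le_add (mul_le_mul_of_nonneg_left h1 (by positivity))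
            (mul_le_mul_of_nonneg_left h2 (by positivity))
      _ = (((r + 1 : ℕ) : ℝ) + 1) ^ 2 * E := by
          push_cast
          field_simp
          ring

theorem clamp_sq (s t x y : ℝ) :
    (max s (min t x) - max s (min t y)) ^ 2 ≤ (x - y) ^ 2 := by
  rw [sq_le_sq]
  refine (abs_max_sub_max_le_max _ _ _ _).trans ?_
  rw [sub_self, abs_zero]
  refine max_le (abs_nonneg _) ((abs_min_sub_min_le_max _ _ _ _).trans ?_)
  rw [sub_self, abs_zero]
  exact max_le (abs_nonneg _) le_rfl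

theorem step {φ : G → ℝ} {E : ℝ} (hE : 0 ≤ E) (h : EB U φ E) {s t : ℝ} (hst : s ≤ t)
    (A B : Finset G) (hA : ∀ c ∈ A, c ∈ Subgroup.closure (U : Set G) ∧ t ≤ φ c)
    (hB : ∀ c ∈ Subgroup.closure (U : Set G), s ≤ φ c → c ∈ B) (r : ℕ)
    (hV : 2 * B.card ≤ (Bl U r).ncard) :
    (A.card : ℝ) * (t - s) ^ 2 ≤ 2 * (((r : ℝ) + 1) ^ 2 * E) := by
  classical
  set ψ : G → ℝ := fun x => max s (min t (φ x)) with hψ
  have hψE : EB U ψ E := fun u hu A' hA' =>
    (Finset.sum_le_sum fun c _ => clamp_sq s t _ _).trans (h u hu A' hA')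
  set L : Finset G := (Bl_finite U r).toFinset with hL
  have hLc : (Bl U r).ncard = L.card := Set.ncard_eq_toFinset_card _ (Bl_finite U r)
  have hmem : ∀ b, b ∈ L ↔ b ∈ Bl U r := fun b => Set.Finite.mem_toFinset _
  have hpos : (0 : ℝ) < L.card := by
    exact_mod_cast Finset.card_pos.2 ⟨1, (hmem 1).2 (one_mem_Bl r)⟩
  have h1 : ∑ b ∈ L, ∑ c ∈ A, (ψ (c * b) - ψ c) ^ 2 ≤ L.card * (((r : ℝ) + 1) ^ 2 * E) := by
    rw [← nsmul_eq_mul]
    exact Finset.sum_le_card_nsmul _ _ _ fun b hb =>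
      word_bound hE hψE r b ((hmem b).1 hb) A fun c hc => (hA c hc).1
  have h2 : ∀ c ∈ A, (L.card : ℝ) / 2 * (t - s) ^ 2 ≤ ∑ b ∈ L, (ψ (c * b) - ψ c) ^ 2 := by
    intro c hc
    have h3 : (L.filter fun b => s ≤ φ (c * b)).card ≤ B.card := by
      refine Finset.card_le_card_of_injOn (fun b => c * b) (fun b hb => ?_)
        fun a _ b _ hab => mul_left_cancel hab
      obtain ⟨hb1, hb2⟩ := Finset.mem_filter.1 hb
      exact hB _ (mul_mem (hA c hc).1 (Bl_subset_closure r ((hmem b).1 hb1))) hb2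
    have h4 := Finset.card_filter_add_card_filter_not (s := L) fun b => s ≤ φ (c * b)
    have h5 : (L.card : ℝ) / 2 ≤ (L.filter fun b => ¬ s ≤ φ (c * b)).card := by
      have : L.card ≤ 2 * (L.filter fun b => ¬ s ≤ φ (c * b)).card := by omega
      have h' : (L.card : ℝ) ≤ 2 * (L.filter fun b => ¬ s ≤ φ (c * b)).card := by
        exact_mod_cast this
      linarith
    calc (L.card : ℝ) / 2 * (t - s) ^ 2
        ≤ (L.filter fun b => ¬ s ≤ φ (c * b)).card * (t - s) ^ 2 :=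
          mul_le_mul_of_nonneg_right h5 (sq_nonneg _)
      _ = ∑ b ∈ L.filter fun b => ¬ s ≤ φ (c * b), (ψ (c * b) - ψ c) ^ 2 := by
          rw [← nsmul_eq_mul, ← Finset.sum_const]
          refine Finset.sum_congr rfl fun b hb => ?_
          have hb2 := not_le.1 (Finset.mem_filter.1 hb).2
          have e1 : ψ (c * b) = s := max_eq_left ((min_le_right _ _).trans hb2.le)
          have e2 : ψ c = t := by
            simp only [hψ]
            rw [min_eq_left (hA c hc).2, max_eq_right hst]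
          rw [e1, e2]
          ring
      _ ≤ ∑ b ∈ L, (ψ (c * b) - ψ c) ^ 2 :=
          Finset.sum_le_sum_of_subset_of_nonneg (Finset.filter_subset _ _)
            fun _ _ _ => sq_nonneg _
  have h6 : (A.card : ℝ) * ((L.card : ℝ) / 2 * (t - s) ^ 2) ≤
      L.card * (((r : ℝ) + 1) ^ 2 * E) := by
    refine le_trans ?_ h1
    rw [Finset.sum_comm, ← nsmul_eq_mul]
    exact Finset.card_nsmul_le_sum _ _ _ h2
  have h7 : (L.card : ℝ) * ((A.card : ℝ) * (t - s) ^ 2) ≤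
      L.card * (2 * (((r : ℝ) + 1) ^ 2 * E)) := by linarith
  exact le_of_mul_le_mul_left h7 hpos

theorem core {φ : G → ℝ} {E : ℝ} (hE : 0 ≤ E) (h : EB U φ E) (h1 : φ 1 = 1)
    (hf : {c | c ∈ Subgroup.closure (U : Set G) ∧ φ c ≠ 0}.Finite) {r0 : ℕ} (hr0 : 1 ≤ r0)
    (hg : ∀ j : ℕ, 2 * 64 ^ j ≤ (Bl U (r0 * 4 ^ j)).ncard) :
    1 / (2048 * (r0 : ℝ) ^ 2) ≤ E := by
  classical
  by_contra hlt
  rw [not_le] at hlt
  set F := hf.toFinset with hF
  set t : ℕ → ℝ := fun j => 1 / 2 + (1 / 2) ^ j / 2 with ht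
  have htpos : ∀ j, 0 < t j := fun j => by simp only [ht]; positivity
  have hmem : ∀ j c, c ∈ F.filter (fun c => t j ≤ φ c) ↔
      c ∈ Subgroup.closure (U : Set G) ∧ t j ≤ φ c := by
    intro j c
    rw [Finset.mem_filter, hF, Set.Finite.mem_toFinset]
    exact ⟨fun h => ⟨h.1.1, h.2⟩, fun h => ⟨⟨h.1, ((htpos j).trans_le h.2).ne'⟩, h.2⟩⟩
  have key : ∀ j, 64 ^ j ≤ (F.filter fun c => t j ≤ φ c).card := by
    intro j
    induction j with
    | zero =>
      rw [pow_zero]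
      refine Finset.card_pos.2 ⟨1, (hmem 0 1).2 ⟨one_mem _, ?_⟩⟩
      simp only [ht, h1]
      norm_num
    | succ j ih =>
      by_contra hc
      rw [not_le] at hc
      have hd : t j - t (j + 1) = (1 / 2) ^ j / 4 := by
        simp only [ht]
        ring
      have hst : t (j + 1) ≤ t j := by
        have : (0 : ℝ) ≤ (1 / 2) ^ j / 4 := by positivity
        linarith
      have h2 := step hE h hst _ _ (fun c hc => (hmem j c).1 hc)
        (fun c hc1 hc2 => (hmem (j + 1) c).2 ⟨hc1, hc2⟩) (r0 * 4 ^ (j + 1))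
        (le_trans (by omega) (hg (j + 1)))
      rw [hd] at h2
      have h3 : (64 : ℝ) ^ j ≤ (F.filter fun c => t j ≤ φ c).card := by exact_mod_cast ih
      have hr : (1 : ℝ) ≤ r0 := by exact_mod_cast hr0
      set w : ℝ := 4 ^ j with hw
      have hw1 : 1 ≤ w := one_le_pow₀ (by norm_num)
      have e1 : (64 : ℝ) ^ j = w ^ 3 := by
        rw [hw, ← pow_mul, mul_comm, pow_mul]; norm_num
      have e2 : ((1 / 2 : ℝ) ^ j / 4) ^ 2 = 1 / (16 * w) := by
        rw [div_pow, ← pow_mul, mul_comm, pow_mul, hw]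
        norm_num
        rw [one_div, inv_pow]
        ring
      have e3 : ((r0 * 4 ^ (j + 1) : ℕ) : ℝ) = 4 * r0 * w := by
        push_cast
        rw [hw]
        ring
      rw [e2, e3] at h2
      have h4 : (4 * r0 * w + 1) ^ 2 ≤ (8 * r0 * w) ^ 2 := by
        have : 1 ≤ (r0 : ℝ) * w := one_le_mul_of_one_le_of_one_le hr hw1
        exact pow_le_pow_left₀ (by positivity) (by linarith) 2
      have h5 : w ^ 3 * (1 / (16 * w)) ≤ 2 * ((8 * r0 * w) ^ 2 * E) :=
        calc w ^ 3 * (1 / (16 * w))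
            ≤ (F.filter fun c => t j ≤ φ c).card * (1 / (16 * w)) :=
              mul_le_mul_of_nonneg_right (e1 ▸ h3) (by positivity)
          _ ≤ 2 * ((4 * r0 * w + 1) ^ 2 * E) := h2
          _ ≤ 2 * ((8 * r0 * w) ^ 2 * E) := by gcongr
      have h6 : 2 * ((8 * r0 * w) ^ 2 * E) < 2 * ((8 * r0 * w) ^ 2 * (1 / (2048 * (r0 : ℝ) ^ 2))) := by
        gcongr
      have e4 : 2 * ((8 * r0 * w) ^ 2 * (1 / (2048 * (r0 : ℝ) ^ 2))) = w ^ 3 * (1 / (16 * w)) := by
        field_simp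
        ring
      linarith
  have h2 := (key F.card).trans (Finset.card_filter_le _ _)
  exact absurd (Nat.lt_pow_self (by norm_num : 1 < 64)) (not_lt.2 h2)

theorem eb_tsum {φ : G → ℝ} (hf : {c | c ∈ Subgroup.closure (U : Set G) ∧ φ c ≠ 0}.Finite) :
    EB U φ (∑' c : Subgroup.closure (U : Set G), ∑ u ∈ U, (φ ((c : G) * u) - φ c) ^ 2) := by
  classical
  have hs : Summable fun c : Subgroup.closure (U : Set G) =>
      ∑ u ∈ U, (φ ((c : G) * u) - φ c) ^ 2 := by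
    refine summable_sum fun u hu => summable_of_finite_support ?_
    refine ((hf.union (hf.image (· * u⁻¹))).preimage Subtype.val_injective.injOn).subset ?_
    intro c hc
    by_cases h0 : φ c = 0
    · refine Or.inr ⟨(c : G) * u, ⟨mul_mem c.2 (Subgroup.subset_closure hu), fun h1 => hc ?_⟩,
        by simp⟩
      simp [h0, h1]
    · exact Or.inl ⟨c.2, h0⟩
  intro u hu A hA
  rw [← Finset.sum_subtype_of_mem (fun c => (φ (c * u) - φ c) ^ 2) hA]
  refine le_trans (Finset.sum_le_sum fun c _ => ?_)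
    (hs.sum_le_tsum _ fun c _ => Finset.sum_nonneg fun _ _ => sq_nonneg _)
  exact Finset.single_le_sum (f := fun u => (φ ((c : G) * u) - φ c) ^ 2)
    (fun _ _ => sq_nonneg _) hu

end G2Aux

theorem g2P : G2P := by
  intro G _ U ⟨ε, hε, hg⟩
  obtain ⟨r1, hr1⟩ := exists_nat_ge (2 / ε)
  have hr0 : 1 ≤ r1 + 1 := by omega
  have hg' : ∀ j : ℕ, 2 * 64 ^ j ≤ (Bl U ((r1 + 1) * 4 ^ j)).ncard := by
    intro j
    have h1 := hg ((r1 + 1) * 4 ^ j) (Nat.succ_le_of_lt (by positivity))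
    have h2 : (2 : ℝ) ≤ ε * ((r1 : ℝ) + 1) ^ 3 := by
      have h3 : 2 ≤ ε * r1 := by rwa [div_le_iff₀ hε, mul_comm] at hr1
      have h4 : (r1 : ℝ) ≤ ((r1 : ℝ) + 1) ^ 3 := by
        have : (0 : ℝ) ≤ r1 := Nat.cast_nonneg _
        nlinarith [sq_nonneg (r1 : ℝ), mul_nonneg this (sq_nonneg (r1 : ℝ))]
      exact h3.trans (mul_le_mul_of_nonneg_left h4 hε.le)
    have e : ((((r1 + 1) * 4 ^ j : ℕ) : ℝ)) ^ 3 = ((r1 : ℝ) + 1) ^ 3 * 64 ^ j := by
      push_cast
      rw [mul_pow, ← pow_mul, mul_comm j, pow_mul]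
      norm_num
    rw [e, ← mul_assoc] at h1
    have h5 : (2 : ℝ) * 64 ^ j ≤ (Bl U ((r1 + 1) * 4 ^ j)).ncard :=
      (mul_le_mul_of_nonneg_right h2 (by positivity)).trans h1
    exact_mod_cast h5
  refine ⟨1 / (2048 * ((r1 + 1 : ℕ) : ℝ) ^ 2), by positivity, fun φ hf => ?_⟩
  have hE : 0 ≤ ∑' c : Subgroup.closure (U : Set G), ∑ u ∈ U, (φ ((c : G) * u) - φ c) ^ 2 :=
    tsum_nonneg fun c => Finset.sum_nonneg fun _ _ => sq_nonneg _
  by_cases h0 : φ 1 = 0
  · rw [h0]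
    simpa using hE
  have hb := G2Aux.eb_tsum hf
  set E := ∑' c : Subgroup.closure (U : Set G), ∑ u ∈ U, (φ ((c : G) * u) - φ c) ^ 2
  have hpos : 0 < φ 1 ^ 2 := by positivity
  have hb' : G2Aux.EB U (fun x => φ x / φ 1) (E / φ 1 ^ 2) := by
    intro u hu A hA
    simp only [← sub_div, div_pow]
    rw [← Finset.sum_div]
    exact div_le_div_of_nonneg_right (hb u hu A hA) hpos.le
  have := G2Aux.core (div_nonneg hE hpos.le) hb' (div_self h0)
    (hf.subset fun c hc => ⟨hc.1, fun h => hc.2 (by simp [h])⟩) hr0 hg'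
  rwa [le_div_iff₀ hpos] at this

end Crest.Agent.R224
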