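import Crest.Agent.R224.Api

/-!
# Row 224: the limit lemma and the main picking lemma
-/

namespace Crest.Agent.R224

open Crest.Agent.Lib.KyFan Set Filter Topology
open scoped Pointwise

namespace GPAux

variable {G : Type} [Group G] {Y : Type} [MetricSpace Y] [MulAction G Y] {T : Finset G} {o : Y}

/-- uniform radius for `In`. -/
theorem in_unif (h : Sp T o) {E : Set G} (hE : E.Finite) {c : ℝ} (hc : 0 < c) :
    ∃ δ : ℝ, 0 < δ ∧ ∀ (N : Set G) (w : Y), (∀ g ∈ bd T N, dist (g • o) w < c → g ∈ E) →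
      ∀ u : Y, dist u w ≤ δ → In o u N → ∀ g : G, dist (g • o) w < 2 * δ → g ∈ N := by
  obtain ⟨δ, hδ, H⟩ := h.const_ball hE hc
  refine ⟨δ / 2, by positivity, fun N w hN u hu ⟨r, hr, hin⟩ g hg => ?_⟩
  obtain ⟨g', hg'⟩ := h.exists_vertex u (lt_min hr (half_pos hδ))
  have h1 : dist (g' • o) w < δ := by
    have := dist_triangle (g' • o) u w
    have := lt_of_lt_of_le hg' (min_le_right _ _)
    linarith
  exact (H N w hN g g' (by linarith) h1).2 (hin g' (lt_of_lt_of_le hg' (min_le_left _ _)))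

theorem Res.mono {H : Set G} {w : Y} {ε ε' : ℝ} (h : Res T o H w ε) (hε : ε ≤ ε') :
    Res T o H w ε' :=
  Set.Finite.subset h fun _ hg => ⟨hg.1, hε.trans hg.2⟩

theorem in_lim (h : Sp T o) {𝒰 : Filter ℕ} {N : ℕ → Set G} {y : ℕ → Y} {a : Y} {c : ℝ}
    (hc : 0 < c) {E : Set G} (hE : E.Finite)
    (h1 : ∀ᶠ n in 𝒰, ∀ g ∈ bd T (N n), g ∈ E ∨ dist (g • o) (y n) < c / 2)
    (h2 : ∀ᶠ n in 𝒰, c ≤ dist (y n) a ∧ In o a (N n)) :
    In o a {g | ∀ᶠ n in 𝒰, g ∈ N n} := by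
  obtain ⟨δ, hδ, H⟩ := in_unif h hE (half_pos hc)
  refine ⟨δ, hδ, fun g hg => ?_⟩
  filter_upwards [h1, h2] with n hn1 hn2
  refine H (N n) a (fun g' hg' hd => ?_) a (by simpa using hδ.le) hn2.2 g (by linarith)
  rcases hn1 g' hg' with h3 | h3
  · exact h3
  · have := dist_triangle_left (y n) a (g' • o)
    linarith [hn2.1]

/-- a set whose points are pairwise close up to finite sets converges. -/
theorem exists_lim (h : Sp T o) {S : Set G} (hS : S.Infinite)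
    (hc : ∀ ε : ℝ, 0 < ε → ∃ E : Set G, E.Finite ∧ ∀ g ∈ S, ∀ g' ∈ S, g ∉ E → g' ∉ E →
      dist (g • o) (g' • o) < ε) :
    ∃ r : Zt G o, ∀ ε : ℝ, 0 < ε → {g : G | g ∈ S ∧ ε ≤ dist (g • o) r.1}.Finite := by
  have := h.cpl
  have : (cofinite ⊓ 𝓟 S).NeBot := hS.cofinite_inf_principal_neBot
  have hC : Cauchy (map (fun g : G => g • o) (cofinite ⊓ 𝓟 S)) := by
    refine Metric.cauchy_iff.2 ⟨inferInstance, fun ε hε => ?_⟩
    obtain ⟨E, hE, H⟩ := hc ε hε
    refine ⟨(fun g : G => g • o) '' (Eᶜ ∩ S),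
      image_mem_map (inter_mem_inf hE.compl_mem_cofinite (mem_principal_self S)), ?_⟩
    rintro _ ⟨g, hg, rfl⟩ _ ⟨g', hg', rfl⟩
    exact H g hg.2 g' hg'.2 hg.1 hg'.1
  obtain ⟨r, hr⟩ := CompleteSpace.complete hC
  have key : ∀ ε : ℝ, 0 < ε → {g : G | g ∈ S ∧ ε ≤ dist (g • o) r}.Finite := by
    intro ε hε
    have : ∀ᶠ g in cofinite ⊓ 𝓟 S, dist (g • o) r < ε :=
      (Metric.tendsto_nhds.1 hr) ε hε
    rw [eventually_inf_principal, eventually_cofinite] at this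
    refine this.subset fun g hg hg' => ?_
    exact absurd (hg' hg.1) (not_lt.2 hg.2)
  refine ⟨⟨r, h.not_vertex fun ε hε => ?_⟩, key⟩
  refine (hS.sdiff (key ε hε)).mono fun g hg => ?_
  by_contra hlt
  exact hg.2 ⟨hg.1, not_lt.1 hlt⟩

/-- finitely many splitting vertices away from the accumulation set of the wall. -/
theorem split_finite (h : W T o) {L : Set (Zt G o × Zt G o × Zt G o × Zt G o)} (hL : L.Finite)
    (hne : ∀ θ ∈ L, θ.1 ≠ θ.2.1 ∧ θ.2.2.1 ≠ θ.2.2.2) {E : Set G} (hE : E.Finite) {c : ℝ}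
    (hc : 0 < c) (H : Set G) :
    {x : G | Split L H x ∧ ∀ g ∈ bd T H, dist (g • o) (x • o) < c → g ∈ E}.Finite := by
  obtain ⟨δ, hδ, Hδ⟩ := in_unif h.sp hE hc
  have : ∀ θ ∈ L, ∃ F : Set G, F.Finite ∧ ∀ x, x ∉ F →
      (∀ g ∈ bd T H, dist (g • o) (x • o) < c → g ∈ E) → In o (x • θ.1).1 H →
      In o (x • θ.2.1).1 H → In o (x • θ.2.2.1).1 H ∨ In o (x • θ.2.2.2).1 H := by
    intro θ hθ
    obtain ⟨F, hF, H1⟩ := h.conv.pair (fun e => (hne θ hθ).1 (Subtype.ext e)) hδ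
    obtain ⟨F', hF', H2⟩ := h.conv.pair (fun e => (hne θ hθ).2 (Subtype.ext e)) hδ
    refine ⟨F ∪ F', hF.union hF', fun x hx hb h1 h2 => ?_⟩
    have hall : ∀ g : G, dist (g • o) (x • o) < 2 * δ → g ∈ H := by
      rcases H1 x (fun e => hx (Or.inl e)) with h3 | h3
      · exact Hδ H _ hb _ h3 h1
      · exact Hδ H _ hb _ h3 h2
    have hin : ∀ v : Y, dist v (x • o) ≤ δ → In o v H := fun v hv =>
      ⟨δ, hδ, fun g hg => hall g (by have := dist_triangle (g • o) v (x • o); linarith)⟩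
    rcases H2 x (fun e => hx (Or.inr e)) with h3 | h3
    · exact Or.inl (hin _ h3)
    · exact Or.inr (hin _ h3)
  choose! F hF HF using this
  refine (hL.biUnion hF).subset ?_
  rintro x ⟨⟨θ, hθ, h1, h2, h3, h4⟩, hb⟩
  refine mem_biUnion hθ ?_
  by_contra hx
  rcases HF θ hθ x hx hb h1 h2 with h5 | h5
  · exact h3 h5
  · exact h4 h5

theorem split_smul (h : Sp T o) {L : Set (Zt G o × Zt G o × Zt G o × Zt G o)} {H : Set G}
    (x x' : G) : Split L {g | x * g ∈ H} x' ↔ Split L H (x * x') := by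
  simp only [Split, mul_smul, Zt.smul_val (G := G) x, in_smul h]

/-- one step of Case B. -/
theorem step (h : W T o) {L : Set (Zt G o × Zt G o × Zt G o × Zt G o)} (hL : L.Finite)
    (hne : ∀ θ ∈ L, θ.1 ≠ θ.2.1 ∧ θ.2.2.1 ≠ θ.2.2.2) {y : Y} {ε : ℝ} (hε : 0 < ε)
    (hB : ∀ E : Set G, E.Finite → ∃ (H : Set G) (x : G), Res T o H y (ε / 8) ∧ Split L H x ∧
      ε ≤ dist (x • o) y ∧ x ∉ E)
    {κ ε' : ℝ} (hκ : 0 < κ) (hε' : 0 < ε') {P : G → Y → Prop}
    (hP : ∀ g w, dist (g • o) w < κ → P g w)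
    (hpick : ∀ X : Set G, X.Finite → ∀ x0 ∈ X, ∃ x ∈ X,
      (x = x0 ∨ ε' ≤ dist ((x0⁻¹ * x) • o) (x0⁻¹ • o)) ∧ ∀ x' ∈ X, P (x⁻¹ * x') (x⁻¹ • o)) :
    ∃ (H : Set G) (w : Y), Split L H 1 ∧ Res T o H w κ ∧ ∀ x', Split L H x' → P x' w := by
  obtain ⟨Fc, hFc, Hc⟩ := h.conv (ε / 4) (κ / 2) (by positivity) (by positivity)
  have hEk : (Fc⁻¹).Finite := hFc.inv
  obtain ⟨r, hr, Hr⟩ := h.sp.iso_finite hEk
  obtain ⟨F', hF', H'⟩ := h.conv ε' (min (r / 2) (ε / 4)) hε' (by positivity)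
  obtain ⟨H, x0, hres, hsp0, hd0, hx0⟩ := hB (Fc⁻¹ ∪ F') (hEk.union hF')
  have hX : {x : G | Split L H x ∧ ε / 2 ≤ dist (x • o) y}.Finite := by
    refine (split_finite h hL hne hres (c := ε / 4) (by positivity) H).subset ?_
    rintro x ⟨hx1, hx2⟩
    refine ⟨hx1, fun g hg hd => ⟨hg, ?_⟩⟩
    have := dist_triangle_left (x • o) y (g • o)
    linarith
  obtain ⟨x, hxX, hx1, hx2⟩ := hpick _ hX x0 ⟨hsp0, by linarith⟩
  have hclose : dist (x • o) (x0 • o) ≤ min (r / 2) (ε / 4) := by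
    rcases hx1 with rfl | hx1
    · rw [dist_self]; positivity
    · have := H' x0 (fun e => hx0 (Or.inr e)) _ hx1
      rwa [smul_smul, mul_inv_cancel_left] at this
  have hxE : x⁻¹ ∉ Fc := by
    intro e
    have hxm : x ∈ Fc⁻¹ := e
    have hne' : x0 ≠ x := fun e' => hx0 (Or.inl (e' ▸ hxm))
    have := Hr x hxm x0 hne'
    have := hclose.trans (min_le_left _ _)
    linarith
  have hfar : 3 * ε / 4 ≤ dist (x • o) y := by
    have := dist_triangle_left (x0 • o) y (x • o)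
    have := hclose.trans (min_le_right _ _)
    linarith
  have hnear : ∀ g : G, dist ((x * g) • o) y < ε / 2 → dist (g • o) (x⁻¹ • o) < κ := by
    intro g hg
    have := Hc x⁻¹ hxE ((x * g) • o) (by
      rw [inv_inv]
      have := dist_triangle_left (x • o) y ((x * g) • o)
      linarith)
    rw [smul_smul, inv_mul_cancel_left] at this
    linarith
  refine ⟨{g | x * g ∈ H}, x⁻¹ • o, ?_, ?_, ?_⟩
  · rw [split_smul h.sp, mul_one]
    exact hxX.1
  · refine (hres.preimage (f := fun g => x * g) (mul_right_injective x).injOn).subset ?_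
    rintro g ⟨hg1, hg2⟩
    refine ⟨(mem_bd_preimage x H g).1 hg1, ?_⟩
    by_contra hlt
    have := hnear g (by have := not_le.1 hlt; linarith)
    linarith
  · intro x' hx'
    rw [split_smul h.sp] at hx'
    by_cases hd : ε / 2 ≤ dist ((x * x') • o) y
    · have := hx2 (x * x') ⟨hx', hd⟩
      rwa [inv_mul_cancel_left] at this
    · exact hP _ _ (hnear x' (not_le.1 hd))

theorem far_pair (𝒰 : Ultrafilter ℕ) (w : ℕ → Y) {a a' : Zt G o} (hne : a ≠ a') :
    ∃ b, (b = a ∨ b = a') ∧ ∃ c : ℝ, 0 < c ∧ ∀ᶠ k in (𝒰 : Filter ℕ), c ≤ dist (w k) b.1 := by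
  have hd := Zt.dist_pos hne
  have : ∀ᶠ k in (𝒰 : Filter ℕ), dist a.1 a'.1 / 2 ≤ dist (w k) a.1 ∨
      dist a.1 a'.1 / 2 ≤ dist (w k) a'.1 := by
    refine Eventually.of_forall fun k => ?_
    by_contra hcon
    push Not at hcon
    have := dist_triangle_left a.1 a'.1 (w k)
    linarith [hcon.1, hcon.2]
  rcases Ultrafilter.eventually_or.1 this with h1 | h1
  · exact ⟨a, Or.inl rfl, _, half_pos hd, h1⟩
  · exact ⟨a', Or.inr rfl, _, half_pos hd, h1⟩

theorem ev_hyper {P : ℕ → Prop} (h : ∀ᶠ n in atTop, P n) :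
    ∀ᶠ n in (hyperfilter ℕ : Filter ℕ), P n :=
  hyperfilter_le_cofinite (by rwa [Nat.cofinite_eq_atTop])

theorem ev_small {ε : ℝ} (hε : 0 < ε) : ∀ᶠ n : ℕ in atTop, 1 / ((n : ℝ) + 1) < ε :=
  tendsto_one_div_add_atTop_nhds_zero_nat.eventually (gt_mem_nhds hε)

end GPAux

open GPAux

theorem limP : LimP := by
  intro G _ Y _ _ T o h 𝒰 N y a b c hc hE hab
  set Ni : Set G := {g | ∀ᶠ n in (𝒰 : Filter ℕ), g ∈ N n} with hNi
  have hmem : ∀ g, ∀ᶠ n in (𝒰 : Filter ℕ), (g ∈ N n ↔ g ∈ Ni) := by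
    intro g
    by_cases hg : g ∈ Ni
    · filter_upwards [hg] with n hn using iff_of_true hn hg
    · filter_upwards [Ultrafilter.eventually_not.2 hg] with n hn using iff_of_false hn hg
  have hbd : ∀ g ∈ bd T Ni, ∀ᶠ n in (𝒰 : Filter ℕ), g ∈ bd T (N n) := by
    rintro g ⟨g', hadj, hne⟩
    filter_upwards [hmem g, hmem g'] with n h1 h2
    exact ⟨g', hadj, by rwa [h1, h2]⟩
  obtain ⟨E, hEf, hE1⟩ := hE (c / 2) (half_pos hc)
  have ha : In o a.1 Ni :=
    in_lim h.sp hc hEf hE1 (hab.mono fun n hn => ⟨hn.1, hn.2.2.1⟩)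
  have hb : In o b.1 Niᶜ := by
    have := in_lim h.sp (N := fun n => (N n)ᶜ) hc hEf (by simpa only [bd_compl] using hE1)
      (hab.mono fun n hn => ⟨hn.2.1, hn.2.2.2⟩)
    exact this.mono fun g hg => Ultrafilter.eventually_not.1 hg
  obtain ⟨r, hr⟩ := exists_lim h.sp (h.hyp.bd_infinite h.sp ha hb) fun ε hε => by
    obtain ⟨E, hEf, hE1⟩ := hE (ε / 2) (half_pos hε)
    refine ⟨E, hEf, fun g hg g' hg' h1 h2 => ?_⟩
    obtain ⟨n, hn, hn1, hn2⟩ := (hE1.and ((hbd g hg).and (hbd g' hg'))).exists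
    have h3 := (hn g hn1).resolve_left h1
    have h4 := (hn g' hn2).resolve_left h2
    have := dist_triangle_right (g • o) (g' • o) (y n)
    linarith
  have hcut : Cut T o r.1 Ni := hr
  obtain ⟨h1, h2⟩ := h.ne_of_in hcut ha hb
  exact ⟨r, h1, h2, Ni, hcut, ha, hb⟩

theorem gpP : GPP := by
  intro G _ Y _ _ T o h hKon hPick hLim L M hL hne hM1 hM2 hyp p q hpq
  -- confinement of the boundary of `M H`
  have conf : ∀ η : ℝ, 0 < η → ∀ E : Set G, E.Finite → ∃ E' : Set G, E'.Finite ∧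
      ∀ (H : Set G) (w : Y), Res T o H w (2 * η) →
        (∀ x, Split L H x → x ∈ E ∨ dist (x • o) w < 3 * η) →
        ∀ g ∈ bd T (M H), g ∈ E' ∨ dist (g • o) w < 4 * η := by
    intro η hη E hE
    obtain ⟨E', hE', H'⟩ := hyp η hη E hE
    refine ⟨E', hE', fun H w hres hsp g hg => ?_⟩
    by_contra hcon
    push Not at hcon
    obtain ⟨x', hx1, hx2, hx3⟩ := H' H g hg hcon.1 (hres.subset fun g' hg' => ⟨hg'.1, by
      have := dist_triangle_left (g • o) w (g' • o)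
      linarith [hg'.2, hcon.2]⟩)
    have h1 := (hsp x' hx1).resolve_left hx2
    have := dist_triangle_left (g • o) w (x' • o)
    linarith [hcon.2]
  obtain ⟨y, hyp', hyq, hH⟩ := hKon p q hpq
  choose H hHres hHp hHq using fun n : ℕ => hH (1 / ((n : ℝ) + 1)) Nat.one_div_pos_of_nat
  by_cases hA : ∀ ε : ℝ, 0 < ε → ∃ E : Set G, E.Finite ∧ ∀ᶠ n in atTop, ∀ x,
      Split L (H n) x → x ∈ E ∨ dist (x • o) y.1 < ε
  · left
    refine hLim (hyperfilter ℕ) (fun n => M (H n)) (fun _ => y.1) p q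
      (min (dist y.1 p.1) (dist y.1 q.1)) (lt_min (Zt.dist_pos hyp') (Zt.dist_pos hyq)) ?_
      (Eventually.of_forall fun n =>
        ⟨min_le_left _ _, min_le_right _ _, hM1 _ _ (hHp n), hM2 _ _ (hHq n)⟩)
    intro ε hε
    obtain ⟨E, hE, hEv⟩ := hA (3 * (ε / 4)) (by positivity)
    obtain ⟨E', hE', H'⟩ := conf (ε / 4) (by positivity) E hE
    refine ⟨E', hE', ev_hyper ?_⟩
    filter_upwards [hEv, ev_small (ε := 2 * (ε / 4)) (by positivity)] with n hn1 hn2 g hg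
    have := H' (H n) y.1 (Res.mono (hHres n) hn2.le) hn1 g hg
    rwa [show 4 * (ε / 4) = ε by ring] at this
  · right
    push Not at hA
    obtain ⟨ε, hε, hB⟩ := hA
    have hB' : ∀ E : Set G, E.Finite → ∃ (H : Set G) (x : G), Res T o H y.1 (ε / 8) ∧
        Split L H x ∧ ε ≤ dist (x • o) y.1 ∧ x ∉ E := by
      intro E hE
      obtain ⟨n, ⟨x, hx1, hx2, hx3⟩, hn⟩ :=
        ((hB E hE).and_eventually (ev_small (ε := ε / 8) (by positivity))).exists
      exact ⟨H n, x, Res.mono (hHres n) hn.le, hx1, hx3, hx2⟩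
    obtain ⟨F, ε', hF, hε', hP⟩ := hPick (fun j => 1 / ((j : ℝ) + 1))
      fun j => Nat.one_div_pos_of_nat
    have hstep : ∀ k : ℕ, ∃ (H : Set G) (w : Y), Split L H 1 ∧ Res T o H w (1 / ((k : ℝ) + 1)) ∧
        ∀ x', Split L H x' → ∀ j : ℕ, j ≤ k →
          x' ∈ F j ∨ dist (x' • o) w < 1 / ((j : ℝ) + 1) := by
      intro k
      refine step h hL hne hε hB' Nat.one_div_pos_of_nat (hε' k)
        (P := fun g w => ∀ j : ℕ, j ≤ k → g ∈ F j ∨ dist (g • o) w < 1 / ((j : ℝ) + 1)) ?_ ?_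
      · intro g w hg j hj
        exact Or.inr (hg.trans_le (Nat.one_div_le_one_div hj))
      · intro X hX x0 hx0
        obtain ⟨x, hx, h1, h2⟩ := hP k X hX x0 hx0
        exact ⟨x, hx, h1, fun x' hx' j hj => h2 j hj x' hx'⟩
    choose H' w hsp hres hsplit using hstep
    obtain ⟨θ, hθ, hθv⟩ := (Ultrafilter.eventually_exists_mem_iff (f := hyperfilter ℕ) hL).1
      (Eventually.of_forall hsp)
    obtain ⟨a, ha, ca, hca, hav⟩ := far_pair (hyperfilter ℕ) w (hne θ hθ).1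
    obtain ⟨b, hb, cb, hcb, hbv⟩ := far_pair (hyperfilter ℕ) w (hne θ hθ).2
    have : ∃ r, Sep T r a b := by
      refine hLim (hyperfilter ℕ) (fun k => M (H' k)) w a b (min ca cb) (lt_min hca hcb) ?_ ?_
      · intro δ hδ
        obtain ⟨j, hj⟩ := (ev_small (ε := δ / 4) (by positivity)).exists
        have hj0 : 0 < 1 / ((j : ℝ) + 1) := Nat.one_div_pos_of_nat
        obtain ⟨E', hE', HE'⟩ := conf _ hj0 (F j) (hF j)
        refine ⟨E', hE', ev_hyper ?_⟩
        filter_upwards [eventually_ge_atTop j] with k hk g hg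
        have h1 : 1 / ((k : ℝ) + 1) ≤ 1 / ((j : ℝ) + 1) := Nat.one_div_le_one_div hk
        refine (HE' (H' k) (w k) (Res.mono (hres k) (by linarith)) (fun x hx => ?_) g hg).imp_right
          fun h2 => by linarith
        exact (hsplit k x hx j hk).imp_right fun h2 => by linarith
      · filter_upwards [hθv, hav, hbv, ev_hyper (ev_small (half_pos hcb))] with k h1 h2 h3 h4
        simp only [one_smul] at h1
        refine ⟨(min_le_left _ _).trans h2, (min_le_right _ _).trans h3, hM1 _ _ ?_, hM2 _ _ ?_⟩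
        · rcases ha with rfl | rfl
          · exact h1.1
          · exact h1.2.1
        · refine (in_or_in h.sp (half_pos hcb) ((hres k).subset fun g hg => ⟨hg.1, ?_⟩)).resolve_left
            ?_
          · have := dist_triangle_left (w k) b.1 (g • o)
            linarith [hg.2]
          · rcases hb with rfl | rfl
            · exact h1.2.2.1
            · exact h1.2.2.2
    obtain ⟨r, hr⟩ := this
    exact ⟨r, θ, hθ, a, b, ha, hb, hr⟩

end Crest.Agent.R224
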