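import Crest.Agent.R224.Api

/-! Row 224: many disjoint translates of the tail of a monotone sequence lie in one core. -/

namespace Crest.Agent.R224

open Crest.Agent.Lib.KyFan Set Filter Topology
open scoped Pointwise

namespace GermAux

variable {G : Type} [Group G] {Y : Type} [MetricSpace Y] [MulAction G Y] {T : Finset G} {o : Y}
  {w : ℕ → Zt G o}

/-- `z` lies on the near side of the sequence. -/
def Before (T : Finset G) (w : ℕ → Zt G o) (z : Zt G o) : Prop :=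
  ∃ i, Btw T z (w i) (w (i + 1))

theorem w_ne (hw : Mono T w) {i j : ℕ} (h : i < j) : w i ≠ w j :=
  (hw i j (j + 1) h (Nat.lt_succ_self j)).1

theorem w_btw (hw : Mono T w) {i j k : ℕ} (h : i ≤ j) (h' : j ≤ k) : Btw T (w i) (w j) (w k) := by
  rcases h.eq_or_lt with rfl | h
  · exact btw_left _ _
  rcases h'.eq_or_lt with rfl | h'
  · exact btw_right _ _
  exact (hw i j k h h').btw

theorem before_all (h : W T o) (hw : Mono T w) {z : Zt G o} (hz : Before T w z) :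
    ∃ n, ∀ i j, n ≤ i → i ≤ j → Btw T z (w i) (w j) := by
  obtain ⟨n, hn⟩ := hz
  refine ⟨n + 1, fun i j hi hij => ?_⟩
  have h1 := (h.btw_extend hn (w_btw hw (Nat.le_succ n) hi) (w_ne hw (Nat.lt_succ_self n))).1
  exact (h.btw_extend h1 (w_btw hw (by omega) hij) (w_ne hw (by omega))).2

theorem not_before (h : W T o) (hw : Mono T w) {z : Zt G o} (hz : ¬ Before T w z) (i : ℕ) :
    Btw T (w i) (w (i + 1)) z :=
  (h.btw_or (w_btw hw (Nat.le_succ i) (Nat.le_succ (i + 1))) z).resolve_right fun h' => hz ⟨_, h'⟩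

theorem tail_btw (h : W T o) (hw : Mono T w) {z z' : Zt G o} (hz : Before T w z)
    (hz' : ¬ Before T w z') : ∀ᶠ n in atTop, ∀ v ∈ Tail T w n, Btw T z v z' := by
  obtain ⟨n, hn⟩ := before_all h hw hz
  have key : ∀ j, n ≤ j → Btw T z (w j) z' := fun j hj =>
    (h.btw_extend (hn j (j + 1) hj (Nat.le_succ j)) (not_before h hw hz' j)
      (w_ne hw (Nat.lt_succ_self j))).1
  filter_upwards [eventually_ge_atTop n] with m hm
  rintro v ⟨j, hj, hv⟩
  exact h.btw_convex (key m hm) (key j (hm.trans hj)) hv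

theorem w_mem_tail (w : ℕ → Zt G o) {n j : ℕ} (h : n ≤ j) : w j ∈ Tail T w n :=
  ⟨j, h, btw_right _ _⟩

/-- an element that maps a tail into itself is trivial. -/
theorem eq_one (h : W T o) (hP : PF T o) (hw : Mono T w) {r b : Zt G o} (hr : Sep T r (w 0) b)
    (hb : ∀ j, Btw T (w 0) (w j) r) {n : ℕ} (hn : 1 ≤ n) {g : G}
    (hg : ∀ v ∈ Tail T w n, g • v ∈ Tail T w n) : g = 1 := by
  have h1 : ∀ j, 1 ≤ j → w j ∈ Core T (w 0) (w 1) r b := fun j hj =>
    ⟨hb j, h.btw_trans (hb j) hr.btw, h.btw_trans' (w_btw hw (Nat.zero_le 1) hj) (hb j),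
      h.btw_trans' (w_btw hw (Nat.zero_le 1) hj) (h.btw_trans (hb j) hr.btw)⟩
  have h2 : ∀ v ∈ Tail T w n, v ∈ Core T (w 0) (w 1) r b := by
    rintro v ⟨j, hj, hv⟩
    exact h.core_convex (h1 n hn) (h1 j (hn.trans hj)) hv
  have h3 : ∀ m : ℕ, ∀ v ∈ Tail T w n, g ^ m • v ∈ Tail T w n := by
    intro m
    induction m with
    | zero => simp
    | succ m ih =>
      intro v hv
      rw [pow_succ', mul_smul]
      exact hg _ (ih v hv)
  have h4 := hP (w n) (w (n + 3)) (w (n + 1)) (w (n + 2)) (w 0) (w 1) r b (w_ne hw (by omega))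
    (hw _ _ _ (by omega) (by omega)) (hw _ _ _ (by omega) (by omega)) (w_ne hw (by omega))
    hr.2.1.symm
  refine h.hyp.tf g (finite_powers.1 (h4.subset ?_))
  rintro _ ⟨m, rfl⟩
  exact ⟨h2 _ (h3 m _ (w_mem_tail w le_rfl)), h2 _ (h3 m _ (w_mem_tail w (by omega)))⟩

/-- the translate `y • w` is eventually increasing from `a` towards `β`. -/
def Inc (T : Finset G) (w : ℕ → Zt G o) (a β : Zt G o) (N : ℕ) (y : G) : Prop :=
  ∀ n m, N ≤ n → n ≤ m → Btw T a (y • w n) (y • w m) ∧ Btw T a (y • w n) β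

theorem Inc.tail (h : W T o) {a β : Zt G o} {N : ℕ} {y : G} (hy : Inc T w a β N y) {n j : ℕ}
    (hn : N ≤ n) (hj : n ≤ j) {v : Zt G o} :
    Btw T (w n) v (w j) ↔ Btw T a (y • w n) (y • v) ∧ Btw T a (y • v) (y • w j) := by
  rw [← h.btw_smul y, h.btw_order (hy n j hn hj).1]

theorem disj_of_bound (h : W T o) (hw : Mono T w) {a β : Zt G o} {N : ℕ} {y y' : G}
    (hy : Inc T w a β N y) (hy' : Inc T w a β N y') {j : ℕ} (hj : N ≤ j)
    (hb : ∀ i, N ≤ i → Btw T a (y • w i) (y' • w j)) :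
    ∀ᶠ n in atTop, ∀ v ∈ Tail T w n, ∀ v' ∈ Tail T w n, y • v ≠ y' • v' := by
  filter_upwards [eventually_gt_atTop j] with n hn
  rintro v ⟨i, hi, hv⟩ v' ⟨i', hi', hv'⟩ he
  have h1 := ((hy.tail h (by omega) hi).1 hv).2
  have h2 := ((hy'.tail h (by omega) hi').1 hv').1
  rw [← he] at h2
  have h3 := h.btw_trans h2 (h.btw_trans h1 (hb i (by omega)))
  exact w_ne hw hn (smul_left_cancel y' (h.btw_antisymm (hy' j n hj hn.le).1 h3))

theorem eq_of_cofinal (h : W T o) (hP : PF T o) (hw : Mono T w) {r b : Zt G o}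
    (hr : Sep T r (w 0) b) (hb : ∀ j, Btw T (w 0) (w j) r) {a β : Zt G o} {N : ℕ} (hN : 1 ≤ N)
    {y y' : G} (hy : Inc T w a β N y) (hy' : Inc T w a β N y')
    (h0 : Btw T a (y • w N) (y' • w N))
    (hc : ∀ j, N ≤ j → ∃ i, N ≤ i ∧ Btw T a (y' • w j) (y • w i)) : y = y' := by
  have : y⁻¹ * y' = 1 := by
    refine eq_one h hP hw hr hb hN ?_
    rintro v ⟨j, hj, hv⟩
    obtain ⟨i, hi, hij⟩ := hc j hj
    obtain ⟨h1, h2⟩ := (hy'.tail h le_rfl hj).1 hv
    refine ⟨i, hi, (hy.tail h le_rfl hi).2 ?_⟩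
    rw [mul_smul, smul_inv_smul]
    exact ⟨h.btw_trans h0 h1, h.btw_trans h2 hij⟩
  exact inv_mul_eq_one.1 this

theorem disj (h : W T o) (hP : PF T o) (hw : Mono T w) {r b : Zt G o}
    (hr : Sep T r (w 0) b) (hb : ∀ j, Btw T (w 0) (w j) r) {a β : Zt G o} {N : ℕ} (hN : 1 ≤ N)
    {y y' : G} (hy : Inc T w a β N y) (hy' : Inc T w a β N y') (hne : y ≠ y') :
    ∀ᶠ n in atTop, ∀ v ∈ Tail T w n, ∀ v' ∈ Tail T w n, y • v ≠ y' • v' := by
  by_cases h1 : ∃ j, N ≤ j ∧ ∀ i, N ≤ i → Btw T a (y • w i) (y' • w j)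
  · obtain ⟨j, hj, h1⟩ := h1
    exact disj_of_bound h hw hy hy' hj h1
  by_cases h2 : ∃ j, N ≤ j ∧ ∀ i, N ≤ i → Btw T a (y' • w i) (y • w j)
  · obtain ⟨j, hj, h2⟩ := h2
    filter_upwards [disj_of_bound h hw hy' hy hj h2] with n hn v hv v' hv'
    exact (hn v' hv' v hv).symm
  push Not at h1 h2
  exfalso
  have tot : ∀ i j, N ≤ i → N ≤ j →
      Btw T a (y • w i) (y' • w j) ∨ Btw T a (y' • w j) (y • w i) := fun i j hi hj =>
    h.btw_total (hy i i hi le_rfl).2 (hy' j j hj le_rfl).2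
  rcases tot N N le_rfl le_rfl with h0 | h0
  · refine hne (eq_of_cofinal h hP hw hr hb hN hy hy' h0 fun j hj => ?_)
    obtain ⟨i, hi, hij⟩ := h1 j hj
    exact ⟨i, hi, (tot i j hi hj).resolve_left hij⟩
  · refine hne (eq_of_cofinal h hP hw hr hb hN hy' hy h0 fun j hj => ?_).symm
    obtain ⟨i, hi, hij⟩ := h2 j hj
    exact ⟨i, hi, (tot j i hj hi).resolve_right hij⟩

theorem inc_of (h : W T o) (hw : Mono T w) {a β : Zt G o} {x : G} (ha : Before T w (x • a))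
    (hβ : ¬ Before T w (x • β)) : ∀ᶠ N in atTop, Inc T w a β N x⁻¹ := by
  obtain ⟨n, hn⟩ := before_all h hw ha
  obtain ⟨n', hn'⟩ := eventually_atTop.1 (tail_btw h hw ha hβ)
  filter_upwards [eventually_ge_atTop n, eventually_ge_atTop n'] with N h1 h2 i j hi hij
  constructor
  · rw [← h.btw_smul x, smul_inv_smul, smul_inv_smul]
    exact hn i j (h1.trans hi) hij
  · rw [← h.btw_smul x, smul_inv_smul]
    exact hn' i (h2.trans hi) _ (w_mem_tail w le_rfl)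

/-- infinitely many edges leave the majority set. -/
theorem infinite_cross (h : W T o) (hw : Mono T w) {τ : Fin 3 → Zt G o}
    (hτ : Function.Injective τ) {r b : Zt G o} (hr : Sep T r (w 0) b)
    (hb : ∀ j, Btw T (w 0) (w j) r) :
    {x : G | ∃ t ∈ T, Two τ x (Before T w) ∧ ¬ Two τ (x * t) (Before T w)}.Infinite := by
  have h1 : In o (w 0).1 {x | Two τ x (Before T w)} := by
    obtain ⟨-, h2, H, hH, ha, hc⟩ := hw 0 1 2 (by omega) (by omega)
    obtain ⟨δ, hδ, hz⟩ := ha.nhds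
    refine h.in_two hτ hδ fun z hz' => ⟨1, Sep.btw ?_⟩
    exact ⟨(h.ne_of_in hH (hz _ hz') hc).1, h2, H, hH, hz _ hz', hc⟩
  have h2 : In o b.1 {x | Two τ x (Before T w)}ᶜ := by
    obtain ⟨h2, -, H, hH, ha, hc⟩ := hr
    obtain ⟨δ, hδ, hz⟩ := hc.nhds
    refine h.in_not_two hτ hδ fun z hz' => ?_
    have h3 : Sep T r (w 0) z := ⟨h2, (h.ne_of_in hH ha (hz _ hz')).2, H, hH, ha, hz _ hz'⟩
    rintro ⟨i, hi⟩
    have h4 := h.btw_trans' (w_btw hw (Nat.zero_le i) (Nat.le_succ i))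
      (h.btw_trans (hb (i + 1)) h3.btw)
    exact w_ne hw (Nat.lt_succ_self i) (h.btw_antisymm hi h4.symm)
  intro hfin
  refine h.hyp.bd_infinite h.sp h1 h2 ((hfin.union (hfin.biUnion fun x _ =>
    adj_finite (T := T) x)).subset ?_)
  rintro x ⟨y, hxy, hne⟩
  by_cases hx : Two τ x (Before T w)
  · obtain ⟨t, ht, rfl⟩ := adj_iff.1 hxy
    exact Or.inl ⟨t, ht, hx, fun hy => hne (iff_of_true hx hy)⟩
  · have hyx := hxy.symm h.hyp.symm
    have hy : Two τ y (Before T w) := by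
      by_contra hy
      exact hne (iff_of_false hx hy)
    obtain ⟨t, ht, rfl⟩ := adj_iff.1 hyx
    exact Or.inr (mem_biUnion (show y ∈ _ from ⟨t, ht, hy, hx⟩) hyx)

end GermAux

open GermAux in
theorem germP : GermP := by
  intro G _ Y _ _ T o h hP τ w hτ hw hrb K
  obtain ⟨r, b, hr, hb⟩ := hrb
  let S : Fin 3 × Fin 3 × Fin 3 × Fin 3 × T → Set G := fun θ =>
    {x | θ.1 ≠ θ.2.1 ∧ θ.2.2.1 ≠ θ.2.2.2.1 ∧ Before T w (x • τ θ.1) ∧ Before T w (x • τ θ.2.1) ∧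
      ¬ Before T w (x • (θ.2.2.2.2 : G) • τ θ.2.2.1) ∧
      ¬ Before T w (x • (θ.2.2.2.2 : G) • τ θ.2.2.2.1)}
  obtain ⟨⟨i, j, k, l, t, ht⟩, hS⟩ : ∃ θ, (S θ).Infinite := by
    by_contra hcon
    push Not at hcon
    refine infinite_cross h hw hτ hr hb ((finite_iUnion hcon).subset ?_)
    rintro x ⟨t, ht, ⟨i, j, hij, hi, hj⟩, h2⟩
    obtain ⟨k, l, hkl, hk, hl⟩ := two_not_iff.2 h2
    rw [mul_smul] at hk hl
    exact mem_iUnion.2 ⟨(i, j, k, l, ⟨t, ht⟩), hij, hkl, hi, hj, hk, hl⟩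
  let x : Fin K → G := fun m => hS.natEmbedding _ m
  have hx : ∀ m, x m ∈ S (i, j, k, l, ⟨t, ht⟩) := fun m => (hS.natEmbedding _ m).2
  have hinj : Function.Injective x := fun m m' hm =>
    Fin.ext ((hS.natEmbedding _).injective (Subtype.ext hm))
  obtain ⟨x0, hij, hkl, -⟩ := hS.nonempty
  have h1 : ∀ᶠ n in atTop, ∀ m, ∀ v ∈ Tail T w n,
      (x m)⁻¹ • v ∈ Core T (τ i) (τ j) (t • τ k) (t • τ l) := by
    refine eventually_all.2 fun m => ?_
    obtain ⟨-, -, hi, hj, hk, hl⟩ := hx m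
    filter_upwards [tail_btw h hw hi hk, tail_btw h hw hi hl, tail_btw h hw hj hk,
      tail_btw h hw hj hl] with n a1 a2 a3 a4 v hv
    rw [← h.core_smul (x m), smul_inv_smul]
    exact ⟨a1 v hv, a2 v hv, a3 v hv, a4 v hv⟩
  have h2 : ∀ᶠ n in atTop, ∀ m m', m ≠ m' → ∀ v ∈ Tail T w n, ∀ v' ∈ Tail T w n,
      (x m)⁻¹ • v ≠ (x m')⁻¹ • v' := by
    refine eventually_all.2 fun m => eventually_all.2 fun m' => eventually_all.2 fun hm => ?_
    obtain ⟨-, -, hi, -, hk, -⟩ := hx m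
    obtain ⟨-, -, hi', -, hk', -⟩ := hx m'
    obtain ⟨N, hN, hy, hy'⟩ :=
      ((eventually_ge_atTop 1).and ((inc_of h hw hi hk).and (inc_of h hw hi' hk'))).exists
    exact disj h hP hw hr hb hN hy hy' fun he => hm (hinj (inv_injective he))
  obtain ⟨n0, hn0⟩ := eventually_atTop.1 (h1.and h2)
  exact ⟨i, j, k, l, t, fun m => (x m)⁻¹, n0, hij, hkl, ht, hn0⟩

end Crest.Agent.R224
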