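import Crest.Agent.R224.Api

/-! Row 224, Stage IV-A: there are arbitrarily small good scales. -/

namespace Crest.Agent.R224

open Crest.Agent.Lib.KyFan Set Filter Topology
open scoped Pointwise

namespace GoodAux

variable {G : Type} [Group G] {Y : Type} [MetricSpace Y] [MulAction G Y] {T : Finset G} {o : Y}
variable {A B : Zt G o} {t : Zt G o → ℝ} {c η η' s s' : ℝ} {g g' : G}

theorem le_of_lt (h : W T o) (hl : Len T A B t) {v w : Zt G o} (hv : Btw T A v B)
    (hw : Btw T A w B) (hlt : t v < t w) : Btw T A v w := by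
  rcases h.btw_total hv hw with h1 | h1
  · exact h1
  · exact absurd (hl.mono w v h1 hv) (not_le.2 hlt)

theorem btw_of_lt (h : W T o) (hl : Len T A B t) {u v w : Zt G o} (hu : Btw T A u B)
    (hv : Btw T A v B) (hw : Btw T A w B) (h1 : t u < t v) (h2 : t v < t w) : Btw T u v w :=
  h.btw_trans' (le_of_lt h hl hu hv h1) (le_of_lt h hl hv hw h2)

theorem sep_of_lt (h : W T o) (hl : Len T A B t) {u v w : Zt G o} (hu : Btw T A u B)
    (hv : Btw T A v B) (hw : Btw T A w B) (h1 : t u < t v) (h2 : t v < t w) : Sep T v u w :=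
  (btw_of_lt h hl hu hv hw h1 h2).sep (fun e => by rw [e] at h1; exact lt_irrefl _ h1)
    (fun e => by rw [e] at h2; exact lt_irrefl _ h2)

theorem tr_mono (hη : η' ≤ η) (h : Tr T A B t c η g s) : Tr T A B t c η' g s :=
  fun w hw h1 h2 => h w hw (h1.trans_le hη) (h2.trans_le hη)

theorem tr_finite (h : W T o) (hPF : PF T o) (hl : Len T A B t) (h0 : 0 < η) (h1 : η ≤ c)
    (h2 : η ≤ 1 - c) : {g : G | ∃ s, |s| ≤ η / 8 ∧ Tr T A B t c η g s}.Finite := by
  obtain ⟨a, ha, a1, a2⟩ := hl.dense (c - η) (c - 3 * η / 4) (by linarith) (by linarith)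
    (by linarith)
  obtain ⟨a', ha', a1', a2'⟩ := hl.dense (c - 3 * η / 4) (c - η / 2) (by linarith) (by linarith)
    (by linarith)
  obtain ⟨b, hb, b1, b2⟩ := hl.dense (c + η / 2) (c + 3 * η / 4) (by linarith) (by linarith)
    (by linarith)
  obtain ⟨b', hb', b1', b2'⟩ := hl.dense (c + 3 * η / 4) (c + η) (by linarith) (by linarith)
    (by linarith)
  obtain ⟨l, hl', l1, l2⟩ := hl.dense (c - η / 4) (c - η / 8) (by linarith) (by linarith)
    (by linarith)
  obtain ⟨r1, hr1, p1, p2⟩ := hl.dense (c - η / 8) c (by linarith) (by linarith) (by linarith)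
  obtain ⟨r2, hr2, q1, q2⟩ := hl.dense c (c + η / 8) (by linarith) (by linarith) (by linarith)
  obtain ⟨r, hr, r1', r2'⟩ := hl.dense (c + η / 8) (c + η / 4) (by linarith) (by linarith)
    (by linarith)
  refine (hPF l r r1 r2 a a' b b' (fun e => by rw [e] at p2; linarith)
    (sep_of_lt h hl hl' hr1 hr (by linarith) (by linarith))
    (sep_of_lt h hl hl' hr2 hr (by linarith) (by linarith))
    (fun e => by rw [e] at a2; linarith) (fun e => by rw [e] at b2; linarith)).subset ?_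
  rintro g ⟨s, hs, hg⟩
  rw [abs_le] at hs
  have key : ∀ v, Btw T A v B → c - η / 4 < t v → t v < c + η / 4 → g • v ∈ Core T a a' b b' := by
    intro v hv v1 v2
    obtain ⟨k1, k2⟩ := hg v hv (abs_lt.2 ⟨by linarith, by linarith⟩)
      (abs_lt.2 ⟨by linarith [hs.1], by linarith [hs.2]⟩)
    have k3 : c - η / 2 < t (g • v) := by linarith [hs.1]
    have k4 : t (g • v) < c + η / 2 := by linarith [hs.2]
    exact ⟨btw_of_lt h hl ha k1 hb (by linarith) (by linarith),
      btw_of_lt h hl ha k1 hb' (by linarith) (by linarith),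
      btw_of_lt h hl ha' k1 hb (by linarith) (by linarith),
      btw_of_lt h hl ha' k1 hb' (by linarith) (by linarith)⟩
  exact ⟨key l hl' l1 (by linarith), key r hr (by linarith) r2'⟩

theorem tr_zero (h : W T o) (hPF : PF T o) (hl : Len T A B t) (h0 : 0 < η) (h1 : η ≤ c)
    (h2 : η ≤ 1 - c) (hg : Tr T A B t c η g 0) : g = 1 := by
  have key : ∀ n : ℕ, Tr T A B t c η (g ^ n) 0 := by
    intro n
    induction n with
    | zero => exact fun w hw _ _ => by simpa using hw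
    | succ n ih =>
      intro w hw k1 k2
      obtain ⟨k3, k4⟩ := ih w hw k1 k2
      rw [add_zero] at k4
      have := hg _ k3 (by rwa [k4]) (by rwa [k4])
      rwa [k4, ← mul_smul, ← pow_succ'] at this
  refine h.hyp.tf g (finite_powers.1 ((tr_finite h hPF hl h0 h1 h2).subset ?_))
  rintro _ ⟨n, rfl⟩
  exact ⟨0, by rw [abs_zero]; linarith, key n⟩

theorem tr_inv (h : W T o) (hl : Len T A B t) (h1 : η ≤ c) (h2 : η ≤ 1 - c)
    (hg : Tr T A B t c η g s) : Tr T A B t c η g⁻¹ (-s) := by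
  intro w hw k1 k2
  rw [abs_lt] at k1 k2
  obtain ⟨k1, k1'⟩ := k1
  obtain ⟨k2, k2'⟩ := k2
  obtain ⟨u, hu, u1, u2⟩ := hl.dense (max (c - η) (c - η - s)) (t w - s)
    (le_max_of_le_left (by linarith)) (max_lt (by linarith) (by linarith)) (by linarith)
  obtain ⟨u', hu', u1', u2'⟩ := hl.dense (t w - s) (min (c + η) (c + η - s)) (by linarith)
    (lt_min (by linarith) (by linarith)) (min_le_of_left_le (by linarith))
  rw [max_lt_iff] at u1
  rw [lt_min_iff] at u2'
  obtain ⟨u0, u1⟩ := u1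
  obtain ⟨u2', u3'⟩ := u2'
  obtain ⟨m1, m2⟩ := hg u hu (abs_lt.2 ⟨by linarith, by linarith⟩)
    (abs_lt.2 ⟨by linarith, by linarith⟩)
  obtain ⟨m1', m2'⟩ := hg u' hu' (abs_lt.2 ⟨by linarith, by linarith⟩)
    (abs_lt.2 ⟨by linarith, by linarith⟩)
  have b1 : Btw T u (g⁻¹ • w) u' := by
    rw [← h.btw_smul g, smul_inv_smul]
    exact btw_of_lt h hl m1 hw m1' (by linarith) (by linarith)
  have b2 : Btw T A (g⁻¹ • w) B := h.btw_convex hu hu' b1
  obtain ⟨b3, b4⟩ := (h.btw_order (le_of_lt h hl hu hu' (by linarith))).1 b1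
  have b5 := hl.mono _ _ b3 b2
  have b6 := hl.mono _ _ b4 hu'
  obtain ⟨-, b7⟩ := hg _ b2 (abs_lt.2 ⟨by linarith, by linarith⟩)
    (abs_lt.2 ⟨by linarith, by linarith⟩)
  rw [smul_inv_smul] at b7
  exact ⟨b2, by linarith⟩

theorem tr_comm (h : W T o) (hPF : PF T o) (hl : Len T A B t) (h0 : 0 < η) (h1 : η ≤ c)
    (h2 : η ≤ 1 - c) (hg : Tr T A B t c η g s) (hg' : Tr T A B t c η g' s') (hs : |s| ≤ η / 8)
    (hs' : |s'| ≤ η / 8) : g * g' = g' * g := by
  have key : Tr T A B t c (η / 2) (g * g' * g⁻¹ * g'⁻¹) 0 := by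
    intro w hw k1 _
    rw [abs_lt] at k1
    rw [abs_le] at hs hs'
    obtain ⟨k1, k2⟩ := k1
    obtain ⟨s1, s2⟩ := hs
    obtain ⟨s1', s2'⟩ := hs'
    obtain ⟨a1, a2⟩ := tr_inv h hl h1 h2 hg' w hw (abs_lt.2 ⟨by linarith, by linarith⟩)
      (abs_lt.2 ⟨by linarith, by linarith⟩)
    obtain ⟨b1, b2⟩ := tr_inv h hl h1 h2 hg _ a1 (abs_lt.2 ⟨by linarith, by linarith⟩)
      (abs_lt.2 ⟨by linarith, by linarith⟩)
    obtain ⟨c1, c2⟩ := hg' _ b1 (abs_lt.2 ⟨by linarith, by linarith⟩)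
      (abs_lt.2 ⟨by linarith, by linarith⟩)
    obtain ⟨d1, d2⟩ := hg _ c1 (abs_lt.2 ⟨by linarith, by linarith⟩)
      (abs_lt.2 ⟨by linarith, by linarith⟩)
    rw [mul_smul, mul_smul, mul_smul]
    exact ⟨d1, by linarith⟩
  have := tr_zero h hPF hl (by linarith) (by linarith) (by linarith) key
  rwa [mul_inv_eq_one, mul_inv_eq_iff_eq_mul] at this

theorem tr_ext (h : W T o) (hl : Len T A B t) (h1 : η ≤ c) (h2 : η ≤ 1 - c)
    (hg : Tr T A B t c η g s) (hs0 : s ≠ 0) (hg' : Tr T A B t c η' g' s') (hs : |s| ≤ η' / 4)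
    (hs' : |s'| ≤ η' / 4) (hc : g * g' = g' * g) : Tr T A B t c η g' s' := by
  -- a translation by `|s|` commuting with `g'`
  obtain ⟨f, hf, hfc⟩ : ∃ f : G, Tr T A B t c η f |s| ∧ Commute f g' := by
    rcases abs_choice s with e | e
    · exact ⟨g, by rwa [e], hc⟩
    · exact ⟨g⁻¹, by rw [e]; exact tr_inv h hl h1 h2 hg, Commute.inv_left hc⟩
  have hf' := tr_inv h hl h1 h2 hf
  have hpos : 0 < |s| := abs_pos.2 hs0
  generalize |s| = σ at hs hf hf' hpos
  rw [abs_le] at hs'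
  obtain ⟨s1, s2⟩ := hs'
  have key : ∀ (n : ℕ) (w : Zt G o), Btw T A w B → |t w - c| < η → |t w + s' - c| < η →
      |t w - c| < η' / 2 + n * σ → Btw T A (g' • w) B ∧ t (g' • w) = t w + s' := by
    intro n
    induction n with
    | zero =>
      intro w hw _ _ k
      rw [Nat.cast_zero, zero_mul, add_zero, abs_lt] at k
      exact hg' w hw (abs_lt.2 ⟨by linarith [k.1], by linarith [k.2]⟩)
        (abs_lt.2 ⟨by linarith [k.1], by linarith [k.2]⟩)
    | succ n ih =>
      intro w hw k1 k2 k3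
      have hn : 0 ≤ (n : ℝ) * σ := by positivity
      by_cases k4 : |t w - c| < η' / 2
      · exact ih w hw k1 k2 (by linarith)
      rw [Nat.cast_succ, add_mul, one_mul] at k3
      rw [abs_lt] at k1 k2 k3
      obtain ⟨k1, k1'⟩ := k1
      obtain ⟨k2, k2'⟩ := k2
      obtain ⟨k3, k3'⟩ := k3
      rcases le_abs.1 (not_lt.1 k4) with k5 | k5
      · obtain ⟨a1, a2⟩ := hf' w hw (abs_lt.2 ⟨by linarith, by linarith⟩)
          (abs_lt.2 ⟨by linarith, by linarith⟩)
        obtain ⟨b1, b2⟩ := ih _ a1 (abs_lt.2 ⟨by linarith, by linarith⟩)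
          (abs_lt.2 ⟨by linarith, by linarith⟩) (abs_lt.2 ⟨by linarith, by linarith⟩)
        obtain ⟨c1, c2⟩ := hf _ b1 (abs_lt.2 ⟨by linarith, by linarith⟩)
          (abs_lt.2 ⟨by linarith, by linarith⟩)
        rw [← mul_smul, hfc.eq, mul_smul, smul_inv_smul] at c1 c2
        exact ⟨c1, by linarith⟩
      · obtain ⟨a1, a2⟩ := hf w hw (abs_lt.2 ⟨by linarith, by linarith⟩)
          (abs_lt.2 ⟨by linarith, by linarith⟩)
        obtain ⟨b1, b2⟩ := ih _ a1 (abs_lt.2 ⟨by linarith, by linarith⟩)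
          (abs_lt.2 ⟨by linarith, by linarith⟩) (abs_lt.2 ⟨by linarith, by linarith⟩)
        obtain ⟨c1, c2⟩ := hf' _ b1 (abs_lt.2 ⟨by linarith, by linarith⟩)
          (abs_lt.2 ⟨by linarith, by linarith⟩)
        rw [← mul_smul, hfc.inv_left.eq, mul_smul, inv_smul_smul] at c1 c2
        exact ⟨c1, by linarith⟩
  intro w hw k1 k2
  obtain ⟨n, hn⟩ := exists_nat_gt (η / σ)
  rw [div_lt_iff₀ hpos] at hn
  exact key n w hw k1 k2 (by linarith)

theorem good_aux (h : W T o) (hPF : PF T o) (hl : Len T A B t) (h0 : 0 < η) (h1 : η ≤ c)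
    (h2 : η ≤ 1 - c) : ∃ η' : ℝ, 0 < η' ∧ η' ≤ η ∧
      ∀ (g : G) (s : ℝ), Tr T A B t c η' g s → |s| ≤ η' / 16 → g = 1 := by
  by_contra hc
  have hpos : ∀ k : ℕ, 0 < η * (1 / 2) ^ k := fun k => by positivity
  have hle : ∀ k : ℕ, η * (1 / 2) ^ k ≤ η := fun k =>
    mul_le_of_le_one_right h0.le (pow_le_one₀ (by norm_num) (by norm_num))
  have hex : ∀ k : ℕ, ∃ (g : G) (s : ℝ), Tr T A B t c (η * (1 / 2) ^ k) g s ∧
      |s| ≤ η * (1 / 2) ^ k / 16 ∧ g ≠ 1 := by
    intro k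
    by_contra hk
    refine hc ⟨_, hpos k, hle k, fun g s a b => ?_⟩
    by_contra hg
    exact hk ⟨g, s, a, b, hg⟩
  choose g s hg hs hne using hex
  have hs0 : ∀ k, s k ≠ 0 := fun k e =>
    hne k (tr_zero h hPF hl (hpos k) ((hle k).trans h1) ((hle k).trans h2) (e ▸ hg k))
  have key : ∀ k, Tr T A B t c η (g k) (s k) := by
    intro k
    induction k with
    | zero => simpa using hg 0
    | succ k ih =>
      have e : η * (1 / 2) ^ k = 2 * (η * (1 / 2) ^ (k + 1)) := by ring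
      have a1 := hs k
      have a2 := hs (k + 1)
      have a3 := hpos (k + 1)
      rw [e] at a1
      exact tr_ext h hl h1 h2 ih (hs0 k) (hg (k + 1)) (by linarith) (by linarith)
        (tr_comm h hPF hl a3 ((hle _).trans h1) ((hle _).trans h2) (tr_mono (hle _) ih)
          (hg (k + 1)) (by linarith) (by linarith))
  obtain ⟨w, hw, w1, w2⟩ := hl.dense c (c + η / 2) (by linarith) (by linarith) (by linarith)
  have hb : ∀ k, |s k| ≤ η / 8 := fun k => by linarith [hs k, hle k]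
  have hfin : (range s).Finite := by
    refine ((tr_finite h hPF hl h0 h1 h2).image fun x => t (x • w) - t w).subset ?_
    rintro _ ⟨k, rfl⟩
    have := abs_le.1 (hb k)
    refine ⟨g k, ⟨s k, hb k, key k⟩, ?_⟩
    have e := (key k w hw (abs_lt.2 ⟨by linarith, by linarith⟩)
      (abs_lt.2 ⟨by linarith [this.1], by linarith [this.2]⟩)).2
    simp only [e, add_sub_cancel_left]
  obtain ⟨_, ⟨j, rfl⟩, hj⟩ := Set.exists_min_image _ (fun x : ℝ => |x|) hfin (range_nonempty s)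
  obtain ⟨k, hk⟩ := exists_pow_lt_of_lt_one (div_pos (abs_pos.2 (hs0 j)) h0)
    (show (1 / 2 : ℝ) < 1 by norm_num)
  rw [lt_div_iff₀ h0] at hk
  have a1 := hj _ ⟨k, rfl⟩
  have a2 := hs k
  have a3 := hpos k
  beta_reduce at a1
  linarith

end GoodAux

theorem goodP : GoodP := by
  intro G _ Y _ _ T o h hPF A B t hl c η0 hc0 hc1 h0
  obtain ⟨η, a1, a2, a3⟩ := GoodAux.good_aux (c := c) (η := min η0 (min c (1 - c))) h hPF hl
    (lt_min h0 (lt_min hc0 (by linarith))) ((min_le_right _ _).trans (min_le_left _ _))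
    ((min_le_right _ _).trans (min_le_right _ _))
  exact ⟨η, a1, a2.trans (min_le_left _ _), a3⟩

end Crest.Agent.R224
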