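import Crest.Agent.R224.Basic
import Crest.Agent.R224.Chain

/-! Row 224: coarse cohomology of the group vanishes when the Alexander-Spanier cohomology with
compact supports of the universal cover vanishes. -/

namespace Crest.Agent.R224

open Crest.Agent.Lib.KyFan Set Filter Topology

namespace HXAux

variable {G X : Type} [Group G] {T : Finset G}

theorem ch_add_self {Y : Type} (c : Ch F2 Y) : c + c = 0 := by
  ext l
  rw [Finsupp.add_apply, F2.add_self, Finsupp.zero_apply]

theorem ch_sub {Y : Type} (c c' : Ch F2 Y) : c - c' = c + c' := by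
  rw [sub_eq_iff_eq_add, add_assoc, ch_add_self, add_zero]

omit [Group G] in
theorem dC_pair (a b : G) :
    dC (Finsupp.single [a, b] (1 : F2)) = Finsupp.single [a] 1 + Finsupp.single [b] 1 := by
  rw [dC_single, one_smul, dL_cons, dL_cons, dL_nil, map_zero, sub_zero, consC_single,
    ch_sub, add_comm]

theorem small_pair (hT : Symm T) {a b : G} (h : Adj T a b) : SmallG T 1 [a, b] := by
  intro x hx y hy
  simp only [List.mem_cons, List.not_mem_nil, or_false] at hx hy
  rcases hx with rfl | rfl <;> rcases hy with rfl | rfl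
  · exact Near.refl 1 _
  · exact h.near
  · exact h.near.symm hT
  · exact Near.refl 1 _

theorem exists_path_chain (hT : Symm T) (hg : Subgroup.closure (T : Set G) = ⊤) (g : G) :
    ∃ c : Ch F2 G, ChIn (fun l => l.length = 2 ∧ SmallG T 1 l) c ∧
      dC c = Finsupp.single [1] 1 + Finsupp.single [g] 1 := by
  obtain ⟨-, h⟩ := conn_univ hT hg 1 (mem_univ _) g (mem_univ _)
  induction h with
  | refl => exact ⟨0, ChIn.zero _, by rw [map_zero, ch_add_self]⟩
  | @tail a b _ hab ih =>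
    obtain ⟨c, hc, hd⟩ := ih
    refine ⟨c + Finsupp.single [a, b] 1, hc.add (ChIn.single ⟨rfl, small_pair hT hab.2⟩ _), ?_⟩
    rw [map_add, hd, dC_pair, add_assoc, ← add_assoc (Finsupp.single [a] 1),
      ch_add_self, zero_add]

theorem small_map [MetricSpace X] {π : X → G} {ε : ℝ} {r : ℕ}
    (hπ : ∀ x y, dist x y < ε → Near T r (π x) (π y)) {l : List X} (hl : SmallL ε l) :
    SmallG T r (l.map π) := by
  intro a ha b hb
  obtain ⟨x, hx, rfl⟩ := List.mem_map.1 ha
  obtain ⟨y, hy, rfl⟩ := List.mem_map.1 hb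
  exact hπ x y (hl x hx y hy)

theorem small_of_ball [MetricSpace X] {ε : ℝ} {x : X} {l : List X}
    (hl : ∀ y ∈ l, y ∈ Metric.ball x (ε / 2)) : SmallL ε l := by
  intro a ha b hb
  have h1 := hl a ha
  have h2 := hl b hb
  rw [Metric.mem_ball] at h1 h2
  linarith [dist_triangle_right a b x]

theorem ev_eq_zero {Y : Type} {φ : Co Y} {c : Ch F2 Y} (h : ChIn (fun l => φ l = 0) c) :
    ev φ c = 0 := by
  by_contra hc
  obtain ⟨l, hl, h0⟩ := ev_ne_zero hc
  exact h0 (h l hl)

theorem ev_add_fun {Y : Type} (φ ψ : Co Y) (c : Ch F2 Y) :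
    ev (fun l => φ l + ψ l) c = ev φ c + ev ψ c := by
  refine ChainAux.ext (Ψ := ev φ + ev ψ) fun l _ => ?_
  simp [ev_single]

theorem z1 [MetricSpace X] (hT : Symm T) (hg : Subgroup.closure (T : Set G) = ⊤)
    (hF : FillX F2 X) (hC : Cmp T X) : Z1 T := by
  obtain ⟨π, ε1, r1, hε1, hπ, -, hC⟩ := hC
  obtain ⟨r', hr'⟩ := hC 1 2
  obtain ⟨δ, hδ, hfill⟩ := hF 2 ε1 hε1
  obtain ⟨A, D, hAD, -⟩ := hr' δ hδ
  refine ⟨max r' r1, fun κ hκ => ?_⟩
  have key : ∀ z : Ch F2 G, ChIn (fun l => l.length = 2 ∧ SmallG T 1 l) z → dC z = 0 →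
      ev κ z = 0 := by
    intro z hz h0
    obtain ⟨c, hc, hdc⟩ := hfill (lc A z)
      (hz.lc fun l hl => (hAD l hl.1.le hl.2).1.mono fun l' h => ⟨h.1.trans hl.1, h.2⟩)
      (by rw [dC_lc (hz.mono fun l hl => (hAD l hl.1.le hl.2).2.1), h0, map_zero])
    have h1 : dC (lc D z) + lc D (dC z) = mapC π (lc A z) + z := by
      refine ChainAux.ext (Φ := dC ∘ₗ lc D + lc D ∘ₗ dC) (Ψ := mapC π ∘ₗ lc A + LinearMap.id)
        fun l hl => ?_
      have := (hAD l (hz l hl).1.le (hz l hl).2).2.2.2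
      simpa [lc_single, dC_single] using this
    rw [h0, map_zero, add_zero, ← hdc, ← dC_mapC] at h1
    have h2 : z = dC (lc D z + mapC π c) := by
      rw [map_add, h1, add_comm (dC (mapC π c)), add_assoc, ch_add_self, add_zero]
    rw [h2, ev_dC]
    refine ev_eq_zero (ChIn.add ?_ ?_)
    · refine hz.lc fun l hl => (hAD l hl.1.le hl.2).2.2.1.mono fun l' h => ?_
      exact hκ l' (by rw [h.1, hl.1]) (h.2.1.mono (le_max_left _ _))
    · refine hc.mapC π fun l hl => ?_
      exact hκ _ (by rw [List.length_map, hl.1]) ((small_map hπ hl.2).mono (le_max_right _ _))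
  choose c hc hdc using exists_path_chain hT hg
  refine ⟨fun g => ev κ (c g), fun a b hab => ?_⟩
  have h := key (c a + c b + Finsupp.single [a, b] 1)
    (((hc a).add (hc b)).add (ChIn.single ⟨rfl, small_pair hT hab⟩ _))
    (by
      rw [map_add, map_add, hdc, hdc, dC_pair, add_add_add_comm (Finsupp.single [1] 1),
        ch_add_self, zero_add, ch_add_self])
  rw [map_add, map_add, ev_single, one_mul, CharTwo.add_eq_zero] at h
  exact h.symm

theorem hx [MetricSpace X] [WeaklyLocallyCompactSpace X] (hC : Cmp T X) {n : ℕ} (hn : 1 ≤ n)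
    (hV : Van (n + 1) (univ : Set X)) : HX T n := by
  obtain ⟨π, ε1, r1, hε1, hπ, hK, hC⟩ := hC
  intro r
  obtain ⟨r', hr'⟩ := hC r (n + 1)
  refine ⟨max r' r1, fun κ hκ hfin => ?_⟩
  -- the entries of the support of `κ`
  have hFfin : (⋃ l ∈ {l : List G | l.length = n + 1 ∧ SmallG T (max r' r1) l ∧ κ l ≠ 0},
      {a | a ∈ l}).Finite := hfin.biUnion fun l _ => l.finite_toSet
  set F := ⋃ l ∈ {l : List G | l.length = n + 1 ∧ SmallG T (max r' r1) l ∧ κ l ≠ 0}, {a | a ∈ l}
  have hF : ∀ l : List G, l.length = n + 1 → SmallG T (max r' r1) l → κ l ≠ 0 →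
      ∀ a ∈ l, a ∈ F := fun l h1 h2 h3 a ha => mem_biUnion (show l ∈ {l : List G | _} from
        ⟨h1, h2, h3⟩) ha
  obtain ⟨K, hKc, hKF⟩ := hK F hFfin
  have hsupp : ∀ l : List X, l.length = n + 1 → SmallL ε1 l → (∀ y ∈ l, y ∉ K) →
      pull π κ l = 0 := by
    intro l hl hs hy
    by_contra h0
    cases l with
    | nil => simp at hl
    | cons y l =>
      exact hy y List.mem_cons_self (hKF y (hF _ (by simpa using hl)
        ((small_map hπ hs).mono (le_max_right _ _)) h0 _ (by simp)))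
  have hZ : Zc (n + 1) univ (pull π κ) := by
    refine ⟨⟨K, hKc, subset_univ _, fun x hx => ?_⟩, fun x => ?_⟩
    · refine ⟨Metric.ball x (ε1 / 2) ∩ Kᶜ, inter_mem (Metric.ball_mem_nhds x (half_pos hε1))
        (hKc.isClosed.isOpen_compl.mem_nhds hx), fun l hl hm => ?_⟩
      exact hsupp l hl (small_of_ball fun y hy => (hm y hy).1) fun y hy => (hm y hy).2
    · refine ⟨Metric.ball x (ε1 / 2), Metric.ball_mem_nhds x (half_pos hε1), fun l hl hm => ?_⟩
      rw [cob_pull]
      exact hκ _ (by simpa using hl) ((small_map hπ (small_of_ball hm)).mono (le_max_right _ _))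
  obtain ⟨ψ, -, ⟨K2, hK2, -, hψ⟩, hb⟩ := hV _ hZ
  rw [Nat.add_sub_cancel] at hψ
  obtain ⟨K3, hK3, hsub⟩ := exists_compact_superset (hKc.union hK2)
  have h1 : ∀ x, LZ n (hd K3 ψ + ψ) x := by
    intro x
    by_cases hx : x ∈ K2
    · exact LZ.hd_add_of_mem_nhds hn ψ (mem_interior_iff_mem_nhds.1 (hsub (Or.inr hx)))
    · exact ((hψ x hx).hd K3).add (hψ x hx)
  have h2 : ∀ x, LZ (n + 1) (pull π κ + cob (hd K3 ψ)) x := by
    intro x
    have := (hb x).add (h1 x).cob
    rwa [cob_add', add_assoc, add_comm (cob (hd K3 ψ)), ← add_assoc (cob ψ), co_add_self,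
      zero_add] at this
  obtain ⟨η, hη, hu⟩ := LZ.exists_unif hK3 fun x _ => h2 x
  have h3 : ∀ l : List X, l.length = n + 1 → SmallL (min η ε1) l →
      cob (hd K3 ψ) l = pull π κ l := by
    intro l hl hs
    by_cases hex : ∃ x ∈ l, x ∈ K3
    · obtain ⟨x, hx, hx3⟩ := hex
      have := hu x hx3 l hl fun y hy => (hs y hy x hx).trans_le (min_le_left _ _)
      rw [Pi.add_apply, CharTwo.add_eq_zero] at this
      exact this.symm
    · push Not at hex
      rw [hsupp l hl (fun a ha b hb => (hs a ha b hb).trans_le (min_le_right _ _))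
        fun y hy hyK => hex y hy (interior_subset (hsub (Or.inl hyK))),
        cob_congr (ψ := fun _ => 0) fun m hm _ => ?_, cob_zero]
      cases m with
      | nil => exact hd_nil _ _
      | cons y m => exact hd_cons_notMem ψ (hex y (hm.subset List.mem_cons_self)) m
  obtain ⟨A, D, hAD, hprop⟩ := hr' (min η ε1) (lt_min hη hε1)
  refine ⟨fun l => ev (hd K3 ψ) (A l) + ev κ (D l), ?_, fun l hl hs => ?_⟩
  · refine ((hprop K3 hK3).union
      (smallG_finite (T := T) r n (nbhd_finite (T := T) r' hFfin))).subset ?_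
    rintro l ⟨hl, hs, h0⟩
    beta_reduce at h0
    by_cases hA : ev (hd K3 ψ) (A l) = 0
    · rw [hA, zero_add] at h0
      obtain ⟨l', hl', h0'⟩ := ev_ne_zero h0
      obtain ⟨e1, e2, e3⟩ := (hAD l (by omega) hs).2.2.1 l' hl'
      have e4 := hF l' (by omega) (e2.mono (le_max_left _ _)) h0'
      obtain ⟨a, ha⟩ := List.exists_mem_of_length_pos (l := l) (by omega)
      obtain ⟨b, hb⟩ := List.exists_mem_of_length_pos (l := l') (by omega)
      exact Or.inr ⟨hl.le, hs, a, ha, b, e4 b hb, e3 a ha b hb⟩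
    · obtain ⟨l', hl', h0'⟩ := ev_ne_zero hA
      refine Or.inl ⟨by omega, hs, l', hl', ?_⟩
      cases l' with
      | nil => exact absurd (hd_nil _ _) h0'
      | cons y m =>
        by_contra hc
        exact h0' (hd_cons_notMem ψ (fun hy => hc ⟨y, List.mem_cons_self, hy⟩) m)
  · obtain ⟨a1, a2, a3, a4⟩ := hAD l hl.le hs
    have e1 : ev κ (dC (D l)) = 0 := by
      rw [ev_dC]
      exact ev_eq_zero (a3.mono fun l' h => hκ l' (by omega) (h.2.1.mono (le_max_left _ _)))
    have e2 := congrArg (ev κ) a4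
    rw [map_add, map_add, e1, zero_add, ev_single, one_mul, ev_mapC] at e2
    rw [← ev_dL, ev_add_fun, ← ev_lc, ← ev_lc, ← a2, ev_dC, e2,
      ev_congr (ψ := pull π κ) (a1.mono fun l' h => h3 l' (by omega) h.2), ← add_assoc]
    change _ = ev (pull π κ) (A l) + ev (pull π κ) (A l) + κ l
    rw [F2.add_self, zero_add]

end HXAux

theorem hxP : HXP := by
  intro G X _ _ _ T hTop hT hg hF hC
  obtain ⟨ρ, hρ, hc⟩ := hTop.ucpt
  have : WeaklyLocallyCompactSpace X :=
    ⟨fun x => ⟨_, hc x, Metric.closedBall_mem_nhds x hρ⟩⟩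
  exact ⟨HXAux.z1 hT hg hF hC, fun n hn hV => HXAux.hx hC hn hV⟩

end Crest.Agent.R224
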