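import Crest.Agent.R224.Api

/-! Row 224: approximate cuts. -/

namespace Crest.Agent.R224

open Set Filter Topology

namespace KonAux

variable {G : Type} [Group G] {Y : Type} [MetricSpace Y] [MulAction G Y] {T : Finset G} {o : Y}

/-- a first wall of finite total weight -/
theorem first (hC : CoareaP) (hh : Hyp T) (hs : Sp T o) (R : ℕ) {p q : Zt G o} (hpq : p ≠ q) :
    ∃ (φ : G → ℝ) (H0 : Set G), (∀ x, 0 ≤ φ x) ∧
      (∀ x y, Near T R x y → dist (x • o) (y • o) ≤ φ x) ∧ In o p.1 H0 ∧ In o q.1 H0ᶜ ∧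
      ∀ η : ℝ, 0 < η → ∃ F0 : Set G, F0.Finite ∧
        ∀ F : Finset G, (∀ x ∈ F, x ∈ bd T H0 \ F0) → ∑ x ∈ F, φ x ≤ η := by
  classical
  have := countable_of_gen hh.gen
  obtain ⟨φ, h0, hsum, hφ⟩ := hs.exists_phi (R + 1)
  have hd := Zt.dist_pos hpq
  set d := dist p.1 q.1 with hdd
  obtain ⟨s, ⟨hs1, hs2⟩, -, hc⟩ := hC G T φ φ (fun x => dist (x • o) p.1) (d / 3) (2 * d / 3)
    ((2 * ∑' x, φ x * φ x + 1) * 3 / d) h0 h0
    (fun x y hxy => (abs_dist_sub_le _ _ _).trans (by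
      rw [dist_comm]; exact hφ x y (hxy.near.mono (by omega))))
    (by simpa only [sq] using hsum) (by linarith) (by
      rw [show (2 * ∑' x, φ x * φ x + 1) * 3 / d * (2 * d / 3 - d / 3) =
        2 * ∑' x, φ x * φ x + 1 by field_simp; ring]
      linarith)
  refine ⟨φ, {x | dist (x • o) p.1 < s}, h0, fun x y h => hφ x y (h.mono (Nat.le_succ R)),
    ⟨s, by linarith, fun g hg => hg⟩, ⟨d / 3, by linarith, fun g hg hg' => ?_⟩, fun η hη => ?_⟩
  · have h1 := dist_triangle_left p.1 q.1 (g • o)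
    have h2 : dist (g • o) p.1 < s := hg'
    linarith
  · set B := bd T {x | dist (x • o) p.1 < s} with hB
    have hsB : Summable (B.indicator φ) := by
      refine summable_of_sum_le (c := (2 * ∑' x, φ x * φ x + 1) * 3 / d)
        (fun x => indicator_nonneg (fun y _ => h0 y) x) fun u => ?_
      simp only [indicator_apply]
      rw [← Finset.sum_filter]
      exact hc _ fun x hx => (Finset.mem_filter.1 hx).2
    obtain ⟨F0, hF0⟩ := hsB.vanishing (Iio_mem_nhds hη)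
    refine ⟨F0, F0.finite_toSet, fun F hF => ?_⟩
    have h1 : ∑ x ∈ F, B.indicator φ x < η :=
      hF0 F (Finset.disjoint_left.2 fun x hx hx' => (hF x hx).2 hx')
    rw [Finset.sum_congr rfl fun x hx => indicator_of_mem (hF x hx).1 φ] at h1
    exact h1.le

/-- passing to an essential piece of small diameter -/
theorem step (hT : Symm T) {R : ℕ} {p q : Zt G o}
    (hE : ∀ (ι : Type) (k : G → ι) (H : Set G) (a b : Zt G o), In o a.1 H → In o b.1 Hᶜ →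
      {w | w ∈ bd T H ∧ ∃ w' ∈ bd T H, Near T R w w' ∧ k w ≠ k w'}.Finite →
      ∃ (i : ι) (H' : Set G), (bd T H' \ {w | w ∈ bd T H ∧ k w = i}).Finite ∧
        In o a.1 H' ∧ In o b.1 H'ᶜ)
    {φ : G → ℝ} (h0 : ∀ x, 0 ≤ φ x) (hφ : ∀ x y, Near T R x y → dist (x • o) (y • o) ≤ φ x)
    {B F0 : Set G} {η : ℝ} (hF0 : F0.Finite)
    (hη : ∀ F : Finset G, (∀ x ∈ F, x ∈ B \ F0) → ∑ x ∈ F, φ x ≤ η) {H : Set G}
    (hH : (bd T H \ B).Finite) (hp : In o p.1 H) (hq : In o q.1 Hᶜ) :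
    ∃ H' : Set G, (bd T H' \ bd T H).Finite ∧ In o p.1 H' ∧ In o q.1 H'ᶜ ∧ ∃ E : Set G, E.Finite ∧
      ∀ x ∈ bd T H' \ E, ∀ y ∈ bd T H' \ E, dist (x • o) (y • o) ≤ η := by
  set F := F0 ∪ (bd T H \ B) with hF
  have hFf : F.Finite := hF0.union hH
  set S := bd T H \ F with hS
  have hSB : S ⊆ B \ F0 := fun x hx =>
    ⟨by_contra fun h => hx.2 (Or.inr ⟨hx.1, h⟩), fun h => hx.2 (Or.inl h)⟩
  obtain ⟨i, H', h1, h2, h3⟩ := hE (Set G)
    (fun w => {w' | Relation.ReflTransGen (fun x y => y ∈ S ∧ Near T R x y) w w'}) H p q hp hq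
    ((nbhd_finite (T := T) R hFf).subset fun w ⟨hw, w', hw', hn, hne⟩ => by
      by_contra hc
      have e1 : w ∈ S := ⟨hw, fun h => hc ⟨w, h, Near.refl _ _⟩⟩
      have e2 : w' ∈ S := ⟨hw', fun h => hc ⟨w', h, hn⟩⟩
      exact hne (Set.ext fun z => ⟨fun h => .head ⟨e1, hn.symm hT⟩ h, fun h => .head ⟨e2, hn⟩ h⟩))
  refine ⟨H', h1.subset fun x hx => ⟨hx.1, fun h => hx.2 h.1⟩, h2, h3, _, h1.union hFf,
    fun x hx y hy => ?_⟩
  have hx1 := not_not.1 fun h => hx.2 (Or.inl ⟨hx.1, h⟩)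
  have hy1 := not_not.1 fun h => hy.2 (Or.inl ⟨hy.1, h⟩)
  refine chain_dist h0 hφ (fun F' hF' => hη F' fun z hz => hSB (hF' z hz))
    ⟨hx1.1, fun h => hx.2 (Or.inr h)⟩ ?_
  have h4 : y ∈ {w' | Relation.ReflTransGen (fun x y => y ∈ S ∧ Near T R x y) x w'} := by
    rw [hx1.2.trans hy1.2.symm]
    exact Relation.ReflTransGen.refl
  exact h4

end KonAux

open KonAux in
theorem konP (hC : CoareaP) : KonP := by
  intro G _ Y _ _ T o hh hs hE p q hpq
  obtain ⟨R, hE⟩ := hE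
  obtain ⟨φ, H0, h0, hφ, hp0, hq0, htail⟩ := first hC hh hs R hpq
  have hstep : ∀ (s : {H : Set G // (bd T H \ bd T H0).Finite ∧ In o p.1 H ∧ In o q.1 Hᶜ}) (n : ℕ),
      ∃ s' : {H : Set G // (bd T H \ bd T H0).Finite ∧ In o p.1 H ∧ In o q.1 Hᶜ},
        (bd T s'.1 \ bd T s.1).Finite ∧ ∃ E : Set G, E.Finite ∧
          ∀ x ∈ bd T s'.1 \ E, ∀ y ∈ bd T s'.1 \ E, dist (x • o) (y • o) ≤ 1 / ((n : ℝ) + 1) := by
    rintro ⟨H, h1, h2, h3⟩ n
    obtain ⟨F0, hF0, hη⟩ := htail (1 / ((n : ℝ) + 1)) Nat.one_div_pos_of_nat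
    obtain ⟨H', e1, e2, e3, e4⟩ := step hh.symm hE h0 hφ hF0 hη h1 h2 h3
    refine ⟨⟨H', (e1.union h1).subset fun x hx => ?_, e2, e3⟩, e1, e4⟩
    by_cases h : x ∈ bd T H
    · exact Or.inr ⟨h, hx.2⟩
    · exact Or.inl ⟨hx.1, h⟩
  choose f hf1 E hE1 hE2 using hstep
  let u : ℕ → {H : Set G // (bd T H \ bd T H0).Finite ∧ In o p.1 H ∧ In o q.1 Hᶜ} :=
    fun n => Nat.rec ⟨H0, by simp, hp0, hq0⟩ (fun n s => f s n) n
  let L : ℕ → Filter G := fun n => cofinite ⊓ 𝓟 (bd T (u n).1)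
  have hL : Antitone L := antitone_nat_of_succ_le fun n => le_inf inf_le_left (le_principal_iff.2
    (mem_inf_principal.2 (mem_cofinite.2 ((hf1 (u n) n).subset fun x hx => Classical.not_imp.1 hx))))
  have hne : (⨅ n, L n).NeBot := iInf_neBot_of_directed hL.directed_ge fun n =>
    cofinite_inf_principal_neBot_iff.2 (hh.bd_infinite hs (u n).2.2.1 (u n).2.2.2)
  have hcof : (⨅ n, L n) ≤ cofinite := (iInf_le L 0).trans inf_le_left
  have hbd : ∀ n, bd T (u n).1 ∈ ⨅ n, L n := fun n =>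
    le_principal_iff.1 ((iInf_le L n).trans inf_le_right)
  have hD : ∀ n, bd T (u (n + 1)).1 \ E (u n) n ∈ ⨅ n, L n := fun n =>
    inter_mem (hbd (n + 1)) (hcof (hE1 _ _).compl_mem_cofinite)
  have hinf : ∀ A ∈ ⨅ n, L n, A.Infinite := fun A hA hf =>
    compl_notMem hA (hcof hf.compl_mem_cofinite)
  have hcau : Cauchy (map (fun g : G => g • o) (⨅ n, L n)) := by
    refine Metric.cauchy_iff.2 ⟨inferInstance, fun ε hε => ?_⟩
    obtain ⟨n, hn⟩ := exists_nat_one_div_lt hε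
    refine ⟨_, image_mem_map (hD n), ?_⟩
    rintro _ ⟨x, hx, rfl⟩ _ ⟨y, hy, rfl⟩
    exact (hE2 _ _ x hx y hy).trans_lt hn
  have := hs.cpl
  obtain ⟨y, hy⟩ := CompleteSpace.complete hcau
  have hball : ∀ ε : ℝ, 0 < ε → {g : G | dist (g • o) y < ε} ∈ ⨅ n, L n := fun ε hε =>
    hy (Metric.ball_mem_nhds y hε)
  refine ⟨⟨y, hs.not_vertex fun ε hε => hinf _ (hball ε hε)⟩, ?_, ?_, fun ε hε => ?_⟩
  · intro h
    obtain ⟨r, hr, hfin⟩ := hp0.bd_finite hs hh.symm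
    rw [← show y = p.1 from congrArg Subtype.val h] at hfin
    exact hinf _ (inter_mem (hbd 0) (hball r hr)) hfin
  · intro h
    obtain ⟨r, hr, hfin⟩ := hq0.bd_finite hs hh.symm
    rw [bd_compl, ← show y = q.1 from congrArg Subtype.val h] at hfin
    exact hinf _ (inter_mem (hbd 0) (hball r hr)) hfin
  · obtain ⟨n, hn⟩ := exists_nat_one_div_lt (half_pos hε)
    refine ⟨(u (n + 1)).1, (hE1 (u n) n).subset fun g hg => by_contra fun hgE => ?_,
      (u (n + 1)).2.2⟩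
    obtain ⟨g', hg1, hg2⟩ := (hinf _ (inter_mem (hD n) (hball _ (half_pos hε)))).nonempty
    have h1 := hE2 _ _ g ⟨hg.1, hgE⟩ g' hg1
    have h2 := dist_triangle (g • o) (g' • o) y
    have h3 : dist (g' • o) y < ε / 2 := hg2
    have h4 : ε ≤ dist (g • o) y := hg.2
    linarith

end Crest.Agent.R224
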