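import Crest.Agent.R224.Api

/-! Row 224, Stage IV-A: an infinite interval carries an invariant length (packing numbers). -/

namespace Crest.Agent.R224

open Crest.Agent.Lib.KyFan Set Filter Topology
open scoped Pointwise ENNReal

namespace LenAux

variable {G : Type} [Group G] {Y : Type} [MetricSpace Y] [MulAction G Y] {T : Finset G} {o : Y}

theorem Mono.btw {w : ℕ → Zt G o} (hw : Mono T w) {i j k : ℕ} (hij : i ≤ j) (hjk : j ≤ k) :
    Btw T (w i) (w j) (w k) := by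
  rcases hij.eq_or_lt with rfl | hij
  · exact btw_left _ _
  rcases hjk.eq_or_lt with rfl | hjk
  · exact btw_right _ _
  exact (hw i j k hij hjk).btw

theorem Mono.ne {w : ℕ → Zt G o} (hw : Mono T w) {i j : ℕ} (hij : i < j) : w i ≠ w j :=
  (hw i j (j + 1) hij (Nat.lt_succ_self j)).1

theorem mem_tail {w : ℕ → Zt G o} {n j : ℕ} (h : n ≤ j) : w j ∈ Tail T w n :=
  ⟨j, h, btw_right _ _⟩

theorem tail_convex (h : W T o) {w : ℕ → Zt G o} (hw : Mono T w) {n : ℕ} {u v x : Zt G o}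
    (hu : u ∈ Tail T w n) (hv : v ∈ Tail T w n) (hx : Btw T u x v) : x ∈ Tail T w n := by
  obtain ⟨j, hj, hu⟩ := hu
  obtain ⟨k, hk, hv⟩ := hv
  refine ⟨max j k, le_max_of_le_left hj, h.btw_convex ?_ ?_ hx⟩
  · exact h.btw_trans hu (Mono.btw hw hj (le_max_left _ _))
  · exact h.btw_trans hv (Mono.btw hw hk (le_max_right _ _))

/-- pairwise disjoint translates of `C` inside `X`. -/
def Pack (C X : Set (Zt G o)) (s : Finset G) : Prop :=
  (∀ g ∈ s, ∀ v ∈ C, g • v ∈ X) ∧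
    ∀ g ∈ s, ∀ g' ∈ s, g ≠ g' → ∀ v ∈ C, ∀ v' ∈ C, g • v ≠ g' • v'

noncomputable def pk (C X : Set (Zt G o)) : ℝ≥0∞ := ⨆ (s : Finset G) (_ : Pack C X s), s.card

omit [MetricSpace Y] in
theorem pack_empty (C X : Set (Zt G o)) : Pack C X (∅ : Finset G) := ⟨by simp, by simp⟩

omit [MetricSpace Y] in
theorem le_pk {C X : Set (Zt G o)} {s : Finset G} (h : Pack C X s) : (s.card : ℝ≥0∞) ≤ pk C X :=
  le_iSup₂_of_le (f := fun (s : Finset G) (_ : Pack C X s) => (s.card : ℝ≥0∞)) s h le_rfl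

omit [MetricSpace Y] in
theorem pk_dom {C X X' : Set (Zt G o)}
    (h : ∀ g : G, (∀ v ∈ C, g • v ∈ X) → ∀ v ∈ C, g • v ∈ X') : pk C X ≤ pk C X' :=
  iSup₂_le fun _ hs => le_pk ⟨fun g hg => h g (hs.1 g hg), hs.2⟩

omit [MetricSpace Y] in
theorem pk_smul (C X : Set (Zt G o)) (g : G) : pk C X ≤ pk C {v | g • v ∈ X} := by
  classical
  refine iSup₂_le fun s hs => ?_
  rw [← Finset.card_image_of_injective s (mul_right_injective g⁻¹)]
  refine le_pk ⟨?_, ?_⟩
  · intro z hz v hv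
    obtain ⟨x, hx, rfl⟩ := Finset.mem_image.1 hz
    simpa [mul_smul] using hs.1 x hx v hv
  · intro z hz z' hz' hne v hv v' hv' he
    obtain ⟨x, hx, rfl⟩ := Finset.mem_image.1 hz
    obtain ⟨x', hx', rfl⟩ := Finset.mem_image.1 hz'
    simp only [mul_smul, smul_left_cancel_iff] at he
    exact hs.2 x hx x' hx' (fun e => hne (by rw [e])) v hv v' hv' he

omit [MetricSpace Y] in
theorem pk_super {C X X1 X2 : Set (Zt G o)} (hC : C.Nonempty) (h1 : X1 ⊆ X) (h2 : X2 ⊆ X)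
    (hd : Disjoint X1 X2) : pk C X1 + pk C X2 ≤ pk C X := by
  classical
  refine ENNReal.biSup_add_biSup_le' ⟨∅, pack_empty _ _⟩ ⟨∅, pack_empty _ _⟩ fun s hs s' hs' => ?_
  obtain ⟨c, hc⟩ := hC
  have hdis : Disjoint s s' := Finset.disjoint_left.2 fun g hg hg' =>
    Set.disjoint_left.1 hd (hs.1 g hg c hc) (hs'.1 g hg' c hc)
  rw [← Nat.cast_add, ← Finset.card_union_of_disjoint hdis]
  refine le_pk ⟨fun g hg v hv => ?_, fun g hg g' hg' hne v hv v' hv' he => ?_⟩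
  · rcases Finset.mem_union.1 hg with hg | hg
    · exact h1 (hs.1 g hg v hv)
    · exact h2 (hs'.1 g hg v hv)
  · rcases Finset.mem_union.1 hg with hg | hg <;> rcases Finset.mem_union.1 hg' with hg' | hg'
    · exact hs.2 g hg g' hg' hne v hv v' hv' he
    · exact Set.disjoint_left.1 hd (hs.1 g hg v hv) (he ▸ hs'.1 g' hg' v' hv')
    · exact Set.disjoint_left.1 hd (hs.1 g' hg' v' hv') (he ▸ hs'.1 g hg v hv)
    · exact hs'.2 g hg g' hg' hne v hv v' hv' he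

theorem pk_split (h : W T o) {C X X1 X2 : Set (Zt G o)} {a b : Zt G o}
    (hC : ∀ u ∈ C, ∀ v ∈ C, ∀ x, Btw T u x v → x ∈ C) (hX : ∀ v ∈ X, Btw T a v b)
    (hU : X ⊆ X1 ∪ X2) (ho : ∀ u ∈ X1, ∀ v ∈ X2, Btw T a u v) :
    pk C X ≤ pk C X1 + pk C X2 + 1 := by
  classical
  refine iSup₂_le fun s hs => ?_
  set s1 := s.filter fun g => ∀ v ∈ C, g • v ∈ X1 with hs1
  set s2 := s.filter fun g => ∀ v ∈ C, g • v ∈ X2 with hs2
  set s3 := s.filter fun g => (∃ v ∈ C, g • v ∉ X1) ∧ ∃ v ∈ C, g • v ∉ X2 with hs3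
  have p1 : Pack C X1 s1 := ⟨fun g hg => (Finset.mem_filter.1 hg).2, fun g hg g' hg' =>
    hs.2 g (Finset.mem_filter.1 hg).1 g' (Finset.mem_filter.1 hg').1⟩
  have p2 : Pack C X2 s2 := ⟨fun g hg => (Finset.mem_filter.1 hg).2, fun g hg g' hg' =>
    hs.2 g (Finset.mem_filter.1 hg).1 g' (Finset.mem_filter.1 hg').1⟩
  have key : ∀ g ∈ s, ∀ g' ∈ s, ∀ u ∈ C, ∀ v ∈ C, ∀ u' ∈ C, g • v ∈ X2 → g' • u' ∈ X1 →
      Btw T a (g • u) (g' • u') → g = g' := by
    intro g hg g' hg' u hu v hv u' hu' h2 h1 hb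
    by_contra hne
    have h3 : Btw T (g • u) (g' • u') (g • v) := h.btw_trans' hb (ho _ h1 _ h2)
    have h4 : Btw T u (g⁻¹ • g' • u') v := by
      rw [← h.btw_smul g, smul_inv_smul]; exact h3
    exact hs.2 g hg g' hg' hne _ (hC u hu v hv _ h4) u' hu' (smul_inv_smul _ _)
  have p3 : s3.card ≤ 1 := by
    refine Finset.card_le_one.2 fun g hg g' hg' => ?_
    obtain ⟨hg, ⟨v, hv, hv1⟩, u, hu, hu2⟩ := Finset.mem_filter.1 hg
    obtain ⟨hg', ⟨v', hv', hv1'⟩, u', hu', hu2'⟩ := Finset.mem_filter.1 hg'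
    have a1 := (hU (hs.1 g hg v hv)).resolve_left hv1
    have a2 := (hU (hs.1 g hg u hu)).resolve_right hu2
    have a1' := (hU (hs.1 g' hg' v' hv')).resolve_left hv1'
    have a2' := (hU (hs.1 g' hg' u' hu')).resolve_right hu2'
    rcases h.btw_total (hX _ (hs.1 g hg u hu)) (hX _ (hs.1 g' hg' u' hu')) with hb | hb
    · exact key g hg g' hg' u hu v hv u' hu' a1 a2' hb
    · exact (key g' hg' g hg u' hu' v' hv' u hu a1' a2 hb).symm
  have hsub : s ⊆ s1 ∪ s2 ∪ s3 := by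
    intro g hg
    simp only [hs1, hs2, hs3, Finset.mem_union, Finset.mem_filter, hg, true_and]
    by_contra hn
    push Not at hn
    obtain ⟨⟨h1, h2⟩, h3⟩ := hn
    obtain ⟨v, hv, hv'⟩ := h2
    exact hv' (h3 h1 v hv)
  have hc : s.card ≤ s1.card + s2.card + 1 :=
    (Finset.card_le_card hsub).trans ((Finset.card_union_le _ _).trans
      (add_le_add (Finset.card_union_le _ _) p3))
  calc (s.card : ℝ≥0∞) ≤ s1.card + s2.card + 1 := by exact_mod_cast hc
    _ ≤ _ := by gcongr <;> exact le_pk ‹_›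

theorem pk_ne_top (hPF : PF T o) {w : ℕ → Zt G o} (hw : Mono T w) (n : ℕ) {a a' b b' : Zt G o}
    (ha : a ≠ a') (hb : b ≠ b') : pk (Tail T w n) (Core T a a' b b') ≠ ⊤ := by
  have hf := hPF (w n) (w (n + 3)) (w (n + 1)) (w (n + 2)) a a' b b' (Mono.ne hw (by omega))
    (hw _ _ _ (by omega) (by omega)) (hw _ _ _ (by omega) (by omega)) ha hb
  refine ne_top_of_le_ne_top (ENNReal.natCast_ne_top hf.toFinset.card) (iSup₂_le fun s hs => ?_)
  refine Nat.cast_le.2 (Finset.card_le_card fun g hg => ?_)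
  simp only [Finite.mem_toFinset]
  exact ⟨hs.1 g hg _ (mem_tail le_rfl), hs.1 g hg _ (mem_tail (by omega))⟩

/-- the properties of the limiting set function. -/
structure Mu (T : Finset G) (y : ℕ → Zt G o) (τ : Fin 3 → Zt G o) (μ : Set (Zt G o) → ℝ≥0∞) :
    Prop where
  dom : ∀ X X', (∀ (n : ℕ) (g : G), (∀ v ∈ Tail T y n, g • v ∈ X) →
    ∀ v ∈ Tail T y n, g • v ∈ X') → μ X ≤ μ X'
  empty : μ ∅ = 0
  smul : ∀ X (g : G), μ X ≤ μ {v | g • v ∈ X}
  super : ∀ X X1 X2, X1 ⊆ X → X2 ⊆ X → Disjoint X1 X2 → μ X1 + μ X2 ≤ μ X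
  split : ∀ X X1 X2 a b, (∀ v ∈ X, Btw T a v b) → X ⊆ X1 ∪ X2 →
    (∀ u ∈ X1, ∀ v ∈ X2, Btw T a u v) → μ X ≤ μ X1 + μ X2
  le_one : ∀ i j k l, ∀ t ∈ T, i ≠ j → k ≠ l → μ (Core T (τ i) (τ j) (t • τ k) (t • τ l)) ≤ 1
  pos : ∃ i j k l, ∃ t ∈ T, i ≠ j ∧ k ≠ l ∧ μ (Core T (τ i) (τ j) (t • τ k) (t • τ l)) ≠ 0

theorem exists_mu (h : W T o) (hPF : PF T o) (hG : Germ T o) {y : ℕ → Zt G o} (hy : Mono T y)
    (hb : ∃ r b, Sep T r (y 0) b ∧ ∀ j, Btw T (y 0) (y j) r) {τ : Fin 3 → Zt G o}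
    (hτ : Function.Injective τ) : ∃ μ, Mu T y τ μ := by
  classical
  set Θ : Finset (Fin 3 × Fin 3 × Fin 3 × Fin 3 × G) :=
    (Finset.univ ×ˢ Finset.univ ×ˢ Finset.univ ×ˢ Finset.univ ×ˢ T).filter
      fun θ => θ.1 ≠ θ.2.1 ∧ θ.2.2.1 ≠ θ.2.2.2.1 with hΘ
  set Co : Fin 3 × Fin 3 × Fin 3 × Fin 3 × G → Set (Zt G o) := fun θ =>
    Core T (τ θ.1) (τ θ.2.1) (θ.2.2.2.2 • τ θ.2.2.1) (θ.2.2.2.2 • τ θ.2.2.2.1) with hCo
  have memΘ : ∀ i j k l t, (i, j, k, l, t) ∈ Θ ↔ t ∈ T ∧ i ≠ j ∧ k ≠ l := by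
    intro i j k l t; simp [hΘ]
  set N : ℕ → ℝ≥0∞ := fun n => ∑ θ ∈ Θ, pk (Tail T y n) (Co θ) with hN
  have Ntop : ∀ n, N n ≠ ⊤ := by
    intro n
    refine ENNReal.sum_ne_top.2 ?_
    rintro ⟨i, j, k, l, t⟩ hθ
    obtain ⟨-, hij, hkl⟩ := (memΘ _ _ _ _ _).1 hθ
    exact pk_ne_top hPF hy n (fun e => hij (hτ e)) fun e => hkl (hτ (MulAction.injective t e))
  have Nbig : ∀ K : ℕ, ∀ᶠ n in atTop, (K : ℝ≥0∞) ≤ N n := by
    intro K
    obtain ⟨i, j, k, l, t, x, n0, hij, hkl, ht, hx⟩ := hG τ y hτ hy hb K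
    filter_upwards [eventually_ge_atTop n0] with n hn
    obtain ⟨h1, h2⟩ := hx n hn
    have hinj : Function.Injective x := fun m m' he => by
      by_contra hne
      exact h2 m m' hne _ (mem_tail le_rfl) _ (mem_tail le_rfl) (by rw [he])
    have hp : Pack (Tail T y n) (Co (i, j, k, l, t)) (Finset.univ.image x) := by
      refine ⟨fun g hg => ?_, fun g hg g' hg' hne => ?_⟩
      · obtain ⟨m, -, rfl⟩ := Finset.mem_image.1 hg
        exact h1 m
      · obtain ⟨m, -, rfl⟩ := Finset.mem_image.1 hg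
        obtain ⟨m', -, rfl⟩ := Finset.mem_image.1 hg'
        exact h2 m m' fun e => hne (by rw [e])
    have h3 := le_pk hp
    rw [Finset.card_image_of_injective _ hinj, Finset.card_univ, Fintype.card_fin] at h3
    exact h3.trans (Finset.single_le_sum (f := fun θ => pk (Tail T y n) (Co θ))
      (fun _ _ => zero_le) ((memΘ _ _ _ _ _).2 ⟨ht, hij, hkl⟩))
  set 𝒰 : Ultrafilter ℕ := hyperfilter ℕ with h𝒰
  have hU : (𝒰 : Filter ℕ) ≤ atTop := Nat.hyperfilter_le_atTop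
  set f : Set (Zt G o) → ℕ → ℝ≥0∞ := fun X n => pk (Tail T y n) X / N n with hf
  set μ : Set (Zt G o) → ℝ≥0∞ := fun X => (𝒰.map (f X)).lim with hμ
  have hlim : ∀ X, Tendsto (f X) (𝒰 : Filter ℕ) (𝓝 (μ X)) := fun X => (𝒰.map (f X)).le_nhds_lim
  have hinv : Tendsto (fun n => 1 / N n) (𝒰 : Filter ℕ) (𝓝 0) := by
    refine Tendsto.mono_left ?_ hU
    refine ENNReal.tendsto_nhds_zero.2 fun ε hε => ?_
    obtain ⟨K, hK⟩ := ENNReal.exists_inv_nat_lt hε.ne'
    filter_upwards [Nbig K] with n hn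
    rw [one_div]
    exact (ENNReal.inv_le_inv.2 hn).trans hK.le
  have hsum : ∑ θ ∈ Θ, μ (Co θ) = 1 := by
    refine tendsto_nhds_unique (tendsto_finsetSum Θ fun θ _ => hlim (Co θ)) ?_
    refine tendsto_const_nhds.congr' ?_
    filter_upwards [hU (Nbig 1)] with n hn
    simp only [hf, div_eq_mul_inv]
    rw [← Finset.sum_mul]
    refine (ENNReal.mul_inv_cancel (fun e => ?_) (Ntop n)).symm
    have hn' : ((1 : ℕ) : ℝ≥0∞) ≤ N n := hn
    rw [e] at hn'
    simp at hn'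
  clear_value μ
  refine ⟨μ, ?_, ?_, ?_, ?_, ?_, ?_, ?_⟩
  · intro X X' hd
    exact le_of_tendsto_of_tendsto' (hlim X) (hlim X') fun n =>
      ENNReal.div_le_div_right (pk_dom (hd n)) _
  · refine tendsto_nhds_unique (hlim ∅) (tendsto_const_nhds.congr fun n => ?_)
    have : pk (Tail T y n) (∅ : Set (Zt G o)) = 0 := by
      refine le_antisymm (iSup₂_le fun s hs => ?_) zero_le
      rcases s.eq_empty_or_nonempty with rfl | ⟨g, hg⟩
      · simp
      · exact absurd (hs.1 g hg _ (mem_tail le_rfl)) (notMem_empty _)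
    simp [hf, this]
  · intro X g
    exact le_of_tendsto_of_tendsto' (hlim X) (hlim _) fun n =>
      ENNReal.div_le_div_right (pk_smul _ _ g) _
  · intro X X1 X2 h1 h2 hd
    refine le_of_tendsto_of_tendsto' ((hlim X1).add (hlim X2)) (hlim X) fun n => ?_
    simp only [hf]
    rw [← ENNReal.add_div]
    exact ENNReal.div_le_div_right (pk_super ⟨_, mem_tail le_rfl⟩ h1 h2 hd) _
  · intro X X1 X2 a b hX hU' ho
    have := ((hlim X1).add (hlim X2)).add hinv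
    rw [add_zero] at this
    refine le_of_tendsto_of_tendsto' (hlim X) this fun n => ?_
    simp only [hf]
    rw [← ENNReal.add_div, ← ENNReal.add_div]
    exact ENNReal.div_le_div_right
      (pk_split h (fun u hu v hv x hx => tail_convex h hy hu hv hx) hX hU' ho) _
  · intro i j k l t ht hij hkl
    exact (Finset.single_le_sum (f := fun θ => μ (Co θ)) (fun _ _ => zero_le)
      ((memΘ i j k l t).2 ⟨ht, hij, hkl⟩)).trans hsum.le
  · by_contra hn
    push Not at hn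
    rw [Finset.sum_eq_zero] at hsum
    · exact zero_ne_one hsum
    rintro ⟨i, j, k, l, t⟩ hθ
    obtain ⟨ht, hij, hkl⟩ := (memΘ _ _ _ _ _).1 hθ
    exact hn i j k l t ht hij hkl

variable {y : ℕ → Zt G o} {τ : Fin 3 → Zt G o} {μ : Set (Zt G o) → ℝ≥0∞}

theorem Mu.mono (hμ : Mu T y τ μ) {X X' : Set (Zt G o)} (hX : X ⊆ X') : μ X ≤ μ X' :=
  hμ.dom X X' fun _ _ hg v hv => hX (hg v hv)

theorem Mu.single (hμ : Mu T y τ μ) (hy : Mono T y) (w : Zt G o) : μ {w} = 0 := by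
  refine le_antisymm ?_ zero_le
  rw [← hμ.empty]
  refine hμ.dom _ _ fun n g hg => ?_
  have h1 := hg _ (mem_tail le_rfl)
  have h2 := hg _ (mem_tail (Nat.le_succ n))
  rw [mem_singleton_iff] at h1 h2
  exact absurd (MulAction.injective g (h1.trans h2.symm)) (Mono.ne hy (Nat.lt_succ_self n))

theorem Mu.sum_le (hμ : Mu T y τ μ) {ι : Type} (s : Finset ι) (X : ι → Set (Zt G o))
    (hd : ∀ i ∈ s, ∀ j ∈ s, i ≠ j → Disjoint (X i) (X j)) :
    ∑ i ∈ s, μ (X i) ≤ μ (⋃ i ∈ s, X i) := by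
  classical
  induction s using Finset.induction_on with
  | empty => simp
  | insert a s ha ih =>
    rw [Finset.sum_insert ha, Finset.set_biUnion_insert]
    refine (add_le_add le_rfl (ih fun i hi j hj =>
      hd i (Finset.mem_insert_of_mem hi) j (Finset.mem_insert_of_mem hj))).trans ?_
    refine hμ.super _ _ _ subset_union_left subset_union_right ?_
    refine disjoint_iUnion₂_right.2 fun j hj => hd a (Finset.mem_insert_self _ _) j
      (Finset.mem_insert_of_mem hj) fun e => ha (e ▸ hj)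

/-- there are no one-sided atoms. -/
theorem Mu.no_atom (h : W T o) (hG : Germ T o) (hτ : Function.Injective τ) (hμ : Mu T y τ μ)
    {a b b' s : Zt G o} (hs : Sep T s b b') {Λ : Set (Zt G o)}
    (hΛ : ∀ v ∈ Λ, Btw T a v b ∧ Btw T a v b') (hne : Λ.Nonempty) {ε : ℝ≥0∞} (hε : ε ≠ 0)
    (hb : ∀ w ∈ Λ, ε ≤ μ {v | v ∈ Λ ∧ Btw T a w v ∧ v ≠ w}) : False := by
  have : Countable G := countable_of_gen h.hyp.gen
  obtain ⟨w0, hw0⟩ := hne
  have hc : (insert w0 (Λ ∩ range fun p : G × ℕ => p.1 • y p.2)).Countable :=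
    ((countable_range _).mono inter_subset_right).insert _
  obtain ⟨d, hd⟩ := hc.exists_eq_range (insert_nonempty _ _)
  have hdΛ : ∀ i, d i ∈ Λ := fun i => by
    have : d i ∈ insert w0 (Λ ∩ range fun p : G × ℕ => p.1 • y p.2) := hd ▸ mem_range_self i
    rcases this with e | e
    · exact e ▸ hw0
    · exact e.1
  have step : ∀ (i : ℕ) (w : Λ), ∃ w' : Λ, Btw T a w.1 w'.1 ∧ w'.1 ≠ w.1 ∧ Btw T a (d i) w'.1 := by
    intro i w
    have up : ∀ w ∈ Λ, ∃ v, v ∈ Λ ∧ Btw T a w v ∧ v ≠ w := fun w hw => by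
      by_contra hn
      have := hb w hw
      rw [show {v | v ∈ Λ ∧ Btw T a w v ∧ v ≠ w} = ∅ from eq_empty_of_forall_notMem
        fun v hv => hn ⟨v, hv⟩, hμ.empty] at this
      exact hε (le_antisymm this zero_le)
    rcases h.btw_total (hΛ _ w.2).1 (hΛ _ (hdΛ i)).1 with h1 | h1
    · obtain ⟨v, hv, h2, h3⟩ := up _ (hdΛ i)
      refine ⟨⟨v, hv⟩, h.btw_trans h1 h2, fun e => h3 ?_, h2⟩
      simp only at e
      rw [e] at h2 ⊢
      exact h.btw_antisymm h1 h2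
    · obtain ⟨v, hv, h2, h3⟩ := up _ w.2
      exact ⟨⟨v, hv⟩, h2, h3, h.btw_trans h1 h2⟩
  choose nx hnx using step
  let w' : ℕ → Λ := fun n => Nat.rec ⟨w0, hw0⟩ (fun i w => nx i w) n
  let w : ℕ → Zt G o := fun n => (w' n).1
  have hwΛ : ∀ n, w n ∈ Λ := fun n => (w' n).2
  have hw1 : ∀ n, Btw T a (w n) (w (n + 1)) ∧ w (n + 1) ≠ w n ∧ Btw T a (d n) (w (n + 1)) :=
    fun n => hnx n (w' n)
  have hle : ∀ i j, i ≤ j → Btw T a (w i) (w j) := by
    intro i j hij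
    induction hij with
    | refl => exact btw_right _ _
    | step _ ih => exact h.btw_trans ih (hw1 _).1
  have hlt : ∀ i j, i < j → w i ≠ w j := by
    intro i j hij e
    have h1 := hle (i + 1) j hij
    rw [← e] at h1
    exact (hw1 i).2.1 (h.btw_antisymm h1 (hw1 i).1)
  have hw : Mono T w := fun i j k hij hjk =>
    (h.btw_trans' (hle i j hij.le) (hle j k hjk.le)).sep (hlt i j hij).symm (hlt j k hjk)
  have htail : ∀ i, ε ≤ μ (Tail T w i) := by
    intro i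
    refine (hb _ (hwΛ i)).trans (hμ.dom _ _ fun n g hg v hv => ?_)
    obtain ⟨k, hk, hv'⟩ := id hv
    have dom : ∀ k, n ≤ k → ∃ m, Btw T a (g • y k) (w m) := by
      intro k hk
      have h1 : g • y k ∈ range d := hd ▸ Or.inr ⟨(hg _ (mem_tail hk)).1, (g, k), rfl⟩
      obtain ⟨m, hm⟩ := h1
      exact ⟨m + 1, hm ▸ (hw1 m).2.2⟩
    obtain ⟨m1, h1⟩ := dom n le_rfl
    obtain ⟨m2, h2⟩ := dom k hk
    refine ⟨max i (max m1 m2), le_max_left _ _, h.btw_trans' (hg v hv).2.1 ?_⟩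
    refine h.btw_convex (h.btw_trans h1 (hle _ _ (by omega))) (h.btw_trans h2 (hle _ _ (by omega)))
      ((h.btw_smul g).2 hv')
  have hbey : ∀ j, Btw T (w 0) (w j) s := by
    intro j
    have h1 : Btw T (w 0) (w j) b := h.btw_trans' (hle 0 j (Nat.zero_le j)) (hΛ _ (hwΛ j)).1
    have h2 : Btw T (w 0) (w j) b' := h.btw_trans' (hle 0 j (Nat.zero_le j)) (hΛ _ (hwΛ j)).2
    rcases h.btw_or h1 s with h3 | h3
    · exact h3
    rcases h.btw_or h2 s with h4 | h4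
    · exact h4
    rcases h.btw_or hs.btw (w j) with h5 | h5
    · rw [h.btw_antisymm h3.symm h5]; exact btw_right _ _
    · rw [h.btw_antisymm h4.symm h5.symm]; exact btw_right _ _
  have hs0 : w 0 ≠ s := fun e => by
    have := hbey 1
    rw [← e] at this
    exact hlt 0 1 one_pos (h.btw_self this).symm
  have hgerm : ∃ r b, Sep T r (w 0) b ∧ ∀ j, Btw T (w 0) (w j) r := by
    rcases h.sep_or hs hs0 with h1 | h1
    · exact ⟨s, b, h1.symm, hbey⟩
    · exact ⟨s, b', h1, hbey⟩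
  obtain ⟨K, hK⟩ := ENNReal.exists_nat_mul_gt hε ENNReal.one_ne_top
  obtain ⟨i, j, k, l, t, x, n0, hij, hkl, ht, hx⟩ := hG τ w hτ hw hgerm K
  obtain ⟨h1, h2⟩ := hx n0 le_rfl
  have h3 := hμ.sum_le Finset.univ (fun m => {v | (x m)⁻¹ • v ∈ Tail T w n0}) (by
    intro m _ m' _ hne
    refine Set.disjoint_left.2 fun v hv hv' => h2 m m' hne _ hv _ hv' ?_
    rw [smul_inv_smul, smul_inv_smul])
  have h4 : μ (⋃ m ∈ (Finset.univ : Finset (Fin K)), {v | (x m)⁻¹ • v ∈ Tail T w n0}) ≤ 1 := by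
    refine (hμ.mono ?_).trans (hμ.le_one i j k l t ht hij hkl)
    refine iUnion₂_subset fun m _ v hv => ?_
    have := h1 m _ hv
    rwa [smul_inv_smul] at this
  have h5 : (K : ℝ≥0∞) * ε ≤ ∑ m : Fin K, μ {v | (x m)⁻¹ • v ∈ Tail T w n0} := by
    calc (K : ℝ≥0∞) * ε = ∑ _m : Fin K, ε := by simp
      _ ≤ _ := Finset.sum_le_sum fun m _ => (htail n0).trans (hμ.smul _ _)
  exact absurd (h5.trans (h3.trans h4)) (not_le.2 hK)

theorem Mu.len (h : W T o) (hG : Germ T o) (hτ : Function.Injective τ) (hy : Mono T y)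
    (hμ : Mu T y τ μ) {a a' b b' : Zt G o} (ha : ∃ s, Sep T s a a') (hb : ∃ s, Sep T s b b')
    (h1 : μ (Core T a a' b b') ≤ 1) (h0 : μ (Core T a a' b b') ≠ 0) :
    ∃ (A B : Zt G o) (t : Zt G o → ℝ), Len T A B t := by
  set Λ := Core T a a' b b' with hΛ
  have fin : ∀ X, X ⊆ Λ → μ X ≠ ⊤ := fun X hX =>
    ne_top_of_le_ne_top ENNReal.one_ne_top ((hμ.mono hX).trans h1)
  set m : Set (Zt G o) → ℝ := fun X => (μ X).toReal with hm
  have m_mono : ∀ X X', X ⊆ X' → X' ⊆ Λ → m X ≤ m X' := fun X X' hX hX' =>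
    ENNReal.toReal_mono (fin _ hX') (hμ.mono hX)
  have m_split : ∀ X X1 X2, X ⊆ Λ → X1 ⊆ Λ → X2 ⊆ Λ → X ⊆ X1 ∪ X2 →
      (∀ u ∈ X1, ∀ v ∈ X2, Btw T a u v) → m X ≤ m X1 + m X2 := by
    intro X X1 X2 hX hX1 hX2 hU ho
    simp only [hm]
    rw [← ENNReal.toReal_add (fin _ hX1) (fin _ hX2)]
    exact ENNReal.toReal_mono (ENNReal.add_ne_top.2 ⟨fin _ hX1, fin _ hX2⟩)
      (hμ.split X X1 X2 a b (fun v hv => (hX hv).1) hU ho)
  have m_super : ∀ X X1 X2, X ⊆ Λ → X1 ⊆ X → X2 ⊆ X → Disjoint X1 X2 → m X1 + m X2 ≤ m X := by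
    intro X X1 X2 hX hX1 hX2 hd
    simp only [hm]
    rw [← ENNReal.toReal_add (fin _ (hX1.trans hX)) (fin _ (hX2.trans hX))]
    exact ENNReal.toReal_mono (fin _ hX) (hμ.super X X1 X2 hX1 hX2 hd)
  have m_single : ∀ w, m {w} = 0 := fun w => by simp [hm, hμ.single hy w]
  have m_empty : m ∅ = 0 := by simp [hm, hμ.empty]
  have m_ge : ∀ (e : ℝ) X, X ⊆ Λ → e ≤ m X → ENNReal.ofReal e ≤ μ X := fun e X hX he =>
    (ENNReal.ofReal_le_iff_le_toReal (fin _ hX)).2 he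
  set L : Zt G o → Set (Zt G o) := fun w => {v | v ∈ Λ ∧ Btw T a v w} with hL
  have LΛ : ∀ w, L w ⊆ Λ := fun w v hv => hv.1
  set t : Zt G o → ℝ := fun w => m (L w) with ht
  have t_mono : ∀ v w, Btw T a v w → t v ≤ t w := fun v w hvw =>
    m_mono _ _ (fun u hu => ⟨hu.1, h.btw_trans hu.2 hvw⟩) (LΛ w)
  have t_lt : ∀ v ∈ Λ, ∀ w ∈ Λ, t v < t w → Btw T a v w := fun v hv w hw hlt =>
    (h.btw_total hv.1 hw.1).resolve_right fun h2 => absurd (t_mono _ _ h2) (not_le.2 hlt)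
  have rev : ∀ v ∈ Λ, ∀ w ∈ Λ, Btw T a v w → Btw T b w v := fun v _ w hw hvw =>
    (h.btw_trans' hvw hw.1).symm
  have dens : ∀ c c' : ℝ, 0 ≤ c → c < c' → c' ≤ m Λ → ∃ w ∈ Λ, c < t w ∧ t w < c' := by
    intro c c' hc hcc hc'
    by_contra hn
    push Not at hn
    set Λ1 := {w | w ∈ Λ ∧ t w ≤ c} with hΛ1
    set Λ2 := {w | w ∈ Λ ∧ c' ≤ t w} with hΛ2
    have s1 : Λ1 ⊆ Λ := fun w hw => hw.1
    have s2 : Λ2 ⊆ Λ := fun w hw => hw.1
    have hU : Λ ⊆ Λ1 ∪ Λ2 := fun w hw => by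
      by_cases h2 : c < t w
      · exact Or.inr ⟨hw, hn w hw h2⟩
      · exact Or.inl ⟨hw, not_lt.1 h2⟩
    have ho : ∀ u ∈ Λ1, ∀ v ∈ Λ2, Btw T a u v := fun u hu v hv =>
      t_lt u hu.1 v hv.1 (by linarith [hu.2, hv.2])
    have he : ENNReal.ofReal ((c' - c) / 2) ≠ 0 := by
      simp only [ne_eq, ENNReal.ofReal_eq_zero, not_le]; linarith
    by_cases hmid : (c + c') / 2 < m Λ1
    · obtain ⟨s, hs⟩ := hb
      refine hμ.no_atom h hG hτ (a := a) hs (Λ := Λ1) (fun v hv => ⟨hv.1.1, hv.1.2.1⟩) ?_ he ?_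
      · rw [nonempty_iff_ne_empty]
        intro e
        rw [e, m_empty] at hmid
        linarith
      · intro w hw
        refine m_ge _ _ (fun v hv => hv.1.1) ?_
        have := m_split Λ1 (L w) {v | v ∈ Λ1 ∧ Btw T a w v ∧ v ≠ w} s1 (LΛ w)
          (fun v hv => hv.1.1) (fun v hv => by
            by_cases h2 : Btw T a v w
            · exact Or.inl ⟨hv.1, h2⟩
            · refine Or.inr ⟨hv, (h.btw_total hv.1.1 hw.1.1).resolve_left h2, fun e => h2 ?_⟩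
              rw [e]; exact btw_right _ _)
          (fun u hu v hv => h.btw_trans hu.2 hv.2.1)
        have h3 : m (L w) ≤ c := hw.2
        linarith
    · obtain ⟨s, hs⟩ := ha
      have h4 := m_split Λ Λ1 Λ2 subset_rfl s1 s2 hU ho
      refine hμ.no_atom h hG hτ (a := b) hs (Λ := Λ2)
        (fun v hv => ⟨hv.1.1.symm, hv.1.2.2.1.symm⟩) ?_ he ?_
      · rw [nonempty_iff_ne_empty]
        intro e
        rw [e, m_empty] at h4
        linarith
      · intro w hw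
        refine m_ge _ _ (fun v hv => hv.1.1) ?_
        have k1 := m_split (L w) Λ1 (Λ2 ∩ L w) (LΛ w) s1 (fun v hv => hv.1.1)
          (fun v hv => (hU hv.1).imp id fun h2 => ⟨h2, hv⟩) (fun u hu v hv => ho u hu v hv.1)
        have k2 := m_split (Λ2 ∩ L w) {v | v ∈ Λ2 ∧ Btw T b w v ∧ v ≠ w} {w} (fun v hv => hv.1.1)
          (fun v hv => hv.1.1) (singleton_subset_iff.2 hw.1) (fun v hv => by
            by_cases h2 : v = w
            · exact Or.inr h2
            · exact Or.inl ⟨hv.1, rev v hv.1.1 w hw.1 hv.2.2, h2⟩)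
          (fun u hu v hv => by
            rw [mem_singleton_iff.1 hv]
            exact (h.btw_trans' hu.2.1 hu.1.1.1.symm).symm)
        have h3 : c' ≤ m (L w) := hw.2
        rw [m_single] at k2
        linarith
  have diff0 : ∀ v ∈ Λ, ∀ w ∈ Λ, Btw T a v w → t w - t v = m {u | Btw T v u w} := by
    intro v hv w hw hvw
    have sI : {u | Btw T v u w} ⊆ Λ := fun u hu => h.core_convex hv hw hu
    have k1 := m_split (L w) (L v) {u | Btw T v u w} (LΛ w) (LΛ v) sI (fun u hu => by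
        rcases h.btw_total hu.1.1 hv.1 with h2 | h2
        · exact Or.inl ⟨hu.1, h2⟩
        · exact Or.inr (h.btw_trans' h2 hu.2))
      (fun u hu u' hu' => h.btw_trans hu.2 ((h.btw_order hvw).1 hu').1)
    have k2 := m_split {u | Btw T v u w} {v} {u | Btw T v u w ∧ u ≠ v} sI
      (singleton_subset_iff.2 hv) (fun u hu => sI hu.1) (fun u hu => by
        by_cases h2 : u = v
        · exact Or.inl h2
        · exact Or.inr ⟨hu, h2⟩)
      (fun u hu u' hu' => by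
        rw [mem_singleton_iff.1 hu]; exact ((h.btw_order hvw).1 hu'.1).1)
    have k3 := m_super (L w) (L v) {u | Btw T v u w ∧ u ≠ v} (LΛ w)
      (fun u hu => ⟨hu.1, h.btw_trans hu.2 hvw⟩)
      (fun u hu => ⟨sI hu.1, ((h.btw_order hvw).1 hu.1).2⟩)
      (Set.disjoint_left.2 fun u hu hu' =>
        hu'.2 (h.btw_antisymm hu.2 ((h.btw_order hvw).1 hu'.1).1))
    rw [m_single] at k2
    simp only [ht]
    linarith
  have diff : ∀ v ∈ Λ, ∀ w ∈ Λ, |t v - t w| = m {u | Btw T v u w} := by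
    intro v hv w hw
    rcases h.btw_total hv.1 hw.1 with h2 | h2
    · rw [abs_sub_comm, abs_of_nonneg (sub_nonneg.2 (t_mono _ _ h2)), diff0 v hv w hw h2]
    · rw [abs_of_nonneg (sub_nonneg.2 (t_mono _ _ h2)), diff0 w hw v hv h2]
      congr 1
      exact Set.ext fun u => ⟨Btw.symm, Btw.symm⟩
  have minv : ∀ (g : G) v w, m {u | Btw T (g • v) u (g • w)} = m {u | Btw T v u w} := by
    intro g v w
    simp only [hm]
    congr 1
    refine le_antisymm ((hμ.smul _ g).trans (hμ.mono fun u hu => (h.btw_smul g).1 hu))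
      ((hμ.smul _ g⁻¹).trans (hμ.mono fun u hu => ?_))
    have := (h.btw_smul g).2 (show Btw T v (g⁻¹ • u) w from hu)
    rwa [smul_inv_smul] at this
  have hδ : 0 < m Λ := ENNReal.toReal_pos h0 (fin _ subset_rfl)
  obtain ⟨A, hA, -, hA1⟩ := dens 0 (m Λ / 3) le_rfl (by linarith) (by linarith)
  obtain ⟨B, hB, hB0, hB1⟩ := dens (2 * m Λ / 3) (m Λ) (by linarith) (by linarith) le_rfl
  have hA0 : 0 ≤ t A := ENNReal.toReal_nonneg
  have hd : 0 < t B - t A := by linarith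
  have hAB : Btw T a A B := t_lt A hA B hB (by linarith)
  have inΛ : ∀ w, Btw T A w B → w ∈ Λ := fun w hw => h.core_convex hA hB hw
  refine ⟨A, B, fun w => (t w - t A) / (t B - t A), by simp, div_self hd.ne', ?_, ?_, ?_⟩
  · intro v w hvw hw
    have h2 : Btw T a A w := ((h.btw_order hAB).1 hw).1
    have h3 : Btw T a v w := ((h.btw_order h2).1 hvw).2
    exact div_le_div_of_nonneg_right (sub_le_sub_right (t_mono _ _ h3) _) hd.le
  · intro c c' hc hcc hc'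
    obtain ⟨w, hw, h2, h3⟩ := dens (t A + c * (t B - t A)) (t A + c' * (t B - t A))
      (by positivity) (by nlinarith) (by nlinarith)
    refine ⟨w, h.btw_trans' (t_lt A hA w hw (by nlinarith)) (t_lt w hw B hB (by nlinarith)), ?_, ?_⟩
    · rw [lt_div_iff₀ hd]; linarith
    · rw [div_lt_iff₀ hd]; linarith
  · intro g v w hv hw hgv hgw
    rw [← sub_div, ← sub_div, abs_div, abs_div, sub_sub_sub_cancel_right, sub_sub_sub_cancel_right,
      diff _ (inΛ _ hgv) _ (inΛ _ hgw), diff _ (inΛ _ hv) _ (inΛ _ hw), minv]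

theorem len_of_seq (h : W T o) (hPF : PF T o) (hG : Germ T o) {y0 y0' : Zt G o}
    (hc : IsCP T y0') {y : ℕ → Zt G o} (hinj : Function.Injective y)
    (hI : ∀ n, Sep T (y n) y0 y0') (hm : ∀ m n, m < n → Btw T y0 (y m) (y n)) :
    ∃ (A B : Zt G o) (t : Zt G o → ℝ), Len T A B t := by
  have hy : Mono T y := fun i j k hij hjk =>
    (h.btw_trans' (hm i j hij) (hm j k hjk)).sep (fun e => hij.ne' (hinj e)) fun e => hjk.ne (hinj e)
  have hb : ∃ r b, Sep T r (y 0) b ∧ ∀ j, Btw T (y 0) (y j) r := by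
    obtain ⟨a0, b0, hs⟩ := hc
    have hbey : ∀ j, Btw T (y 0) (y j) y0' := fun j => by
      rcases Nat.eq_zero_or_pos j with rfl | hj
      · exact btw_left _ _
      · exact h.btw_trans' (hm 0 j hj) (hI j).btw
    rcases h.sep_or hs (hI 0).2.1.symm with h1 | h1
    · exact ⟨y0', a0, h1.symm, hbey⟩
    · exact ⟨y0', b0, h1, hbey⟩
  set τ : Fin 3 → Zt G o := fun i => y (2 * i) with hτdef
  have hτ : Function.Injective τ := fun i j e => by
    have := hinj e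
    exact Fin.ext (by omega)
  have hsep : ∀ i j, i ≠ j → ∃ s, Sep T s (τ i) (τ j) := by
    intro i j hij
    rcases lt_or_gt_of_ne (Fin.val_ne_of_ne hij) with h1 | h1
    · exact ⟨y (2 * i + 1), hy _ _ _ (by omega) (by omega)⟩
    · exact ⟨y (2 * j + 1), (hy _ _ _ (by omega) (by omega)).symm⟩
  obtain ⟨μ, hμ⟩ := exists_mu h hPF hG hy hb hτ
  obtain ⟨i, j, k, l, t, ht, hij, hkl, h0⟩ := hμ.pos
  refine hμ.len h hG hτ hy (hsep i j hij) ?_ (hμ.le_one i j k l t ht hij hkl) h0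
  obtain ⟨s, hs⟩ := hsep k l hkl
  exact ⟨t • s, (h.sep_smul t).2 hs⟩

end LenAux

open LenAux

theorem lenP : LenP := by
  intro G _ Y _ _ T o h hPF hG hF
  simp only [FinI, not_forall] at hF
  obtain ⟨y0, y0', h0, h0', hinf⟩ := hF
  have hinf' : {r | Sep T r y0 y0'}.Infinite := hinf
  let e := hinf'.natEmbedding
  have : IsTrans (Zt G o) fun u v => Btw T y0 u v := ⟨fun _ _ _ h1 h2 => h.btw_trans h1 h2⟩
  obtain ⟨g, hg⟩ := exists_increasing_or_nonincreasing_subseq (fun u v => Btw T y0 u v)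
    fun n => (e n).1
  have hinj : Function.Injective fun n => (e (g n)).1 := fun m n he =>
    g.injective (e.injective (Subtype.ext he))
  have hI : ∀ n, Sep T (e (g n)).1 y0 y0' := fun n => (e (g n)).2
  rcases hg with hg | hg
  · exact len_of_seq h hPF hG h0' hinj hI hg
  · refine len_of_seq h hPF hG h0 hinj (fun n => (hI n).symm) fun m n hmn => ?_
    have h1 := (h.btw_total (hI m).btw (hI n).btw).resolve_left (hg m n hmn)
    exact (h.btw_trans' h1 (hI m).btw).symm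

end Crest.Agent.R224
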