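import Crest.Agent.R224.Api

/-! Row 224: lines between boundary points. -/

namespace Crest.Agent.R224

open Crest.Agent.Lib.KyFan Set Filter Topology
open scoped Pointwise

namespace LineAux

variable {G : Type} [Group G] {Y : Type} [MetricSpace Y] [MulAction G Y] {T : Finset G} {o : Y}

theorem exists_ray (h : W T o) (z : Y) : ∃ L : Set G, Conn T L ∧
    (∀ ε : ℝ, 0 < ε → {g : G | g ∈ L ∧ ε ≤ dist (g • o) z}.Finite) ∧
    ∀ ε : ℝ, 0 < ε → ∃ g ∈ L, dist (g • o) z < ε := by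
  obtain ⟨u, hanti, hpos, hlim⟩ := exists_seq_strictAnti_tendsto (0 : ℝ)
  choose v hv using fun n => h.sp.exists_vertex z (hpos n)
  have hp : ∀ n, Path T {c : G | dist (v n • o) (c • o) < 2 * u n} (v n) (v (n + 1)) := fun n =>
    h.sp.inner _ _ _ (by
      linarith [dist_triangle_right (v n • o) (v (n + 1) • o) z, hv n, hv (n + 1),
        hanti (Nat.lt_succ_self n)])
  choose F hF hsub h0 h1 hconn using fun n => (hp n).exists_finite h.hyp.symm
  have hev : ∀ ε : ℝ, 0 < ε → ∃ N, ∀ n, N ≤ n → u n < ε := fun ε hε =>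
    eventually_atTop.1 (hlim.eventually_lt_const hε)
  have hv0 : ∀ n, Path T (⋃ n, F n) (v 0) (v n) := fun n => by
    induction n with
    | zero => exact Path.refl (mem_iUnion.2 ⟨0, h0 0⟩)
    | succ n ih => exact ih.trans ((hconn n _ (h0 n) _ (h1 n)).mono (subset_iUnion F n))
  have hall : ∀ x ∈ ⋃ n, F n, Path T (⋃ n, F n) (v 0) x := fun x hx => by
    obtain ⟨n, hn⟩ := mem_iUnion.1 hx
    exact (hv0 n).trans ((hconn n _ (h0 n) _ hn).mono (subset_iUnion F n))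
  refine ⟨⋃ n, F n, fun x hx y hy => ((hall x hx).symm h.hyp.symm).trans (hall y hy),
    fun ε hε => ?_, fun ε hε => ?_⟩
  · obtain ⟨N, hN⟩ := hev (ε / 3) (by positivity)
    refine ((finite_lt_nat N).biUnion fun n _ => hF n).subset ?_
    rintro g ⟨hg, hd⟩
    obtain ⟨n, hn⟩ := mem_iUnion.1 hg
    refine mem_biUnion (show n < N from not_le.1 fun hle => ?_) hn
    have h2 : dist (v n • o) (g • o) < 2 * u n := hsub n hn
    linarith [dist_triangle_left (g • o) z (v n • o), hv n, hN n hle]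
  · obtain ⟨N, hN⟩ := hev ε hε
    exact ⟨v N, mem_iUnion.2 ⟨N, h0 N⟩, (hv N).trans (hN N le_rfl)⟩

end LineAux

theorem lineP : LineP := by
  intro G _ Y _ _ T o h a b
  obtain ⟨La, ca, fa, na⟩ := LineAux.exists_ray h a.1
  obtain ⟨Lb, cb, fb, nb⟩ := LineAux.exists_ray h b.1
  obtain ⟨x, hx, -⟩ := na 1 one_pos
  obtain ⟨y, hy, -⟩ := nb 1 one_pos
  obtain ⟨F, hF, -, hxF, hyF, cF⟩ :=
    (conn_univ h.hyp.symm h.hyp.gen x trivial y trivial).exists_finite h.hyp.symm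
  refine ⟨La ∪ F ∪ Lb, (ca.union cF hx hxF).union cb (Or.inr hyF) hy, fun ε hε => ?_,
    fun ε hε => ?_, fun ε hε => ?_⟩
  · refine (((fa ε hε).union hF).union (fb ε hε)).subset ?_
    rintro g ⟨(hg | hg) | hg, h1, h2⟩
    exacts [Or.inl (Or.inl ⟨hg, h1⟩), Or.inl (Or.inr hg), Or.inr ⟨hg, h2⟩]
  · obtain ⟨g, hg, hd⟩ := na ε hε
    exact ⟨g, Or.inl (Or.inl hg), hd⟩
  · obtain ⟨g, hg, hd⟩ := nb ε hε
    exact ⟨g, Or.inr hg, hd⟩

end Crest.Agent.R224
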