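import Crest.Agent.R224.Chain

/-! Row 224: the Mayer-Vietoris step and transport along open embeddings. -/

set_option autoImplicit false

namespace Crest.Agent.R224

open Crest.Agent.Lib.KyFan Set Filter Topology

namespace MVAux

variable {X Y : Type}

theorem hd_add_hd (A : Set X) (φ : Co X) {l : List X} (hl : 1 ≤ l.length) :
    (hd A φ + hd Aᶜ φ) l = φ l := by
  cases l with
  | nil => simp at hl
  | cons x l =>
    by_cases h : x ∈ A
    · rw [Pi.add_apply, hd_cons_mem φ h, hd_cons_notMem φ (P := Aᶜ) (not_not.2 h), add_zero]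
    · rw [Pi.add_apply, hd_cons_notMem φ h, hd_cons_mem φ (P := Aᶜ) h, zero_add]

theorem pull_add (e : Y → X) (φ ψ : Co X) : pull e (φ + ψ) = pull e φ + pull e ψ := rfl

theorem pull_hd (e : Y → X) (O : Set X) (φ : Co X) :
    pull e (hd O φ) = hd (e ⁻¹' O) (pull e φ) := by
  funext l
  cases l with
  | nil => rw [hd_nil, pull, List.map_nil, hd_nil]
  | cons y l =>
    by_cases h : e y ∈ O
    · rw [hd_cons_mem _ (show y ∈ e ⁻¹' O from h), pull, pull, List.map_cons, hd_cons_mem _ h]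
    · rw [hd_cons_notMem _ (show y ∉ e ⁻¹' O from h), pull, List.map_cons, hd_cons_notMem _ h]

variable [TopologicalSpace X] [TopologicalSpace Y] {e : Y → X} {U : Set Y} {n : ℕ}

theorem LZ_of_pull (he : IsOpenEmbedding e) {φ : Co X} {y : Y} (h : LZ n (pull e φ) y) :
    LZ n φ (e y) := by
  obtain ⟨N, hN, h⟩ := h
  refine ⟨e '' N, he.isOpenMap.image_mem_nhds hN, fun l hl hm => ?_⟩
  obtain ⟨l', h1, rfl⟩ : ∃ l' : List Y, (∀ y ∈ l', y ∈ N) ∧ l'.map e = l := by
    clear hl
    induction l with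
    | nil => exact ⟨[], by simp, rfl⟩
    | cons x l ih =>
      obtain ⟨l', h1, rfl⟩ := ih fun y hy => hm y (List.mem_cons_of_mem _ hy)
      obtain ⟨z, hz, rfl⟩ := hm x List.mem_cons_self
      exact ⟨z :: l', List.forall_mem_cons.2 ⟨hz, h1⟩, rfl⟩
  exact h l' (by simpa using hl) h1

theorem CS_pull (he : IsOpenEmbedding e) {φ : Co X} (h : CS n (e '' U) φ) : CS n U (pull e φ) := by
  obtain ⟨K, hK, hU, h⟩ := h
  refine ⟨e ⁻¹' K, he.isInducing.isCompact_preimage' hK (hU.trans (image_subset_range _ _)),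
    fun y hy => ?_, fun y hy => (h _ hy).pull he.continuous.continuousAt⟩
  exact (he.injective.mem_set_image).1 (hU hy)

omit [TopologicalSpace Y] in
theorem LZ_of_notMem {φ : Co X} (h : CS n (e '' U) φ) {x : X} (hx : x ∉ range e) : LZ n φ x := by
  obtain ⟨K, -, hU, h⟩ := h
  exact h x fun hk => hx (image_subset_range _ _ (hU hk))

theorem exists_push [T3Space X] (he : IsOpenEmbedding e) {ψ : Co Y} (h : CS n U ψ)
    (h0 : 1 ≤ n ∨ ψ [] = 0) :
    ∃ φ : Co X, φ [] = 0 ∧ CS n (e '' U) φ ∧ ∀ y, LZ n (pull e φ + ψ) y := by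
  obtain ⟨K, hK, hU, h⟩ := h
  obtain ⟨O, hO, hKO, hOe⟩ := (hK.image he.continuous).exists_isOpen_closure_subset
    (he.isOpen_range.mem_nhdsSet.2 (image_subset_range _ _))
  have h1 : pull e (hd O (Function.extend (List.map e) ψ 0)) = hd (e ⁻¹' O) ψ := by
    rw [pull_hd]
    congr 1
    exact funext fun l => (List.map_injective_iff.2 he.injective).extend_apply _ _ l
  refine ⟨hd O (Function.extend (List.map e) ψ 0), hd_nil _ _,
    ⟨e '' K, hK.image he.continuous, image_mono hU, fun x hx => ?_⟩, fun y => ?_⟩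
  · by_cases hx' : x ∈ range e
    · obtain ⟨y, rfl⟩ := hx'
      refine LZ_of_pull he ?_
      rw [h1]
      exact (h y fun hy => hx ⟨y, hy, rfl⟩).hd _
    · exact LZ.hd_of_notMem_closure n _ fun hc => hx' (hOe hc)
  · rw [h1]
    by_cases hy : y ∈ K
    · rcases Nat.eq_zero_or_pos n with rfl | hn
      · refine (LZ.zero 0 y).congr fun l hl => ?_
        rw [List.length_eq_zero_iff.1 hl, Pi.add_apply, hd_nil, h0.resolve_left (by simp), add_zero,
          Pi.zero_apply]
      · exact LZ.hd_add_of_mem_nhds hn ψ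
          ((hO.preimage he.continuous).mem_nhds (hKO ⟨y, hy, rfl⟩))
    · exact ((h y hy).hd _).add (h y hy)

end MVAux

open MVAux

theorem mvP : MVP := by
  intro X _ _ U V n hU hV hn hvU hvV hvUV φ hφ
  obtain ⟨⟨K, hK, hKUV, hφK⟩, hφ⟩ := hφ
  obtain ⟨A, B, hA, hB, hKA, hKB, hAB⟩ := SeparatedNhds.of_isCompact_isCompact (hK.diff hV)
    (hK.diff hU) (Set.disjoint_left.2 fun x h1 h2 => (hKUV h1.1).elim h2.2 h1.2)
  have hK₁ : IsCompact (K ∩ closure A) := hK.inter_right isClosed_closure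
  have hK₂ : IsCompact (K ∩ closure Aᶜ) := hK.inter_right isClosed_closure
  have hU₁ : K ∩ closure A ⊆ U := fun x hx => by
    by_contra hxU
    exact Set.disjoint_left.1 (hAB.closure_left hB) hx.2 (hKB ⟨hx.1, hxU⟩)
  have hV₂ : K ∩ closure Aᶜ ⊆ V := fun x hx => by
    by_contra hxV
    rw [hA.isClosed_compl.closure_eq] at hx
    exact hx.2 (hKA ⟨hx.1, hxV⟩)
  have hL : ∀ (P : Set X) x, x ∉ K ∩ closure P → LZ n (hd P φ) x := fun P x hx => by
    by_cases h : x ∈ K
    · exact LZ.hd_of_notMem_closure n φ fun h' => hx ⟨h, h'⟩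
    · exact (hφK x h).hd P
  have hc : ∀ x, LZ (n + 1) (cob (hd A φ) + cob (hd Aᶜ φ)) x := fun x =>
    (hφ x).congr fun l hl => by
      rw [← cob_add']
      exact cob_congr fun m _ hm => (hd_add_hd A φ (by omega)).symm
  obtain ⟨ψ, -, hψ, hψ'⟩ := hvUV (cob (hd A φ)) ⟨⟨_, hK₁.inter hK₂, inter_subset_inter hU₁ hV₂,
    fun x hx => by
      by_cases h : x ∈ K ∩ closure A
      · have := (hc x).add (hL Aᶜ x fun h' => hx ⟨h, h'⟩).cob
        rwa [add_assoc, co_add_self, add_zero] at this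
      · exact (hL A x h).cob⟩, fun x => (LZ.zero _ x).congr fun l _ => (cob_cob _ l).symm⟩
  rw [Nat.add_sub_cancel] at hψ
  have h1 := hvU (hd A φ + ψ) ⟨CS.add ⟨_, hK₁, hU₁, hL A⟩ (hψ.mono inter_subset_left), fun x => by
    rw [cob_add']
    exact hψ' x⟩
  have h2 := hvV (hd Aᶜ φ + ψ) ⟨CS.add ⟨_, hK₂, hV₂, hL Aᶜ⟩ (hψ.mono inter_subset_right),
    fun x => by
      have := (hc x).add (hψ' x)
      rwa [add_add_add_comm, co_add_self, zero_add, ← cob_add'] at this⟩
  refine ((h1.mono subset_union_left).add (h2.mono subset_union_right)).congr fun x => ?_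
  refine (LZ.zero n x).congr fun l hl => ?_
  rw [add_add_add_comm, co_add_self, add_zero, Pi.add_apply, hd_add_hd A φ (by omega), F2.add_self,
    Pi.zero_apply]

theorem transpP : TranspP := by
  intro X Y _ _ _ e U n he hn
  refine ⟨fun φ hφ => ⟨CS_pull he hφ.1, fun y => ?_⟩, fun φ hφ => ⟨?_, ?_⟩, fun ψ hψ => ?_⟩
  · rw [cob_pull]
    exact (hφ.2 _).pull he.continuous.continuousAt
  · rintro ⟨ψ, h0, h1, h2⟩
    refine ⟨pull e ψ, h0, CS_pull he h1, fun y => ?_⟩
    rw [cob_pull, ← pull_add]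
    exact (h2 _).pull he.continuous.continuousAt
  · rintro ⟨ψ, h0, h1, h2⟩
    obtain ⟨ψ', h3, h4, h5⟩ := exists_push he h1 (Or.inr h0)
    refine ⟨ψ', h3, h4, fun x => ?_⟩
    by_cases hx : x ∈ range e
    · obtain ⟨y, rfl⟩ := hx
      refine LZ_of_pull he ?_
      have h6 := (h5 y).cob
      rw [Nat.sub_add_cancel hn] at h6
      have h7 := (h2 y).add h6
      rwa [cob_add', add_comm (cob (pull e ψ')), add_assoc, ← add_assoc (cob ψ), co_add_self,
        zero_add, cob_pull, ← pull_add] at h7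
    · have h6 := (LZ_of_notMem h4 hx).cob
      rw [Nat.sub_add_cancel hn] at h6
      exact (LZ_of_notMem hφ hx).add h6
  · obtain ⟨φ, -, h1, h2⟩ := exists_push he hψ.1 (Or.inl hn)
    refine ⟨φ, ⟨h1, fun x => ?_⟩, h2⟩
    by_cases hx : x ∈ range e
    · obtain ⟨y, rfl⟩ := hx
      refine LZ_of_pull he ?_
      have h3 := (h2 y).cob.add (hψ.2 y)
      rwa [cob_add', add_assoc, co_add_self, add_zero, cob_pull] at h3
    · exact (LZ_of_notMem h1 hx).cob

end Crest.Agent.R224
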