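import Crest.Agent.R224.Api
import Crest.Agent.R224.Chain

/-! Row 224: assembly of the proof from the interface statements. -/

namespace Crest.Agent.R224

open Crest.Agent.Lib.KyFan Set Filter Topology
open scoped Pointwise

section World
variable {G : Type} [Group G] {Y : Type} [MetricSpace Y] [MulAction G Y] {T : Finset G} {o : Y}

theorem exists_triple {p q y : Zt G o} (hpq : p ≠ q) (hp : y ≠ p) (hq : y ≠ q) :
    ∃ τ : Fin 3 → Zt G o, Function.Injective τ := by
  refine ⟨![p, q, y], ?_⟩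
  intro i j hij
  fin_cases i <;> fin_cases j <;> simp_all [eq_comm]

/-- there is a cut point. -/
theorem exists_cp (h : W T o) (hK : Kon T o) (hG : GP T o) : ∃ r : Zt G o, IsCP T r := by
  obtain ⟨p, q, hpq⟩ := h.two
  obtain ⟨y, hyp, hyq, -⟩ := hK p q hpq
  obtain ⟨τ, hτ⟩ := exists_triple hpq hyp hyq
  set A : Set (Zt G o) := range τ ∪ ⋃ t ∈ (T : Set G), range fun i => t • τ i with hA
  have hAf : A.Finite := (finite_range τ).union (T.finite_toSet.biUnion fun t _ => finite_range _)
  set L : Set (Zt G o × Zt G o × Zt G o × Zt G o) :=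
    {θ | θ ∈ A ×ˢ A ×ˢ A ×ˢ A ∧ θ.1 ≠ θ.2.1 ∧ θ.2.2.1 ≠ θ.2.2.2} with hL
  have hLf : L.Finite := (hAf.prod (hAf.prod (hAf.prod hAf))).subset fun θ hθ => hθ.1
  have := hG L (fun H => {x | Two τ x fun z => In o z.1 H}) hLf (fun θ hθ => hθ.2) ?_ ?_ ?_ p q hpq
  · rcases this with ⟨y, hy⟩ | ⟨r, -, -, a, b, -, -, hr⟩
    · exact ⟨y, p, q, hy⟩
    · exact ⟨r, a, b, hr⟩
  · intro z H hz
    obtain ⟨δ, hδ, hz'⟩ := hz.nhds
    exact h.in_two hτ hδ fun z' hz'' => hz' _ hz''
  · intro z H hz
    obtain ⟨δ, hδ, hz'⟩ := hz.nhds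
    refine h.in_not_two hτ hδ fun z' hz'' hin => ?_
    exact hin.not_compl h.sp (hz' _ hz'')
  · intro η hη E hE
    refine ⟨E, hE, fun H x hx hxE _ => ⟨x, ?_, hxE, by simpa using hη.le⟩⟩
    obtain ⟨x', hadj, hne⟩ := hx
    obtain ⟨t, ht, rfl⟩ := adj_iff.1 hadj
    have h1 : ∀ i, τ i ∈ A := fun i => Or.inl ⟨i, rfl⟩
    have h2 : ∀ i, t • τ i ∈ A := fun i => Or.inr (mem_biUnion ht ⟨i, rfl⟩)
    have hinj : ∀ i j, i ≠ j → t • τ i ≠ t • τ j := fun i j hij he =>
      hij (hτ (MulAction.injective t he))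
    simp only [mem_setOf_eq] at hne
    by_cases hx : Two τ x fun z => In o z.1 H
    · have hx' : ¬ Two τ (x * t) fun z => In o z.1 H := fun h' => hne ⟨fun _ => h', fun _ => hx⟩
      obtain ⟨i, j, hij, hi, hj⟩ := hx
      obtain ⟨k, l, hkl, hk, hl⟩ := two_not_iff.2 hx'
      refine ⟨(τ i, τ j, t • τ k, t • τ l), ⟨⟨h1 i, h1 j, h2 k, h2 l⟩, fun he => hij (hτ he),
        hinj k l hkl⟩, hi, hj, ?_, ?_⟩
      · simpa [mul_smul] using hk
      · simpa [mul_smul] using hl
    · have hx' : Two τ (x * t) fun z => In o z.1 H := by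
        by_contra h'
        exact hne ⟨fun h'' => absurd h'' hx, fun h'' => absurd h'' h'⟩
      obtain ⟨i, j, hij, hi, hj⟩ := hx'
      obtain ⟨k, l, hkl, hk, hl⟩ := two_not_iff.2 hx
      refine ⟨(t • τ i, t • τ j, τ k, τ l), ⟨⟨h2 i, h2 j, h1 k, h1 l⟩, hinj i j hij,
        fun he => hkl (hτ he)⟩, ?_, ?_, hk, hl⟩
      · simpa [mul_smul] using hi
      · simpa [mul_smul] using hj

theorem exists_tame (h : W T o) (hK : Kon T o) (hF : FinI T o) :
    ∃ τ : Fin 3 → Zt G o, Tame T τ := by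
  by_cases hfin : {r : Zt G o | IsCP T r}.Finite
  · obtain ⟨p, q, hpq⟩ := h.two
    obtain ⟨y, hyp, hyq, -⟩ := hK p q hpq
    obtain ⟨τ, hτ⟩ := exists_triple hpq hyp hyq
    exact ⟨τ, hτ, fun g i j => hfin.subset fun r hr => ⟨_, _, hr⟩⟩
  · have hinf : {r : Zt G o | IsCP T r}.Infinite := hfin
    let e := hinf.natEmbedding
    refine ⟨fun i => (e i).1, fun i j hij => ?_, fun g i j => hF _ _ (e i).2 (h.isCP_smul g (e j).2)⟩
    exact Fin.val_injective (e.injective (Subtype.ext hij))

end World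

/-- all interface statements. -/
structure AllP : Prop where
  deck : DeckP
  metric : MetricP
  unif : UnifP
  refine : RefineP
  fillX : FillXP
  tors : TorsP
  cell : CellPP
  zig : ZigP
  cmp : CmpP
  hx : HXP
  fill : FillP
  g1 : G1P
  g2 : G2P
  dip : DipP
  met : MetP
  conv : ConvP
  two : TwoP
  ess : EssP
  kon : KonP
  pick : PickP
  lim : LimP
  gp : GPP
  pf : PFP
  line : LineP
  wall : WallP
  par : ParP
  dirTr : DirTrP
  ray : RayP
  s3 : S3P
  germ : GermP
  len : LenP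
  good : GoodP
  s4 : S4P

theorem no_world (P : AllP) {G : Type} [Group G] {Y : Type} [MetricSpace Y] [MulAction G Y]
    {T : Finset G} {o : Y} (h : W T o) : False := by
  have hE : Ess T o := P.ess G Y T o h.hyp h.sp
  have hK : Kon T o := P.kon G Y T o h.hyp h.sp hE
  have hG : GP T o := P.gp G Y T o h hK (P.pick G Y T o h) (P.lim G Y T o h)
  have hPF : PF T o := P.pf G Y T o h
  have hL := P.line G Y T o h
  by_cases hF : FinI T o
  · have hW : Wall T o := P.wall G Y T o h hL fun U hU hn =>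
      P.g1 G U hU fun hb => hn (P.g2 G U hb)
    have hτ := exists_tame h hK hF
    have hP : Par T o := P.par G Y T o h hW hτ
    exact P.s3 G Y T o h hG (P.ray G Y T o h) hP (P.dirTr G Y T o h hW hE hP hτ) hF
      (exists_cp h hK hG)
  · obtain ⟨A, B, t, hl⟩ := P.len G Y T o h hPF (P.germ G Y T o h hPF) hF
    exact P.s4 G Y T o h hPF hL A B t hl (P.good G Y T o h hPF A B t hl)

theorem approx_of_hyp (P : AllP) {G : Type} [Group G] {T : Finset G} (h : Hyp T) (f : G → ℝ)
    (hf : En T f) : Approx T f := by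
  by_contra hn
  obtain ⟨u, hu, hs⟩ := P.dip G T f h.gen hf hn
  obtain ⟨Y, _, _, o, hsp, hmp, hnt⟩ := P.met G T u h.symm h.gen hu hs
  exact no_world P (o := o) ⟨h, hsp, P.conv G Y T o h hsp hmp, P.two G Y T o h hsp hnt⟩

theorem hyp_of_top (P : AllP) {G X : Type} [Group G] [MetricSpace X] [MulAction G X]
    (h0 : Top0 G X) {T : Finset G} (hT : Symm T) (hg : Subgroup.closure (T : Set G) = ⊤) :
    Hyp T := by
  have h : Top G X := P.unif G X h0
  have hF : ∀ n : ℕ, FillX (ZMod n) X := fun n => P.fillX _ G X h (P.refine _ G X h)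
  have hC : Cmp T X := P.cmp G X T h hT hg (hF 2) (P.refine _ G X h)
  obtain ⟨hz, hx⟩ := P.hx G X T h hT hg (hF 2) hC
  have hV := P.zig G X h (P.cell X h0.cells) (hF 2)
  obtain ⟨h1, h2⟩ := P.fill G T hT hg (hx 1 le_rfl (hV 2 le_rfl (by norm_num)))
    (hx 2 (by norm_num) (hV 3 (by norm_num) (by norm_num)))
    (hx 3 (by norm_num) (hV 4 (by norm_num) le_rfl)) hz
  exact ⟨hT, hg, h1, h2, P.tors G X h hF⟩

section Transfer
variable {G : Type} [Group G]

theorem en_iff (T : Finset G) (f : G → ℝ) :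
    En T f ↔ ∀ t ∈ T, Summable fun x : G => (f (x * t) - f x) ^ 2 := by
  constructor
  · intro h t ht
    exact h.comp_injective (i := fun x : G => ((x, ⟨t, ht⟩) : G × T))
      fun a b hab => (Prod.ext_iff.1 hab).1
  · intro h
    have h1 : Summable fun p : T × G => (f (p.2 * (p.1 : G)) - f p.2) ^ 2 := by
      refine (summable_prod_of_nonneg fun p => sq_nonneg _).2 ⟨fun t => h t t.2, ?_⟩
      exact Summable.of_finite
    exact (Equiv.prodComm G T).summable_iff.2 h1

theorem en_symm [DecidableEq G] {S : Finset G} {f : G → ℝ} (h : En S f) : En (S ∪ S⁻¹) f := by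
  rw [en_iff] at h ⊢
  intro t ht
  rcases Finset.mem_union.1 ht with ht | ht
  · exact h t ht
  · have h1 := h t⁻¹ (by simpa using ht)
    have h2 := (Equiv.mulRight t).summable_iff.2 h1
    refine h2.congr fun x => ?_
    simp only [Function.comp, Equiv.coe_mulRight, mul_inv_cancel_right]
    ring

theorem en_of_finite (T : Finset G) {u : G → ℝ} (hu : (Function.support u).Finite) : En T u := by
  rw [en_iff]
  intro t _
  refine summable_of_finite_support ?_
  refine (hu.union (hu.preimage (f := fun x : G => x * t) (mul_left_injective t).injOn)).subset ?_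
  intro x hx
  by_contra hn
  simp only [mem_union, mem_preimage, Function.mem_support, not_or, not_not] at hn
  simp [hn.1, hn.2] at hx

theorem En.sub {T : Finset G} {f u : G → ℝ} (hf : En T f) (hu : En T u) : En T (f - u) := by
  refine Summable.of_nonneg_of_le (fun p => sq_nonneg _) (fun p => ?_)
    ((hf.mul_left 2).add (hu.mul_left 2))
  simp only [Pi.sub_apply]
  nlinarith [sq_nonneg ((f (p.1 * p.2) - f p.1) + (u (p.1 * p.2) - u p.1))]

theorem final_of_approx {S T : Finset G} (hST : S ⊆ T) {f : G → ℝ} (hf : En T f)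
    (h : Approx T f) (ε : ℝ) (hε : 0 < ε) :
    ∃ u : G → ℝ, (Function.support u).Finite ∧
      ∃ E : ℝ, HasSum (fun p : G × S => ((f - u) (p.1 * (p.2 : G)) - (f - u) p.1) ^ 2) E ∧
        E < ε := by
  obtain ⟨u, hu, hlt⟩ := h ε hε
  have hs : En T (f - u) := hf.sub (en_of_finite T hu)
  let i : G × S → G × T := fun p => (p.1, ⟨p.2, hST p.2.2⟩)
  have hi : Function.Injective i := by
    intro a b hab
    simp only [i, Prod.mk.injEq, Subtype.mk.injEq] at hab
    exact Prod.ext hab.1 (Subtype.ext hab.2)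
  have hs' := hs.comp_injective hi
  refine ⟨u, hu, _, hs'.hasSum, lt_of_le_of_lt ?_ hlt⟩
  exact tsum_comp_le_tsum_of_inj hs (fun p => sq_nonneg _) hi

end Transfer

theorem main_of (P : AllP)
    (M : Type) [TopologicalSpace M] [T2Space M] [SecondCountableTopology M] [CompactSpace M]
    [ChartedSpace (EuclideanSpace ℝ (Fin 4)) M]
    (E : Type) [TopologicalSpace E] [ContractibleSpace E] (p : E → M) (hp : IsCoveringMap p)
    (hs : Function.Surjective p) (x : M)
    (S : Finset (FundamentalGroup M x))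
    (hS : Subgroup.closure (S : Set (FundamentalGroup M x)) = ⊤)
    (f : FundamentalGroup M x → ℝ)
    (hf : Summable fun p : FundamentalGroup M x × S =>
      (f (p.1 * (p.2 : FundamentalGroup M x)) - f p.1) ^ 2)
    (ε : ℝ) (hε : 0 < ε) :
    ∃ u : FundamentalGroup M x → ℝ, (Function.support u).Finite ∧
      ∃ E : ℝ, HasSum (fun p : FundamentalGroup M x × S =>
        ((f - u) (p.1 * (p.2 : FundamentalGroup M x)) - (f - u) p.1) ^ 2) E ∧ E < ε := by
  classical
  haveI : LocallyPathConnectedSpace M :=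
    ChartedSpace.locallyPathConnectedSpace (EuclideanSpace ℝ (Fin 4)) M
  obtain ⟨act, hc, hfree, horb⟩ := P.deck M E p x hp hs
  obtain ⟨X, _, _, h0⟩ := P.metric (FundamentalGroup M x) M E p hp hs hc hfree horb
  have hT : Symm (S ∪ S⁻¹) := by
    intro t ht
    simp only [Finset.mem_union, Finset.mem_inv', inv_inv] at ht ⊢
    exact ht.symm
  have hg : Subgroup.closure ((S ∪ S⁻¹ : Finset _) : Set (FundamentalGroup M x)) = ⊤ := by
    rw [eq_top_iff, ← hS]
    exact Subgroup.closure_mono (by simp)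
  have hen : En (S ∪ S⁻¹) f := en_symm hf
  exact final_of_approx Finset.subset_union_left hen
    (approx_of_hyp P (hyp_of_top P h0 hT hg) f hen) ε hε

end Crest.Agent.R224
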