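import Crest.Agent.R224.Basic

/-! # Row 224: the metric `ρ` and its completion -/

namespace Crest.Agent.R224

open Set Filter Topology
open scoped Pointwise

namespace MetAux

variable {G : Type} [Group G] {T : Finset G}

/-- type synonym carrying the metric. -/
def Syn (G : Type) : Type := G

/-- completion of a group with respect to a pseudometric for which left translations are
Lipschitz. -/
theorem exists_completion (ρ : G → G → ℝ) (h0 : ∀ a, ρ a a = 0) (hs : ∀ a b, ρ a b = ρ b a)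
    (ht : ∀ a b c, ρ a c ≤ ρ a b + ρ b c)
    (hl : ∀ g, ∃ C : ℝ, ∀ a b, ρ (g * a) (g * b) ≤ C * ρ a b) :
    ∃ (Y : Type) (_ : MetricSpace Y) (_ : MulAction G Y) (o : Y), CompleteSpace Y ∧
      (∀ g : G, UniformContinuous fun y : Y => g • y) ∧ DenseRange (fun g : G => g • o) ∧
      ∀ a b : G, dist (a • o) (b • o) = ρ a b := by
  let _ : PseudoMetricSpace (Syn G) :=
    { dist := ρ, dist_self := h0, dist_comm := hs, dist_triangle := ht }
  let m : G → Syn G → Syn G := fun g x => (g * (show G from x) : G)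
  have hm : ∀ g, UniformContinuous (m g) := by
    intro g
    obtain ⟨C, hC⟩ := hl g
    exact (LipschitzWith.of_dist_le' (f := m g) (K := C) fun a b => hC a b).uniformContinuous
  let act : MulAction G (UniformSpace.Completion (Syn G)) :=
    { smul := fun g => UniformSpace.Completion.map (m g)
      one_smul := fun y => by
        have : m 1 = id := funext fun x => one_mul (show G from x)
        change UniformSpace.Completion.map (m 1) y = y
        rw [this, UniformSpace.Completion.map_id]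
        rfl
      mul_smul := fun g h y => by
        have : m (g * h) = m g ∘ m h := funext fun x => mul_assoc g h (show G from x)
        change UniformSpace.Completion.map (m (g * h)) y =
          UniformSpace.Completion.map (m g) (UniformSpace.Completion.map (m h) y)
        rw [this, ← UniformSpace.Completion.map_comp (hm g) (hm h)]
        rfl }
  have hcoe : ∀ g : G, g • ((show Syn G from (1 : G) : Syn G) : UniformSpace.Completion (Syn G)) =
      ((show Syn G from g : Syn G) : UniformSpace.Completion (Syn G)) := by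
    intro g
    change UniformSpace.Completion.map (m g) _ = _
    rw [UniformSpace.Completion.map_coe (hm g)]
    exact congrArg _ (mul_one g)
  refine ⟨UniformSpace.Completion (Syn G), inferInstance, act,
    ((show Syn G from (1 : G) : Syn G) : UniformSpace.Completion (Syn G)), inferInstance,
    fun g => UniformSpace.Completion.uniformContinuous_map, ?_, fun a b => ?_⟩
  · simp only [hcoe]
    exact UniformSpace.Completion.denseRange_coe (α := Syn G)
  · rw [hcoe, hcoe, UniformSpace.Completion.dist_eq]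
    rfl

theorem ncard_Bl (T : Finset G) (n : ℕ) : (Bl T n).ncard ≤ (T.card + 1) ^ n := by
  classical
  have : Bl T n = ((insert 1 T ^ n : Finset G) : Set G) := by
    rw [Finset.coe_pow, Finset.coe_insert]
    rfl
  rw [this, Set.ncard_coe_finset]
  exact Finset.card_pow_le.trans (Nat.pow_le_pow_left (Finset.card_insert_le _ _) n)

/-- the weights. -/
theorem exists_weight (hT : Symm T) (hg : Subgroup.closure (T : Set G) = ⊤) :
    ∃ w : G → ℝ, w 1 = 1 ∧ (∀ g, 0 < w g) ∧ (∀ g, w g ≤ 1) ∧ Summable w ∧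
      ∀ g, ∃ C : ℝ, 0 ≤ C ∧ ∀ h, w (g * h) ≤ C * w h := by
  classical
  have hex : ∀ g : G, ∃ n, g ∈ Bl T n := fun g => exists_mem_Bl hT (hg ▸ Subgroup.mem_top g)
  let len : G → ℕ := fun g => Nat.find (hex g)
  have hlen : ∀ g, g ∈ Bl T (len g) := fun g => Nat.find_spec (hex g)
  have hmin : ∀ g n, g ∈ Bl T n → len g ≤ n := fun g n h => Nat.find_min' (hex g) h
  set lam : ℝ := 1 / (2 * ((T.card : ℝ) + 1)) with hlam
  have hc : (0 : ℝ) ≤ T.card := Nat.cast_nonneg _
  have hl0 : 0 < lam := by positivity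
  have hl1 : lam ≤ 1 := by
    rw [hlam, div_le_one (by positivity)]
    linarith
  refine ⟨fun g => lam ^ len g, ?_, fun g => pow_pos hl0 _, fun g => pow_le_one₀ hl0.le hl1, ?_, ?_⟩
  · have : len 1 = 0 := Nat.le_zero.1 (hmin 1 0 (one_mem_Bl 0))
    simp only [this, pow_zero]
  · refine summable_of_sum_le (c := 2) (fun g => (pow_pos hl0 _).le) fun s => ?_
    rw [Finset.sum_comp (fun n => lam ^ n) len]
    refine le_trans (Finset.sum_le_sum (g := fun n => (1 / 2 : ℝ) ^ n) fun n _ => ?_) ?_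
    · have h1 : (s.filter fun a => len a = n).card ≤ (T.card + 1) ^ n := by
        refine le_trans ?_ (ncard_Bl T n)
        rw [← Set.ncard_coe_finset]
        refine Set.ncard_le_ncard (fun a ha => ?_) (Bl_finite T n)
        have := (Finset.mem_filter.1 (Finset.mem_coe.1 ha)).2
        exact this ▸ hlen a
      have h2 : ((s.filter fun a => len a = n).card : ℝ) ≤ ((T.card : ℝ) + 1) ^ n := by
        exact_mod_cast h1
      rw [nsmul_eq_mul]
      refine (mul_le_mul_of_nonneg_right h2 (pow_pos hl0 _).le).trans (le_of_eq ?_)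
      rw [← mul_pow, hlam]
      congr 1
      field_simp
    · exact (summable_geometric_two.sum_le_tsum _ fun n _ => by positivity).trans
        tsum_geometric_two.le
  · intro g
    refine ⟨(lam ^ len g⁻¹)⁻¹, by positivity, fun h => ?_⟩
    have h1 : len h ≤ len g⁻¹ + len (g * h) := by
      refine hmin _ _ ?_
      have := mul_mem_Bl (hlen g⁻¹) (hlen (g * h))
      rwa [inv_mul_cancel_left] at this
    rw [← div_eq_inv_mul, le_div_iff₀ (pow_pos hl0 _), ← pow_add]
    exact pow_le_pow_of_le_one hl0.le hl1 (by omega)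

/-- everything that is used about the data. -/
structure Dat (T : Finset G) (u : G → G → ℝ) (w : G → ℝ) : Prop where
  symm : Symm T
  gen : Subgroup.closure (T : Set G) = ⊤
  conn : ∀ s ∈ T, ∀ t : ℝ, Conn T {x | u s x < t} ∧ Conn T {x | t < u s x}
  bdd : ∀ s ∈ T, ∀ x, u s 1 ≤ u s x ∧ u s x ≤ u s s
  one : ∀ s ∈ T, u s s - u s 1 ≤ 1
  pos : ∀ s ∈ T, s ≠ 1 → u s 1 < u s s
  en : ∀ s ∈ T, En T (u s)
  w1 : w 1 = 1
  wpos : ∀ g, 0 < w g
  wle : ∀ g, w g ≤ 1
  wsum : Summable w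
  wlip : ∀ g, ∃ C : ℝ, 0 ≤ C ∧ ∀ h, w (g * h) ≤ C * w h

/-- the pseudometric given by all translates of the dipoles. -/
noncomputable def dK (T : Finset G) (u : G → G → ℝ) (w : G → ℝ) (a b : G) : ℝ :=
  ⨆ p : G × T, w p.1 * |u p.2 (p.1⁻¹ * a) - u p.2 (p.1⁻¹ * b)|

/-- its inner version. -/
noncomputable def rho (T : Finset G) (u : G → G → ℝ) (w : G → ℝ) (a b : G) : ℝ :=
  sInf {δ | ∃ Q : Set G, Path T Q a b ∧ ∀ x ∈ Q, ∀ y ∈ Q, dK T u w x y ≤ δ}

variable {u : G → G → ℝ} {w : G → ℝ}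

theorem Dat.abs_le (h : Dat T u w) {s : G} (hs : s ∈ T) (x y : G) : |u s x - u s y| ≤ 1 := by
  have h1 := h.bdd s hs x
  have h2 := h.bdd s hs y
  have h3 := h.one s hs
  rw [_root_.abs_le]
  constructor <;> linarith [h1.1, h1.2, h2.1, h2.2]

theorem Dat.term_le (h : Dat T u w) (g : G) {s : G} (hs : s ∈ T) (x y : G) :
    w g * |u s x - u s y| ≤ w g := by
  simpa using mul_le_mul_of_nonneg_left (h.abs_le hs x y) (h.wpos g).le

theorem Dat.le_dK (h : Dat T u w) (g : G) {s : G} (hs : s ∈ T) (a b : G) :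
    w g * |u s (g⁻¹ * a) - u s (g⁻¹ * b)| ≤ dK T u w a b := by
  refine le_ciSup (f := fun p : G × T => w p.1 * |u p.2 (p.1⁻¹ * a) - u p.2 (p.1⁻¹ * b)|)
    ⟨1, ?_⟩ (g, ⟨s, hs⟩)
  rintro _ ⟨p, rfl⟩
  exact (h.term_le p.1 p.2.2 _ _).trans (h.wle _)

theorem dK_le {a b : G} {c : ℝ} (hc : 0 ≤ c)
    (H : ∀ g, ∀ s ∈ T, w g * |u s (g⁻¹ * a) - u s (g⁻¹ * b)| ≤ c) : dK T u w a b ≤ c :=
  Real.iSup_le (fun p => H p.1 p.2 p.2.2) hc

theorem Dat.dK_nonneg (h : Dat T u w) (a b : G) : 0 ≤ dK T u w a b :=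
  Real.iSup_nonneg fun _ => mul_nonneg (h.wpos _).le (abs_nonneg _)

theorem Dat.dK_self (h : Dat T u w) (a : G) : dK T u w a a = 0 :=
  le_antisymm (dK_le le_rfl fun g s _ => by simp) (h.dK_nonneg a a)

theorem dK_comm (a b : G) : dK T u w a b = dK T u w b a := by
  simp only [dK, abs_sub_comm (u _ (_ * a))]

theorem Dat.dK_le_one (h : Dat T u w) (a b : G) : dK T u w a b ≤ 1 :=
  dK_le zero_le_one fun g _ hs => (h.term_le g hs _ _).trans (h.wle g)

theorem Dat.dK_tri (h : Dat T u w) (a b c : G) : dK T u w a c ≤ dK T u w a b + dK T u w b c := by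
  refine dK_le (add_nonneg (h.dK_nonneg _ _) (h.dK_nonneg _ _)) fun g s hs => ?_
  refine le_trans ?_ (add_le_add (h.le_dK g hs a b) (h.le_dK g hs b c))
  rw [← mul_add]
  exact mul_le_mul_of_nonneg_left (abs_sub_le _ _ _) (h.wpos g).le

theorem Dat.dK_lip (h : Dat T u w) (g : G) :
    ∃ C : ℝ, 0 ≤ C ∧ ∀ a b, dK T u w (g * a) (g * b) ≤ C * dK T u w a b := by
  obtain ⟨C, hC, H⟩ := h.wlip g
  refine ⟨C, hC, fun a b => dK_le (mul_nonneg hC (h.dK_nonneg _ _)) fun k s hs => ?_⟩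
  have h1 := h.le_dK (g⁻¹ * k) hs a b
  have h2 := H (g⁻¹ * k)
  rw [mul_inv_cancel_left] at h2
  simp only [mul_inv_rev, inv_inv, mul_assoc] at h1
  refine (mul_le_mul_of_nonneg_right h2 (abs_nonneg _)).trans ?_
  rw [mul_assoc]
  exact mul_le_mul_of_nonneg_left h1 hC

theorem Dat.rho_ne (h : Dat T u w) (a b : G) :
    {δ | ∃ Q : Set G, Path T Q a b ∧ ∀ x ∈ Q, ∀ y ∈ Q, dK T u w x y ≤ δ}.Nonempty :=
  ⟨1, univ, conn_univ h.symm h.gen a (mem_univ _) b (mem_univ _), fun x _ y _ => h.dK_le_one x y⟩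

theorem rho_le {a b : G} {Q : Set G} {δ : ℝ} (hp : Path T Q a b)
    (hQ : ∀ x ∈ Q, ∀ y ∈ Q, dK T u w x y ≤ δ) : rho T u w a b ≤ δ :=
  csInf_le ⟨dK T u w a b, fun _ ⟨_, hp', hQ'⟩ => hQ' a hp'.left b hp'.right⟩ ⟨Q, hp, hQ⟩

theorem Dat.le_rho (h : Dat T u w) {a b : G} {c : ℝ}
    (H : ∀ (Q : Set G) (δ : ℝ), Path T Q a b → (∀ x ∈ Q, ∀ y ∈ Q, dK T u w x y ≤ δ) → c ≤ δ) :
    c ≤ rho T u w a b :=
  le_csInf (h.rho_ne a b) fun δ ⟨Q, hp, hQ⟩ => H Q δ hp hQ

theorem Dat.dK_le_rho (h : Dat T u w) (a b : G) : dK T u w a b ≤ rho T u w a b :=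
  h.le_rho fun _ _ hp hQ => hQ a hp.left b hp.right

theorem Dat.rho_nonneg (h : Dat T u w) (a b : G) : 0 ≤ rho T u w a b :=
  (h.dK_nonneg a b).trans (h.dK_le_rho a b)

theorem Dat.rho_self (h : Dat T u w) (a : G) : rho T u w a a = 0 := by
  refine le_antisymm (rho_le (Q := {a}) (Path.refl rfl) ?_) (h.rho_nonneg a a)
  rintro _ rfl _ rfl
  exact (h.dK_self _).le

theorem Dat.rho_comm (h : Dat T u w) (a b : G) : rho T u w a b = rho T u w b a :=
  le_antisymm (h.le_rho fun _ _ hp hQ => rho_le (hp.symm h.symm) hQ)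
    (h.le_rho fun _ _ hp hQ => rho_le (hp.symm h.symm) hQ)

theorem Dat.rho_tri (h : Dat T u w) (a b c : G) :
    rho T u w a c ≤ rho T u w a b + rho T u w b c := by
  rw [← sub_le_iff_le_add]
  refine h.le_rho fun Q δ hp hQ => ?_
  rw [sub_le_comm]
  refine h.le_rho fun Q' δ' hp' hQ' => ?_
  rw [sub_le_iff_le_add']
  have h1 : 0 ≤ δ := (h.dK_nonneg b b).trans (hQ b hp.right b hp.right)
  have h2 : 0 ≤ δ' := (h.dK_nonneg b b).trans (hQ' b hp'.left b hp'.left)
  refine rho_le (Q := Q ∪ Q') ((hp.mono subset_union_left).trans (hp'.mono subset_union_right)) ?_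
  rintro x (hx | hx) y (hy | hy)
  · linarith [hQ x hx y hy]
  · linarith [hQ x hx b hp.right, hQ' b hp'.left y hy, h.dK_tri x b y]
  · linarith [hQ' x hx b hp'.left, hQ b hp.right y hy, h.dK_tri x b y]
  · linarith [hQ' x hx y hy]

theorem Dat.rho_lip (h : Dat T u w) (g : G) :
    ∃ C : ℝ, ∀ a b, rho T u w (g * a) (g * b) ≤ C * rho T u w a b := by
  obtain ⟨C, hC, H⟩ := h.dK_lip g
  refine ⟨C + 1, fun a b => ?_⟩
  rw [mul_comm (C + 1), ← div_le_iff₀ (by positivity)]
  refine h.le_rho fun Q δ hp hQ => ?_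
  rw [div_le_iff₀ (by positivity)]
  refine rho_le (hp.mul_left g) fun x hx y hy => ?_
  have h1 := H (g⁻¹ * x) (g⁻¹ * y)
  rw [mul_inv_cancel_left, mul_inv_cancel_left] at h1
  have h2 := hQ _ hx _ hy
  have h3 := h.dK_nonneg (g⁻¹ * x) (g⁻¹ * y)
  nlinarith

theorem Dat.rho_adj (h : Dat T u w) (a : G) {t : G} (ht : t ∈ T) :
    rho T u w a (a * t) ≤ dK T u w a (a * t) := by
  refine rho_le (Q := {a, a * t}) ((Path.refl (by simp)).tail (adj_mul ht a) (by simp)) ?_
  rintro x (rfl | rfl) y (rfl | rfl)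
  · rw [h.dK_self]; exact h.dK_nonneg _ _
  · exact le_rfl
  · exact (dK_comm _ _).le
  · rw [h.dK_self]; exact h.dK_nonneg _ _

theorem Dat.l2_gen (h : Dat T u w) {t : G} (ht : t ∈ T) :
    Summable fun x : G => rho T u w x (x * t) ^ 2 := by
  set A : G → ℝ := fun y => ∑ s ∈ T, (u s (y * t) - u s y) ^ 2 with hA
  have hA0 : ∀ y, 0 ≤ A y := fun y => Finset.sum_nonneg fun _ _ => sq_nonneg _
  have hAs : Summable A := summable_sum fun s hs =>
    (h.en s hs).comp_injective (i := fun y : G => (y, (⟨t, ht⟩ : T)))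
      fun y y' hy => (Prod.ext_iff.1 hy).1
  have h1 : Summable fun p : G × G => w p.1 * A p.2 :=
    h.wsum.mul_of_nonneg hAs (fun g => (h.wpos g).le) hA0
  have h2 : Summable fun p : G × G => w p.2 * A (p.2⁻¹ * p.1) :=
    h1.comp_injective (i := fun p : G × G => (p.2, p.2⁻¹ * p.1)) fun p q hpq => by
      obtain ⟨e1, e2⟩ := Prod.ext_iff.1 hpq
      dsimp only at e1 e2
      rw [e1] at e2
      exact Prod.ext (mul_left_cancel e2) e1
  refine Summable.of_nonneg_of_le (fun x => sq_nonneg _) (fun x => ?_) h2.prod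
  have h3 : Summable fun g : G => w g * A (g⁻¹ * x) := h2.prod_factor x
  have hn : ∀ g, 0 ≤ w g * A (g⁻¹ * x) := fun g => mul_nonneg (h.wpos g).le (hA0 _)
  have h4 : dK T u w x (x * t) ≤ √(∑' g, w g * A (g⁻¹ * x)) := by
    refine dK_le (Real.sqrt_nonneg _) fun g s hs => Real.le_sqrt_of_sq_le ?_
    refine le_trans ?_ (h3.le_tsum g fun g' _ => hn g')
    have h5 : (u s (g⁻¹ * x * t) - u s (g⁻¹ * x)) ^ 2 ≤ A (g⁻¹ * x) :=
      Finset.single_le_sum (f := fun s => (u s (g⁻¹ * x * t) - u s (g⁻¹ * x)) ^ 2)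
        (fun _ _ => sq_nonneg _) hs
    rw [mul_pow, sq_abs, ← mul_assoc g⁻¹, sub_sq_comm]
    refine mul_le_mul ?_ h5 (sq_nonneg _) (h.wpos g).le
    nlinarith [h.wpos g, h.wle g]
  refine (pow_le_pow_left₀ (h.rho_nonneg _ _) ((h.rho_adj x ht).trans h4) 2).trans ?_
  rw [Real.sq_sqrt (tsum_nonneg hn)]

theorem Dat.l2 (h : Dat T u w) (e : G) : Summable fun x : G => rho T u w x (x * e) ^ 2 := by
  have he : e ∈ Subgroup.closure (T : Set G) := h.gen ▸ Subgroup.mem_top e
  induction he using Subgroup.closure_induction with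
  | mem t ht => exact h.l2_gen ht
  | one => simp [h.rho_self, summable_zero]
  | mul e e' _ _ ih ih' =>
    have h1 : Summable fun x : G => rho T u w (x * e) (x * e * e') ^ 2 :=
      ih'.comp_injective (i := fun x : G => x * e) (mul_left_injective e)
    refine Summable.of_nonneg_of_le (fun x => sq_nonneg _) (fun x => ?_)
      ((ih.add h1).mul_left 2)
    have h2 := h.rho_tri x (x * e) (x * e * e')
    have h3 := pow_le_pow_left₀ (h.rho_nonneg _ _) h2 2
    rw [← mul_assoc]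
    nlinarith [sq_nonneg (rho T u w x (x * e) - rho T u w (x * e) (x * e * e'))]
  | inv e _ ih =>
    have h1 : Summable fun x : G => rho T u w (x * e⁻¹) (x * e⁻¹ * e) ^ 2 :=
      ih.comp_injective (i := fun x : G => x * e⁻¹) (mul_left_injective e⁻¹)
    refine h1.congr fun x => ?_
    rw [inv_mul_cancel_right, h.rho_comm]

theorem Dat.inner (h : Dat T u w) {a b : G} {δ : ℝ} (hab : rho T u w a b < δ) :
    Path T {c : G | rho T u w a c < δ} a b := by
  obtain ⟨δ', ⟨Q, hp, hQ⟩, hlt⟩ := exists_lt_of_csInf_lt (h.rho_ne a b) hab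
  exact hp.reach.mono fun c hc => (rho_le hc hQ).trans_lt hlt

theorem Dat.iso (h : Dat T u w) (a : G) : ∃ ε : ℝ, 0 < ε ∧ ∀ b : G, b ≠ a → ε ≤ rho T u w a b := by
  have h1 : ∀ᶠ ε in 𝓝[>] (0 : ℝ), ∀ t ∈ T, t ≠ 1 → ε ≤ w a * (u t t - u t 1) := by
    refine (eventually_all_finset T).2 fun t ht => ?_
    by_cases h1 : t = 1
    · exact Eventually.of_forall fun _ h => absurd h1 h
    · have : 0 < w a * (u t t - u t 1) := mul_pos (h.wpos a) (sub_pos.2 (h.pos t ht h1))
      filter_upwards [mem_nhdsWithin_of_mem_nhds (Iic_mem_nhds this)] with ε h _ using h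
  obtain ⟨ε, hε, hε0⟩ := (h1.and self_mem_nhdsWithin).exists
  refine ⟨ε, hε0, fun b hb => h.le_rho fun Q δ hp hQ => ?_⟩
  obtain ⟨c, hc, hac, hne⟩ : ∃ c ∈ Q, Adj T a c ∧ c ≠ a := by
    obtain ⟨x, hx, y, hy, hxy, hn⟩ := hp.exists_cross (H := {a}) (by simpa using hb)
    simp only [mem_singleton_iff] at hn
    by_cases hxa : x = a
    · exact ⟨y, hy, hxa ▸ hxy, fun h => hn (iff_of_true hxa h)⟩
    · have hya : y = a := by
        by_contra hya
        exact hn (iff_of_false hxa hya)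
      exact ⟨x, hx, hya ▸ hxy.symm h.symm, hxa⟩
  obtain ⟨t, ht, rfl⟩ := adj_iff.1 hac
  have ht1 : t ≠ 1 := fun h => hne (by simp [h])
  have h2 := h.le_dK a ht a (a * t)
  rw [inv_mul_cancel, inv_mul_cancel_left, abs_sub_comm] at h2
  refine (hε t ht ht1).trans (le_trans ?_ (h2.trans (hQ a hp.left _ hc)))
  exact mul_le_mul_of_nonneg_left (le_abs_self _) (h.wpos a).le

theorem cross_bd (hT : Symm T) {P Q : Set G} {a b : G} (hp : Path T P a b) (ha : a ∈ Q)
    (hb : b ∉ Q) : ∃ x ∈ P, x ∈ bd T Q := by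
  obtain ⟨x, hx, y, _, hxy, hn⟩ := hp.exists_cross (H := Q) fun h => hb (h.1 ha)
  exact ⟨x, hx, (mem_bd_symm hT hxy hn).1⟩

theorem Dat.maxp (h : Dat T u w) {η : ℝ} (hη : 0 < η) : ∃ F : Set G, F.Finite ∧
    ∀ (Q : Set G) (δ : ℝ), Conn T Q → Disjoint Q F →
      (∀ x ∈ bd T Q, ∀ x' ∈ bd T Q, rho T u w x x' ≤ δ) →
      ∀ a ∈ Q, ∀ b ∈ Q, rho T u w a b ≤ δ + η := by
  have hF0 : {g | η < w g}.Finite := by
    have := h.wsum.tendsto_cofinite_zero.eventually (Iic_mem_nhds hη)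
    simpa [eventually_cofinite] using this
  refine ⟨insert 1 {g | η < w g} * insert 1 (T : Set G),
    (hF0.insert 1).mul (T.finite_toSet.insert 1), fun Q δ hQ hd hδ a ha b hb => ?_⟩
  have hnot : ∀ g ∈ insert 1 {g | η < w g}, ∀ s ∈ insert 1 (T : Set G), g * s ∉ Q :=
    fun g hg s hs hm => disjoint_left.1 hd hm (mul_mem_mul hg hs)
  have hδ0 : 0 ≤ δ := by
    obtain ⟨x, -, hx⟩ := cross_bd h.symm (conn_univ h.symm h.gen a (mem_univ _) (1 * 1) (mem_univ _))
      ha (hnot 1 (mem_insert _ _) 1 (mem_insert _ _))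
    exact (h.rho_nonneg x x).trans (hδ x hx x hx)
  refine rho_le (hQ a ha b hb) fun x hx y hy => dK_le (by positivity) fun g s hs => ?_
  by_cases hg : η < w g
  swap
  · linarith [h.term_le g hs (g⁻¹ * x) (g⁻¹ * y)]
  have key : ∀ x ∈ Q, ∀ y ∈ Q, w g * (u s (g⁻¹ * x) - u s (g⁻¹ * y)) ≤ δ := by
    intro x hx y hy
    refine le_of_forall_pos_le_add fun ε hε => ?_
    have p1 := ((h.conn s hs (u s (g⁻¹ * x) - ε / 2)).2 (g⁻¹ * x)
      (by rw [mem_ofPred_eq]; linarith) s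
      (by rw [mem_ofPred_eq]; linarith [(h.bdd s hs (g⁻¹ * x)).2])).mul_left g
    have p2 := ((h.conn s hs (u s (g⁻¹ * y) + ε / 2)).1 (g⁻¹ * y)
      (by rw [mem_ofPred_eq]; linarith) 1
      (by rw [mem_ofPred_eq]; linarith [(h.bdd s hs (g⁻¹ * y)).1])).mul_left g
    rw [mul_inv_cancel_left] at p1 p2
    obtain ⟨x', hx', bx⟩ := cross_bd h.symm p1 hx
      (hnot g (mem_insert_of_mem _ hg) s (mem_insert_of_mem _ hs))
    obtain ⟨y', hy', by'⟩ := cross_bd h.symm p2 hy
      (hnot g (mem_insert_of_mem _ hg) 1 (mem_insert _ _))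
    have e1 : u s (g⁻¹ * x) - ε / 2 < u s (g⁻¹ * x') := hx'
    have e2 : u s (g⁻¹ * y') < u s (g⁻¹ * y) + ε / 2 := hy'
    have e3 := (h.le_dK g hs x' y').trans ((h.dK_le_rho x' y').trans (hδ x' bx y' by'))
    have e4 := le_abs_self (u s (g⁻¹ * x') - u s (g⁻¹ * y'))
    nlinarith [h.wpos g, h.wle g]
  rcases abs_cases (u s (g⁻¹ * x) - u s (g⁻¹ * y)) with ⟨e, -⟩ | ⟨e, -⟩
  · rw [e]; linarith [key x hx y hy]
  · rw [e, neg_sub]; linarith [key y hy x hx]

omit [Group G] in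
theorem exists_levels (f : G → ℝ) {m M : ℝ} (hb : ∀ x, m ≤ f x ∧ f x ≤ M)
    (hn : ∀ c : ℝ, ¬ Tendsto f cofinite (𝓝 c)) :
    ∃ t1 t2 : ℝ, t1 < t2 ∧ {x | f x < t1}.Infinite ∧ {x | t2 < f x}.Infinite := by
  by_contra hc
  push Not at hc
  have hne : {t | {x | f x < t}.Infinite}.Nonempty := by
    refine ⟨M + 1, fun hfin => hn 0 ?_⟩
    have : Finite G := by
      refine Set.finite_univ_iff.1 (hfin.subset fun x _ => ?_)
      show f x < M + 1
      linarith [(hb x).2]
    rw [cofinite_eq_bot]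
    exact tendsto_bot
  have hbd : BddBelow {t | {x | f x < t}.Infinite} := by
    refine ⟨m, fun t ht => ?_⟩
    obtain ⟨x, hx⟩ := Set.Infinite.nonempty ht
    exact (hb x).1.trans (le_of_lt hx)
  refine hn (sInf {t | {x | f x < t}.Infinite}) (tendsto_order.2 ⟨fun a ha => ?_, fun a ha => ?_⟩)
  · obtain ⟨t, h1, h2⟩ := exists_between ha
    have : {x | f x < t}.Finite := by
      by_contra hinf
      exact absurd (csInf_le hbd hinf) (not_le.2 h2)
    exact eventually_cofinite.2 (this.subset fun x hx => (not_lt.1 hx).trans_lt h1)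
  · obtain ⟨t1, h1, h2⟩ := exists_lt_of_csInf_lt hne ha
    obtain ⟨t2, h3, h4⟩ := exists_between h2
    exact eventually_cofinite.2 ((hc t1 t2 h3 h1).subset fun x hx => h4.trans_le (not_lt.1 hx))

end MetAux

open MetAux in
theorem metP (hL : LevP) : MetP := by
  intro G _ T u hT hg hd ⟨s, hs, hn⟩
  obtain ⟨w, w1, wpos, wle, wsum, wlip⟩ := exists_weight hT hg
  have hl := fun s (hs : s ∈ T) => hL G T s (u s) hT hg hs (hd s hs)
  have h : Dat T u w :=
    ⟨hT, hg, fun s hs => (hl s hs).1, fun s hs => (hl s hs).2.1, fun s hs => (hl s hs).2.2.1,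
      fun s hs => (hl s hs).2.2.2.1, fun s hs => (hd s hs).1, w1, wpos, wle, wsum, wlip⟩
  obtain ⟨Y, _, _, o, hc, huc, hden, hdist⟩ :=
    exists_completion (rho T u w) h.rho_self h.rho_comm h.rho_tri h.rho_lip
  refine ⟨Y, inferInstance, inferInstance, o, ⟨hc, huc, hden, ?_, ?_, ?_⟩, ?_, ?_⟩
  · simpa only [hdist] using h.l2
  · simpa only [hdist] using fun a b δ => h.inner
  · simpa only [hdist] using h.iso
  · intro η hη
    simpa only [hdist] using h.maxp hη
  · refine ⟨u s, fun a b => ?_, h.conn s hs, exists_levels (u s) (h.bdd s hs) hn⟩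
    have := (h.le_dK 1 hs a b).trans (h.dK_le_rho a b)
    rwa [w1, inv_one, one_mul, one_mul, one_mul, ← hdist] at this

end Crest.Agent.R224
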