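import Crest.Agent.R224.Defs

/-! # Row 224: an invariant metric on the universal cover -/

namespace Crest.Agent.R224

open Set Filter Topology

namespace MetricAux

theorem lift_emb {Y E Z : Type} [TopologicalSpace Y] [TopologicalSpace E] [TopologicalSpace Z]
    {q : E → Z} (hq : IsOpenEmbedding q) {f : Y → Z} (hf : IsOpenEmbedding f)
    (h : range f ⊆ range q) : ∃ e : Y → E, IsOpenEmbedding e ∧ q ∘ e = f := by
  have h' : ∀ y, ∃ e, q e = f y := fun y => h ⟨y, rfl⟩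
  choose e he using h'
  have hc : q ∘ e = f := funext he
  exact ⟨e, IsOpenEmbedding.of_comp e hq (hc ▸ hf), hc⟩

theorem emb_restrict {E M : Type} [TopologicalSpace E] [TopologicalSpace M] {p : E → M}
    (hc : Continuous p) (ho : IsOpenMap p) {S : Set E} (hS : IsOpen S) (hi : InjOn p S) :
    IsOpenEmbedding (fun x : S => p x) :=
  IsOpenEmbedding.of_continuous_injective_isOpenMap (hc.comp continuous_subtype_val)
    (fun a b hab => Subtype.ext (hi a.2 b.2 hab)) (ho.comp hS.isOpenMap_subtype_val)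

theorem cell_M {M : Type} [TopologicalSpace M] [ChartedSpace (EuclideanSpace ℝ (Fin 4)) M]
    {O : Set M} (hO : IsOpen O) {m : M} (hm : m ∈ O) :
    ∃ f : (Fin 4 → ℝ) → M, IsOpenEmbedding f ∧ m ∈ range f ∧ range f ⊆ O := by
  set c := chartAt (EuclideanSpace ℝ (Fin 4)) m with hc
  have hmc : m ∈ c.source := mem_chart_source _ m
  have hW : IsOpen (c '' (c.source ∩ O)) := c.isOpen_image_source_inter hO
  obtain ⟨r, hr, hball⟩ := Metric.isOpen_iff.1 hW (c m) ⟨m, ⟨hmc, hm⟩, rfl⟩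
  set u : OpenPartialHomeomorph (EuclideanSpace ℝ (Fin 4)) (EuclideanSpace ℝ (Fin 4)) :=
    OpenPartialHomeomorph.univBall (c m) r with hu
  have hus : u.source = univ := OpenPartialHomeomorph.univBall_source _ _
  have hut : u.target = Metric.ball (c m) r := OpenPartialHomeomorph.univBall_target _ hr
  have hue : IsOpenEmbedding u := u.isOpenEmbedding hus
  have hur : range u = Metric.ball (c m) r := by
    rw [← image_univ, ← hus, u.image_source_eq_target, hut]
  set k : (Fin 4 → ℝ) ≃ₜ EuclideanSpace ℝ (Fin 4) :=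
    (EuclideanSpace.equiv (Fin 4) ℝ).symm.toHomeomorph with hk
  have hf0 : IsOpenEmbedding (u ∘ k) := hue.comp k.isOpenEmbedding
  have hr0 : range (u ∘ k) = Metric.ball (c m) r := by
    rw [range_comp, k.surjective.range_eq, image_univ, hur]
  obtain ⟨e, he, hce⟩ := lift_emb c.isOpenEmbedding_restrict hf0 (by
    rw [hr0, range_domRestrict]
    exact hball.trans (image_mono inter_subset_left))
  have hce' : ∀ y, c (e y) = u (k y) := fun y => congrFun hce y
  refine ⟨fun y => (e y : M), c.open_source.isOpenEmbedding_subtypeVal.comp he, ?_, ?_⟩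
  · have : c m ∈ range (u ∘ k) := by rw [hr0]; exact Metric.mem_ball_self hr
    obtain ⟨y, hy⟩ := this
    exact ⟨y, c.injOn (e y).2 hmc ((hce' y).trans hy)⟩
  · rintro _ ⟨y, rfl⟩
    have : u (k y) ∈ Metric.ball (c m) r := by rw [← hr0]; exact ⟨y, rfl⟩
    obtain ⟨m', ⟨hm1, hm2⟩, hm3⟩ := hball this
    have : m' = (e y : M) := c.injOn hm1 (e y).2 (hm3.trans (hce' y).symm)
    show (e y : M) ∈ O
    exact this ▸ hm2

theorem cell_E {M E : Type} [TopologicalSpace M] [ChartedSpace (EuclideanSpace ℝ (Fin 4)) M]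
    [TopologicalSpace E] {p : E → M} (hp : IsLocalHomeomorph p) {N : Set E} (hN : IsOpen N)
    {x : E} (hx : x ∈ N) : ∃ V, IsCell V ∧ x ∈ V ∧ V ⊆ N := by
  obtain ⟨S, hS, hxS, hi⟩ := hp.isLocallyInjective x
  have hNS : IsOpen (N ∩ S) := hN.inter hS
  have hq := emb_restrict hp.continuous hp.isOpenMap hNS (hi.mono inter_subset_right)
  obtain ⟨f, hf, hm, hO⟩ := cell_M (hp.isOpenMap _ hNS) (m := p x) ⟨x, ⟨hx, hxS⟩, rfl⟩
  obtain ⟨e, he, hce⟩ := lift_emb hq hf (by
    refine hO.trans ?_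
    rintro _ ⟨z, hz, rfl⟩
    exact ⟨⟨z, hz⟩, rfl⟩)
  refine ⟨range fun y => (e y : E), ⟨_, hNS.isOpenEmbedding_subtypeVal.comp he, rfl⟩, ?_, ?_⟩
  · obtain ⟨y, hy⟩ := hm
    exact ⟨y, hi (e y).2.2 hxS ((congrFun hce y).trans hy)⟩
  · rintro _ ⟨y, rfl⟩
    exact (e y).2.1

/-- finitely many sheets with bump functions. -/
structure Data (G M E : Type) [Group G] [MetricSpace M] [TopologicalSpace E] [MulAction G E]
    (p : E → M) (ι : Type) where
  S : ι → Set E
  φ : ι → C(M, ℝ)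
  cont : Continuous p
  opn : IsOpenMap p
  act : ∀ g : G, Continuous fun e : E => g • e
  free : ∀ (g : G) (e : E), g • e = e → g = 1
  fib : ∀ e e' : E, p e = p e' ↔ ∃ g : G, g • e = e'
  hS : ∀ i, IsOpen (S i)
  inj : ∀ i, InjOn p (S i)
  supp : ∀ i, tsupport (φ i) ⊆ p '' S i
  bdd : ∀ i m, φ i m ∈ Icc (0 : ℝ) 1
  one : ∀ m, ∃ i, φ i m = 1

variable {G M E : Type} [Group G] [MetricSpace M] [TopologicalSpace E] [MulAction G E]
  {p : E → M} {ι : Type} (D : Data G M E p ι)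

namespace Data

include D in
theorem p_smul (g : G) (e : E) : p (g • e) = p e := ((D.fib e (g • e)).2 ⟨g, rfl⟩).symm

theorem sheet_unique {i : ι} {g h : G} {e : E} (hg : g • e ∈ D.S i) (hh : h • e ∈ D.S i) :
    g = h := by
  have h1 : g • e = h • e := D.inj i hg hh (by rw [D.p_smul, D.p_smul])
  have h2 : (h⁻¹ * g) • e = e := by rw [mul_smul, h1, inv_smul_smul]
  exact (inv_mul_eq_one.1 (D.free _ _ h2)).symm

theorem exists_sheet {i : ι} {e : E} (he : p e ∈ p '' D.S i) : ∃ g : G, g • e ∈ D.S i := by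
  obtain ⟨s, hs, hps⟩ := he
  obtain ⟨g, hg⟩ := (D.fib e s).1 hps.symm
  exact ⟨g, hg ▸ hs⟩

theorem exists_one (e : E) : ∃ (i : ι) (g : G), D.φ i (p e) = 1 ∧ g • e ∈ D.S i := by
  obtain ⟨i, hi⟩ := D.one (p e)
  obtain ⟨g, hg⟩ := D.exists_sheet (i := i) (e := e)
    (D.supp i (subset_tsupport _ (by rw [Function.mem_support, hi]; exact one_ne_zero)))
  exact ⟨i, g, hi, hg⟩

open Classical in
/-- the bump function on one sheet. -/
noncomputable def ψ (j : ι × G) (e : E) : ℝ := if j.2 • e ∈ D.S j.1 then D.φ j.1 (p e) else 0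

theorem ψ_pos {i : ι} {g : G} {e : E} (h : g • e ∈ D.S i) : D.ψ (i, g) e = D.φ i (p e) :=
  if_pos h

theorem ψ_neg {i : ι} {g : G} {e : E} (h : g • e ∉ D.S i) : D.ψ (i, g) e = 0 := if_neg h

theorem ψ_mem (j : ι × G) (e : E) : D.ψ j e ∈ Icc (0 : ℝ) 1 := by
  unfold ψ
  split_ifs
  · exact D.bdd _ _
  · exact ⟨le_rfl, zero_le_one⟩

theorem ψ_smul (i : ι) (g k : G) (e : E) : D.ψ (i, g) (k • e) = D.ψ (i, g * k) e := by
  by_cases h : (g * k) • e ∈ D.S i
  · rw [D.ψ_pos h, D.ψ_pos (by rwa [← mul_smul]), D.p_smul]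
  · rw [D.ψ_neg h, D.ψ_neg (by rwa [← mul_smul])]

theorem bdd_ψ (e e' : E) : BddAbove (range fun j => |D.ψ j e - D.ψ j e'|) := by
  refine ⟨1, ?_⟩
  rintro _ ⟨j, rfl⟩
  have h1 := D.ψ_mem j e
  have h2 := D.ψ_mem j e'
  rw [abs_le]
  constructor <;> linarith [h1.1, h1.2, h2.1, h2.2]

/-- the invariant distance. -/
noncomputable def d (e e' : E) : ℝ := max (dist (p e) (p e')) (⨆ j, |D.ψ j e - D.ψ j e'|)

theorem le_d (j : ι × G) (e e' : E) : |D.ψ j e - D.ψ j e'| ≤ D.d e e' :=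
  (le_ciSup (D.bdd_ψ e e') j).trans (le_max_right _ _)

theorem dist_le_d (e e' : E) : dist (p e) (p e') ≤ D.d e e' := le_max_left _ _

theorem d_nonneg (e e' : E) : 0 ≤ D.d e e' := dist_nonneg.trans (D.dist_le_d e e')

theorem d_le {e e' : E} {r : ℝ} (h1 : dist (p e) (p e') ≤ r)
    (h2 : ∀ j, |D.ψ j e - D.ψ j e'| ≤ r) : D.d e e' ≤ r :=
  max_le h1 (Real.iSup_le h2 (dist_nonneg.trans h1))

theorem d_self (e : E) : D.d e e = 0 :=
  le_antisymm (D.d_le (by simp) fun j => by simp) (D.d_nonneg e e)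

theorem d_comm (e e' : E) : D.d e e' = D.d e' e := by
  unfold d
  rw [dist_comm]
  simp only [abs_sub_comm (D.ψ _ e)]

theorem d_triangle (x y z : E) : D.d x z ≤ D.d x y + D.d y z :=
  D.d_le ((dist_triangle _ (p y) _).trans (add_le_add (D.dist_le_d x y) (D.dist_le_d y z)))
    fun j => (abs_sub_le _ (D.ψ j y) _).trans (add_le_add (D.le_d j x y) (D.le_d j y z))

theorem d_smul_le (k : G) (e e' : E) : D.d (k • e) (k • e') ≤ D.d e e' := by
  refine D.d_le ?_ ?_
  · rw [D.p_smul, D.p_smul]; exact D.dist_le_d e e'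
  · rintro ⟨i, g⟩
    rw [D.ψ_smul, D.ψ_smul]
    exact D.le_d _ e e'

theorem d_smul (k : G) (e e' : E) : D.d (k • e) (k • e') = D.d e e' := by
  refine le_antisymm (D.d_smul_le k e e') ?_
  have := D.d_smul_le k⁻¹ (k • e) (k • e')
  rwa [inv_smul_smul, inv_smul_smul] at this

theorem mem_sheet {i : ι} {g : G} {x y : E} (h1 : D.φ i (p x) = 1) (h2 : g • x ∈ D.S i)
    (h : D.d x y < 1) : g • y ∈ D.S i := by
  by_contra hy
  have := D.le_d (i, g) x y
  rw [D.ψ_pos h2, D.ψ_neg hy, h1, sub_zero, abs_one] at this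
  linarith

theorem one_le_d {g : G} (hg : g ≠ 1) (x : E) : 1 ≤ D.d (g • x) x := by
  by_contra hlt
  rw [not_le, D.d_comm] at hlt
  obtain ⟨i, h, h1, h2⟩ := D.exists_one x
  have h3 := D.mem_sheet h1 h2 hlt
  rw [← mul_smul] at h3
  exact hg (mul_eq_left.1 (D.sheet_unique h3 h2))

theorem ball_subset {N : Set E} (hN : IsOpen N) {x : E} (hx : x ∈ N) :
    ∃ ε > 0, ∀ y, D.d x y < ε → y ∈ N := by
  obtain ⟨i, g, h1, h2⟩ := D.exists_one x
  have hU : IsOpen (N ∩ (fun e : E => g • e) ⁻¹' D.S i) := hN.inter ((D.hS i).preimage (D.act g))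
  obtain ⟨r, hr, hball⟩ := Metric.isOpen_iff.1 (D.opn _ hU) (p x) ⟨x, ⟨hx, h2⟩, rfl⟩
  refine ⟨min 1 r, lt_min one_pos hr, fun y hy => ?_⟩
  have h3 := D.mem_sheet h1 h2 (hy.trans_le (min_le_left _ _))
  have h4 : p y ∈ Metric.ball (p x) r := by
    rw [Metric.mem_ball, dist_comm]
    exact (D.dist_le_d x y).trans_lt (hy.trans_le (min_le_right _ _))
  obtain ⟨n, ⟨hn1, hn2⟩, hn3⟩ := hball h4
  have h5 : g • n = g • y := D.inj i hn2 h3 (by rw [D.p_smul, D.p_smul, hn3])
  exact (smul_left_cancel g h5) ▸ hn1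

theorem ev_ψ (i : ι) (x : E) :
    ∀ᶠ y in 𝓝 x, ∀ g : G, |D.ψ (i, g) x - D.ψ (i, g) y| ≤ |D.φ i (p x) - D.φ i (p y)| := by
  by_cases hx : p x ∈ p '' D.S i
  · obtain ⟨h, hh⟩ := D.exists_sheet hx
    have hU : IsOpen ((fun e : E => h • e) ⁻¹' D.S i) := (D.hS i).preimage (D.act h)
    filter_upwards [hU.mem_nhds hh] with y hy g
    by_cases hg : g = h
    · subst hg
      rw [D.ψ_pos hh, D.ψ_pos hy]
    · rw [D.ψ_neg fun h' => hg (D.sheet_unique h' hh), D.ψ_neg fun h' => hg (D.sheet_unique h' hy),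
        sub_zero, abs_zero]
      exact abs_nonneg _
  · have hx' : p x ∉ tsupport (D.φ i) := fun h => hx (D.supp i h)
    have hU : IsOpen (p ⁻¹' (tsupport (D.φ i))ᶜ) :=
      (isClosed_tsupport _).isOpen_compl.preimage D.cont
    have key : ∀ (y : E) (g : G), p y ∉ tsupport (D.φ i) → D.ψ (i, g) y = 0 := by
      intro y g hy
      by_cases h : g • y ∈ D.S i
      · rw [D.ψ_pos h]; exact image_eq_zero_of_notMem_tsupport hy
      · exact D.ψ_neg h
    filter_upwards [hU.mem_nhds hx'] with y hy g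
    rw [key x g hx', key y g hy, sub_zero, abs_zero]
    exact abs_nonneg _

theorem ev_d [Finite ι] (x : E) {ε : ℝ} (hε : 0 < ε) : ∀ᶠ y in 𝓝 x, D.d x y < ε := by
  have h1 : ∀ᶠ y in 𝓝 x, dist (p x) (p y) < ε / 2 := by
    have : Tendsto (fun y => dist (p x) (p y)) (𝓝 x) (𝓝 (dist (p x) (p x))) :=
      (continuous_const.dist D.cont).tendsto x
    rw [dist_self] at this
    exact this.eventually (gt_mem_nhds (half_pos hε))
  have h2 : ∀ i, ∀ᶠ y in 𝓝 x, |D.φ i (p x) - D.φ i (p y)| < ε / 2 := by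
    intro i
    have : Tendsto (fun y => |D.φ i (p x) - D.φ i (p y)|) (𝓝 x)
        (𝓝 |D.φ i (p x) - D.φ i (p x)|) :=
      ((continuous_const.sub ((D.φ i).continuous.comp D.cont)).abs).tendsto x
    rw [sub_self, abs_zero] at this
    exact this.eventually (gt_mem_nhds (half_pos hε))
  filter_upwards [h1, eventually_all.2 h2, eventually_all.2 fun i => D.ev_ψ i x] with y a b c
  exact (D.d_le a.le fun j => (c j.1 j.2).trans (b j.1).le).trans_lt (half_lt_self hε)

theorem eq_of_d {x y : E} (h : D.d x y = 0) : x = y := by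
  have h1 : p x = p y := dist_le_zero.1 (h ▸ D.dist_le_d x y)
  obtain ⟨g, rfl⟩ := (D.fib x y).1 h1
  by_cases hg : g = 1
  · rw [hg, one_smul]
  · have := D.one_le_d hg x
    rw [D.d_comm, h] at this
    exact absurd this (by norm_num)

/-- the metric. -/
@[reducible] noncomputable def metric [Finite ι] : MetricSpace E :=
  MetricSpace.ofDistTopology D.d D.d_self D.d_comm D.d_triangle
    (fun s => ⟨fun hs _ hx => D.ball_subset hs hx, fun h => isOpen_iff_mem_nhds.2 fun x hx => by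
      obtain ⟨ε, hε, hb⟩ := h x hx
      exact (D.ev_d x hε).mono hb⟩)
    (fun _ _ => D.eq_of_d)

include D in
theorem cocpt [Finite ι] [CompactSpace M] :
    ∃ K : Set E, IsCompact K ∧ ∀ x : E, ∃ g : G, g • x ∈ K := by
  refine ⟨⋃ i, D.S i ∩ p ⁻¹' tsupport (D.φ i), isCompact_iUnion fun i => ?_, fun x => ?_⟩
  · have hq := emb_restrict D.cont D.opn (D.hS i) (D.inj i)
    have h1 : IsCompact ((fun x : D.S i => p x) ⁻¹' tsupport (D.φ i)) := by
      refine hq.isInducing.isCompact_preimage' (isClosed_tsupport _).isCompact ?_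
      intro m hm
      obtain ⟨s, hs, rfl⟩ := D.supp i hm
      exact ⟨⟨s, hs⟩, rfl⟩
    have h2 := h1.image continuous_subtype_val
    have e : Subtype.val '' ((fun x : D.S i => p x) ⁻¹' tsupport (D.φ i))
        = D.S i ∩ p ⁻¹' tsupport (D.φ i) := by
      ext z
      constructor
      · rintro ⟨w, hw, rfl⟩
        exact ⟨w.2, hw⟩
      · rintro ⟨h1, h2⟩
        exact ⟨⟨z, h1⟩, h2, rfl⟩
    rwa [e] at h2
  · obtain ⟨i, g, h1, h2⟩ := D.exists_one x
    refine ⟨g, mem_iUnion.2 ⟨i, h2, ?_⟩⟩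
    rw [mem_preimage, D.p_smul]
    exact subset_tsupport _ (by rw [Function.mem_support, h1]; exact one_ne_zero)

end Data

theorem exists_data [CompactSpace M] (hp : IsLocalHomeomorph p) (hs : Function.Surjective p)
    (act : ∀ g : G, Continuous fun e : E => g • e) (free : ∀ (g : G) (e : E), g • e = e → g = 1)
    (fib : ∀ e e' : E, p e = p e' ↔ ∃ g : G, g • e = e') :
    ∃ (ι : Type) (_ : Finite ι), Nonempty (Data G M E p ι) := by
  choose S hS hxS hi using hp.isLocallyInjective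
  have h1 : ∀ x : E, ∃ (C : Set M) (f : C(M, ℝ)), C ∈ 𝓝 (p x) ∧ tsupport f ⊆ p '' S x ∧
      EqOn f 1 C ∧ ∀ m, f m ∈ Icc (0 : ℝ) 1 := by
    intro x
    have hO : IsOpen (p '' S x) := hp.isOpenMap _ (hS x)
    obtain ⟨C, hC, hCO, hCc⟩ := exists_mem_nhds_isClosed_subset (hO.mem_nhds ⟨x, hxS x, rfl⟩)
    obtain ⟨f, hf1, hf2, hf3⟩ := exists_tsupport_one_of_isOpen_isClosed hO
      isClosed_closure.isCompact hCO hCc
    exact ⟨C, f, hC, hf1, hf2, hf3⟩
  choose C f hC hf1 hf2 hf3 using h1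
  choose σ hσ using hs
  obtain ⟨t, ht⟩ := CompactSpace.elim_nhds_subcover (fun m => C (σ m))
    (fun m => by simpa only [hσ] using hC (σ m))
  refine ⟨t, inferInstance, ⟨⟨fun i => S (σ i), fun i => f (σ i), hp.continuous, hp.isOpenMap,
    act, free, fib, fun i => hS _, fun i => hi _, fun i => hf1 _, fun i => hf3 _, fun m => ?_⟩⟩⟩
  have hm : m ∈ ⋃ x ∈ t, C (σ x) := ht ▸ mem_univ m
  obtain ⟨x, hx, hmx⟩ := mem_iUnion₂.1 hm
  exact ⟨⟨x, hx⟩, hf2 _ hmx⟩

theorem main [CompactSpace M] [ChartedSpace (EuclideanSpace ℝ (Fin 4)) M] [ContractibleSpace E]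
    (hp : IsLocalHomeomorph p) (hs : Function.Surjective p)
    (act : ∀ g : G, Continuous fun e : E => g • e) (free : ∀ (g : G) (e : E), g • e = e → g = 1)
    (fib : ∀ e e' : E, p e = p e' ↔ ∃ g : G, g • e = e') :
    ∃ (X : Type) (_ : MetricSpace X) (_ : MulAction G X), Top0 G X := by
  obtain ⟨ι, _, ⟨D⟩⟩ := exists_data hp hs act free fib
  have hc := D.cocpt
  have hcell : ∀ (x : E) (N : Set E), IsOpen N → x ∈ N → ∃ V, IsCell V ∧ x ∈ V ∧ V ⊆ N :=
    fun x N hN hx => cell_E hp hN hx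
  have hcontr : ContractibleSpace E := inferInstance
  refine ⟨E, D.metric, inferInstance, ?_⟩
  letI : MetricSpace E := D.metric
  exact ⟨D.d_smul, ⟨1, one_pos, fun g x hg => D.one_le_d hg x⟩, hc,
    fun x ε hε => hcell x _ Metric.isOpen_ball (Metric.mem_ball_self hε), hcontr⟩

end MetricAux

theorem metricP : MetricP := by
  intro G M E _ _ _ _ _ _ _ _ _ p hp hs act free fib
  letI : MetricSpace M := TopologicalSpace.metrizableSpaceMetric M
  exact MetricAux.main hp.isLocalHomeomorph hs act free fib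

end Crest.Agent.R224
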