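import Crest.Agent.R224.Api

/-! Row 224: finiteness of thick translates. -/

namespace Crest.Agent.R224

open Crest.Agent.Lib.KyFan Set Filter Topology
open scoped Pointwise

namespace PFAux

variable {G : Type} [Group G] {Y : Type} [MetricSpace Y] [MulAction G Y] {T : Finset G} {o : Y}

theorem in_of_btw (h : W T o) {y l r z : Zt G o} {H : Set G} (hH : Cut T o y.1 H)
    (hl : In o l.1 H) (hr : In o r.1 Hᶜ) (hz : Btw T z l r) : In o z.1 H := by
  obtain ⟨hly, hry⟩ := h.ne_of_in hH hl hr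
  have hs : Sep T y l r := ⟨hly, hry, H, hH, hl, hr⟩
  have hzy : z ≠ y := by
    rintro rfl
    exact hly (h.btw_antisymm hz.symm hs.btw.symm)
  refine (hH.in_or h.sp fun e => hzy (Subtype.ext e)).resolve_right fun hz' => ?_
  rcases hz with e | e | e
  · exact hl.not_compl h.sp (e ▸ hz')
  · exact h.sep_ne hs e
  · exact h.not_sep_of_in hH.compl (by rwa [compl_compl]) hz' hr e

theorem order_of_core (h : W T o) {a a' b b' u v : Zt G o} (hu : u ∈ Core T a a' b b')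
    (hv : v ∈ Core T a a' b b') (huv : Btw T a u v) :
    Btw T a u v ∧ Btw T a' u v ∧ Btw T u v b ∧ Btw T u v b' :=
  ⟨huv, (h.btw_trans' (h.btw_trans' huv hv.1).symm hu.2.2.1.symm).symm, h.btw_trans' huv hv.1,
    h.btw_trans' huv hv.2.1⟩

theorem finite_main (h : W T o) {l r r1 r2 a a' b b' : Zt G o} (h12 : r1 ≠ r2)
    (h1 : Sep T r1 l r) (h2 : Sep T r2 l r) (ha : a ≠ a') (hb : b ≠ b') :
    {g : G | Btw T (g • a) l r ∧ Btw T (g • a') l r ∧ Btw T l r (g • b) ∧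
      Btw T l r (g • b')}.Finite := by
  obtain ⟨-, -, H1, c1, l1, s1⟩ := h1
  obtain ⟨-, -, H2, c2, l2, s2⟩ := h2
  have hd := Zt.dist_pos h12
  have hc : 0 < dist r1.1 r2.1 / 4 := by positivity
  obtain ⟨δ, hδ, hball⟩ := h.sp.const_ball ((c1 _ hc).union (c2 _ hc)) hc
  obtain ⟨F1, f1, g1⟩ := h.conv.pair (a := a.1) (b := a'.1) (fun e => ha (Subtype.ext e))
    (half_pos hδ)
  obtain ⟨F2, f2, g2⟩ := h.conv.pair (a := b.1) (b := b'.1) (fun e => hb (Subtype.ext e))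
    (half_pos hδ)
  refine (f1.union f2).subset fun g ⟨ba, ba', bb, bb'⟩ => ?_
  by_contra hg
  simp only [mem_union, not_or] at hg
  obtain ⟨z, hz, hzd⟩ : ∃ z : Zt G o, Btw T z l r ∧ dist z.1 (g • o) ≤ δ / 2 := by
    rcases g1 g hg.1 with e | e
    exacts [⟨g • a, ba, e⟩, ⟨g • a', ba', e⟩]
  obtain ⟨z', hz', hzd'⟩ : ∃ z : Zt G o, Btw T l r z ∧ dist z.1 (g • o) ≤ δ / 2 := by
    rcases g2 g hg.2 with e | e
    exacts [⟨g • b, bb, e⟩, ⟨g • b', bb', e⟩]
  have key : ∀ (y : Zt G o) (H : Set G), Cut T o y.1 H → In o l.1 H → In o r.1 Hᶜ →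
      (∀ x x' : G, dist (x • o) (g • o) < δ → dist (x' • o) (g • o) < δ → (x ∈ H ↔ x' ∈ H)) →
      False := by
    intro y H hH hl hr hconst
    obtain ⟨ρ, hρ, hin⟩ := in_of_btw h hH hl hr hz
    obtain ⟨ρ', hρ', hin'⟩ := in_of_btw h hH.compl hr (by rwa [compl_compl]) hz'.symm
    obtain ⟨x, hx⟩ := h.sp.exists_vertex z.1 (lt_min hρ (half_pos hδ))
    obtain ⟨x', hx'⟩ := h.sp.exists_vertex z'.1 (lt_min hρ' (half_pos hδ))
    refine hin' x' (hx'.trans_le (min_le_left _ _)) ((hconst x x' ?_ ?_).1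
      (hin x (hx.trans_le (min_le_left _ _))))
    · linarith [dist_triangle (x • o) z.1 (g • o), hx.trans_le (min_le_right _ _)]
    · linarith [dist_triangle (x' • o) z'.1 (g • o), hx'.trans_le (min_le_right _ _)]
  rcases le_or_gt (dist r1.1 r2.1 / 2) (dist (g • o) r1.1) with hw | hw
  · refine key r1 H1 c1 l1 s1 (hball H1 (g • o) fun x hx hxd => Or.inl ⟨hx, ?_⟩)
    linarith [dist_triangle_left (g • o) r1.1 (x • o)]
  · refine key r2 H2 c2 l2 s2 (hball H2 (g • o) fun x hx hxd => Or.inr ⟨hx, ?_⟩)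
    linarith [dist_triangle_left (g • o) r2.1 (x • o), dist_triangle_left r1.1 r2.1 (g • o)]

end PFAux

theorem pfP : PFP := by
  intro G _ Y _ _ T o h l r r1 r2 a a' b b' h12 h1 h2 ha hb
  have f1 := (PFAux.finite_main h h12 h1 h2 ha hb).inv
  have f2 := (PFAux.finite_main h h12 h1.symm h2.symm ha hb).inv
  have key : ∀ (g : G) (u v : Zt G o), g • u ∈ Core T a a' b b' → g • v ∈ Core T a a' b b' →
      Btw T a (g • u) (g • v) → Btw T (g⁻¹ • a) u v ∧ Btw T (g⁻¹ • a') u v ∧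
        Btw T u v (g⁻¹ • b) ∧ Btw T u v (g⁻¹ • b') := by
    intro g u v hu hv huv
    obtain ⟨k1, k2, k3, k4⟩ := PFAux.order_of_core h hu hv huv
    refine ⟨(h.btw_smul g).1 ?_, (h.btw_smul g).1 ?_, (h.btw_smul g).1 ?_, (h.btw_smul g).1 ?_⟩ <;>
      rwa [smul_inv_smul]
  refine (f1.union f2).subset fun g ⟨hl, hr⟩ => ?_
  rcases h.btw_total hl.1 hr.1 with e | e
  · exact Or.inl (mem_inv.2 (key g l r hl hr e))
  · exact Or.inr (mem_inv.2 (key g r l hr hl e))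

end Crest.Agent.R224
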