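import Crest.Agent.R224.Api

/-! Row 224: stabilisers of cut points are parabolic. -/

namespace Crest.Agent.R224

open Crest.Agent.Lib.KyFan Set Filter Topology
open scoped Pointwise

variable {G : Type} [Group G] {Y : Type} [MetricSpace Y] [MulAction G Y] {T : Finset G} {o : Y}

namespace ParAux

theorem mem_closure_pair [DecidableEq G] (h : G) {c : G} :
    c ∈ Subgroup.closure (({h, h⁻¹} : Finset G) : Set G) ↔ ∃ k : ℤ, h ^ k = c := by
  rw [← Subgroup.mem_zpowers_iff]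
  have : Subgroup.closure (({h, h⁻¹} : Finset G) : Set G) = Subgroup.zpowers h := by
    apply le_antisymm
    · rw [Subgroup.closure_le]
      intro x hx
      simp only [Finset.coe_insert, Finset.coe_singleton, mem_insert_iff, mem_singleton_iff] at hx
      rcases hx with rfl | rfl
      · exact Subgroup.mem_zpowers _
      · exact inv_mem (Subgroup.mem_zpowers _)
    · rw [Subgroup.zpowers_le]
      exact Subgroup.subset_closure (by simp)
  rw [this]

/-- an infinite cyclic group is recurrent. -/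
theorem not_trans [DecidableEq G] {h : G} (hh : ¬ IsOfFinOrder h) :
    ¬ Trans ({h, h⁻¹} : Finset G) := by
  rintro ⟨κ, hκ, H⟩
  have hinj : Function.Injective fun k : ℤ => h ^ k := injective_zpow_iff_not_isOfFinOrder.2 hh
  obtain ⟨N, hN⟩ := exists_nat_gt (max 1 (6 / κ))
  have hN1 : (1 : ℝ) < N := (le_max_left _ _).trans_lt hN
  have hN6 : 6 / κ < N := (le_max_right _ _).trans_lt hN
  have hN0 : (0 : ℝ) < N := by linarith
  let ψ : ℤ → ℝ := fun k => max 0 (1 - |(k : ℝ)| / N)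
  let φ : G → ℝ := Function.extend (fun k : ℤ => h ^ k) ψ 0
  have hφ : ∀ k : ℤ, φ (h ^ k) = ψ k := fun k => hinj.extend_apply ψ 0 k
  have hψ0 : ∀ k : ℤ, (N : ℤ) ≤ |k| → ψ k = 0 := fun k hk => by
    refine max_eq_left ?_
    have : (N : ℝ) ≤ |(k : ℝ)| := by exact_mod_cast hk
    rw [sub_nonpos, one_le_div hN0]
    exact this
  have hlip : ∀ k l : ℤ, |k - l| ≤ 1 → (ψ k - ψ l) ^ 2 ≤ 1 / (N : ℝ) ^ 2 := fun k l hkl => by
    have h1 : |ψ k - ψ l| ≤ 1 / N := by
      simp only [ψ, max_comm (0 : ℝ)]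
      refine (abs_max_sub_max_le_abs _ _ _).trans ?_
      have h2 : |(k : ℝ) - l| ≤ 1 := by exact_mod_cast hkl
      have h3 : 1 - |(k : ℝ)| / N - (1 - |(l : ℝ)| / N) = (|(l : ℝ)| - |(k : ℝ)|) / N := by ring
      rw [h3, abs_div, abs_of_pos hN0]
      refine div_le_div_of_nonneg_right ?_ hN0.le
      exact (abs_abs_sub_abs_le_abs_sub _ _).trans (by rwa [abs_sub_comm])
    rw [← sq_abs, ← one_pow 2, ← div_pow]
    exact pow_le_pow_left₀ (abs_nonneg _) h1 2
  have hne : h ≠ h⁻¹ := fun e => by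
    have : (1 : ℤ) = -1 := hinj (by simpa using e)
    omega
  have hfin : {c | c ∈ Subgroup.closure (({h, h⁻¹} : Finset G) : Set G) ∧ φ c ≠ 0}.Finite := by
    refine ((Set.finite_Icc (-(N : ℤ)) N).image fun k : ℤ => h ^ k).subset ?_
    rintro c ⟨hc, hc0⟩
    obtain ⟨k, rfl⟩ := (mem_closure_pair h).1 hc
    refine ⟨k, ?_, rfl⟩
    rw [hφ] at hc0
    have := mt (hψ0 k) hc0
    exact abs_le.1 (not_le.1 this).le
  have key := H φ hfin
  have h1 : φ 1 = 1 := by
    have := hφ 0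
    simpa [ψ] using this
  let e : ℤ → Subgroup.closure (({h, h⁻¹} : Finset G) : Set G) :=
    fun k => ⟨h ^ k, (mem_closure_pair h).2 ⟨k, rfl⟩⟩
  have hE : ∀ k : ℤ, ∑ u ∈ ({h, h⁻¹} : Finset G), (φ (((e k : _) : G) * u) - φ (e k)) ^ 2
      = (ψ (k + 1) - ψ k) ^ 2 + (ψ (k - 1) - ψ k) ^ 2 := fun k => by
    rw [Finset.sum_pair hne, ← hφ, ← hφ, ← hφ, zpow_add_one, zpow_sub_one]
  rw [h1, tsum_eq_sum (s := (Finset.Icc (-(N : ℤ)) N).image e)] at key
  · have h2 : ∑ c ∈ (Finset.Icc (-(N : ℤ)) N).image e,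
        ∑ u ∈ ({h, h⁻¹} : Finset G), (φ ((c : G) * u) - φ c) ^ 2
          ≤ ((Finset.Icc (-(N : ℤ)) N).image e).card • (2 / (N : ℝ) ^ 2) := by
      refine Finset.sum_le_card_nsmul _ _ _ fun c hc => ?_
      obtain ⟨k, -, rfl⟩ := Finset.mem_image.1 hc
      rw [hE]
      have a1 := hlip (k + 1) k (by simp)
      have a2 := hlip (k - 1) k (by simp)
      have : 2 / (N : ℝ) ^ 2 = 1 / (N : ℝ) ^ 2 + 1 / (N : ℝ) ^ 2 := by ring
      linarith
    have h3 : (((Finset.Icc (-(N : ℤ)) N).image e).card : ℝ) ≤ 3 * N := by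
      have : ((Finset.Icc (-(N : ℤ)) N).image e).card ≤ 2 * N + 1 :=
        Finset.card_image_le.trans (by rw [Int.card_Icc]; omega)
      have : (((Finset.Icc (-(N : ℤ)) N).image e).card : ℝ) ≤ 2 * N + 1 := by exact_mod_cast this
      linarith
    rw [nsmul_eq_mul] at h2
    have h4 : κ ≤ 3 * N * (2 / (N : ℝ) ^ 2) := by
      have := mul_le_mul_of_nonneg_right h3 (by positivity : (0 : ℝ) ≤ 2 / (N : ℝ) ^ 2)
      linarith
    have h5 : 3 * N * (2 / (N : ℝ) ^ 2) = 6 / N := by field_simp; ring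
    rw [h5, le_div_iff₀ hN0] at h4
    rw [div_lt_iff₀ hκ] at hN6
    linarith
  · rintro ⟨c, hc⟩ hc'
    obtain ⟨k, rfl⟩ := (mem_closure_pair h).1 hc
    have hk : (N : ℤ) < |k| := by
      by_contra hk
      exact hc' (Finset.mem_image.2 ⟨k, Finset.mem_Icc.2 (abs_le.1 (not_lt.1 hk)), rfl⟩)
    refine (hE k).trans ?_
    rw [hψ0 k hk.le, hψ0 (k + 1) (by rcases abs_cases k with h | h <;> rcases abs_cases (k + 1) with h' | h' <;> omega),
      hψ0 (k - 1) (by rcases abs_cases k with h | h <;> rcases abs_cases (k - 1) with h' | h' <;> omega)]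
    simp

/-- north-south dynamics. -/
theorem north_south (hw : W T o) {y : Y} {h : G} {ε : ℝ} (hε : 0 < ε) (hh : ¬ IsOfFinOrder h)
    (hy : h • y = y) (ho : ε / 2 ≤ dist o y)
    (hU : ∀ w, ε / 2 ≤ dist w y → 7 * ε / 8 ≤ dist (h • w) y) :
    ∃ p : Y, h • p = p ∧ 7 * ε / 8 ≤ dist p y ∧
      (∀ w, w ≠ y → Tendsto (fun n : ℕ => h ^ n • w) atTop (𝓝 p)) ∧
      (∀ w, w ≠ p → Tendsto (fun n : ℕ => (h ^ n)⁻¹ • w) atTop (𝓝 y)) := by
  have hinj : Function.Injective fun n : ℕ => h ^ n := injective_pow_iff_not_isOfFinOrder.2 hh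
  have hinj' : Function.Injective fun n : ℕ => (h ^ n)⁻¹ := inv_injective.comp hinj
  have hev : ∀ F : Set G, F.Finite → ∀ᶠ n : ℕ in atTop, h ^ n ∉ F := fun F hF => by
    rw [← Nat.cofinite_eq_atTop]
    exact hinj.tendsto_cofinite.eventually hF.eventually_cofinite_notMem
  have hev' : ∀ F : Set G, F.Finite → ∀ᶠ n : ℕ in atTop, (h ^ n)⁻¹ ∉ F := fun F hF => by
    rw [← Nat.cofinite_eq_atTop]
    exact hinj'.tendsto_cofinite.eventually hF.eventually_cofinite_notMem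
  have hyn : ∀ n : ℕ, h ^ n • y = y := fun n => by
    induction n with
    | zero => simp
    | succ n ih => rw [pow_succ, mul_smul, hy, ih]
  have hon : ∀ n : ℕ, ε / 2 ≤ dist (h ^ n • o) y := fun n => by
    induction n with
    | zero => simpa using ho
    | succ n ih =>
      rw [pow_succ', mul_smul]
      linarith [hU _ ih]
  -- `h⁻ⁿ o → y`
  have hA : Tendsto (fun n : ℕ => (h ^ n)⁻¹ • o) atTop (𝓝 y) := by
    refine Metric.tendsto_nhds.2 fun η hη => ?_
    obtain ⟨F, hF, h1⟩ := hw.conv (ε / 2) (η / 2) (half_pos hε) (half_pos hη)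
    filter_upwards [hev' F hF] with n hn
    have := h1 _ hn y (by rw [inv_inv, dist_comm]; exact hon n)
    rw [inv_smul_eq_iff.2 (hyn n).symm, dist_comm] at this
    linarith
  have hB : ∀ c η : ℝ, 0 < c → 0 < η → ∀ᶠ n : ℕ in atTop, ∀ w, c ≤ dist w y →
      dist (h ^ n • w) (h ^ n • o) ≤ η := fun c η hc hη => by
    obtain ⟨F, hF, h1⟩ := hw.conv (c / 2) η (half_pos hc) hη
    filter_upwards [hev F hF, Metric.tendsto_nhds.1 hA _ (half_pos hc)] with n hn hn' w hcw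
    exact h1 _ hn w (by linarith [dist_triangle w ((h ^ n)⁻¹ • o) y])
  have hC : CauchySeq fun n : ℕ => h ^ n • o := by
    refine Metric.cauchySeq_iff'.2 fun η hη => ?_
    obtain ⟨N, hN⟩ := eventually_atTop.1 (hB (ε / 2) (η / 2) (half_pos hε) (half_pos hη))
    refine ⟨N, fun n hn => ?_⟩
    obtain ⟨k, rfl⟩ := Nat.exists_eq_add_of_le hn
    have := hN N le_rfl _ (hon k)
    rw [pow_add, mul_smul]
    linarith
  have := hw.sp.cpl
  obtain ⟨p, hp⟩ := cauchySeq_tendsto_of_complete hC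
  have hp1 : Tendsto (fun n : ℕ => h • (h ^ n • o)) atTop (𝓝 p) := by
    have := hp.comp (tendsto_add_atTop_nat 1)
    refine this.congr fun n => ?_
    simp only [Function.comp, pow_succ', mul_smul]
  refine ⟨p, tendsto_nhds_unique (((hw.sp.cont h).tendsto p).comp hp) hp1, ?_, fun w hwy => ?_,
    fun w hwp => ?_⟩
  · exact ge_of_tendsto' (hp1.dist tendsto_const_nhds) fun n => hU _ (hon n)
  · refine Metric.tendsto_nhds.2 fun η hη => ?_
    filter_upwards [hB (dist w y) (η / 2) (dist_pos.2 hwy) (half_pos hη),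
      Metric.tendsto_nhds.1 hp _ (half_pos hη)] with n h1 h2
    linarith [h1 w le_rfl, dist_triangle (h ^ n • w) (h ^ n • o) p]
  · refine Metric.tendsto_nhds.2 fun η hη => ?_
    have hc := half_pos (dist_pos.2 hwp)
    obtain ⟨F, hF, h1⟩ := hw.conv (dist w p / 2) (η / 2) hc (half_pos hη)
    filter_upwards [hev' F hF, Metric.tendsto_nhds.1 hp _ hc,
      Metric.tendsto_nhds.1 hA _ (half_pos hη)] with n a1 a2 a3
    have := h1 _ a1 w (by rw [inv_inv]; linarith [dist_triangle w (h ^ n • o) p])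
    linarith [dist_triangle ((h ^ n)⁻¹ • w) ((h ^ n)⁻¹ • o) y]

/-- the cyclic group generated by a loxodromic element has finite index in the stabiliser. -/
theorem stab_fin (hw : W T o) {y p : Y} {h : G} {ε : ℝ} (hε : 0 < ε) (hh : h ≠ 1)
    (hy : h • y = y) (hp : h • p = p) (hpy : 7 * ε / 8 ≤ dist p y)
    (h1 : ∀ w, w ≠ y → Tendsto (fun n : ℕ => h ^ n • w) atTop (𝓝 p))
    (h2 : ∀ w, w ≠ p → Tendsto (fun n : ℕ => (h ^ n)⁻¹ • w) atTop (𝓝 y)) :
    ∃ Φ : Set G, Φ.Finite ∧ ∀ f : G, f • y = y → ∃ k : ℤ, h ^ k * f ∈ Φ := by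
  have hfix : ∀ (z : Y), h • z = z → ∀ n : ℕ, h ^ n • z = z := fun z hz n => by
    induction n with
    | zero => simp
    | succ n ih => rw [pow_succ, mul_smul, hz, ih]
  have hfix' : ∀ (z : Y), h • z = z → ∀ n : ℕ, (h ^ n)⁻¹ • z = z := fun z hz n =>
    inv_smul_eq_iff.2 (hfix z hz n).symm
  have hne : p ≠ y := dist_pos.1 (by linarith)
  -- a neighbourhood of `p` that `h⁻¹` maps into `U`
  obtain ⟨c, hc, hc'⟩ : ∃ c : ℝ, 0 < c ∧ ∀ w, dist (h • w) p < c → ε / 2 ≤ dist w y := by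
    obtain ⟨c, hc, h3⟩ := Metric.continuousAt_iff.1 ((hw.sp.cont h⁻¹).continuousAt (x := p)) (ε / 8)
      (by positivity)
    refine ⟨c, hc, fun w hw' => ?_⟩
    have := h3 hw'
    rw [inv_smul_smul, inv_smul_eq_iff.2 hp.symm] at this
    linarith [dist_triangle_left p y w]
  -- the fundamental domain
  have hD : ∀ (M : ℕ) (w : Y), w ≠ y → (∀ m, m ≤ M → dist (h ^ m • w) y < ε / 2) →
      ∃ m, M < m ∧ ε / 2 ≤ dist (h ^ m • w) y ∧ c ≤ dist (h ^ m • w) p := fun M w hwy hM => by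
    classical
    have hex : ∃ m : ℕ, ε / 2 ≤ dist (h ^ m • w) y := by
      obtain ⟨m, hm⟩ := (Metric.tendsto_nhds.1 (h1 w hwy) (ε / 8) (by positivity)).exists
      exact ⟨m, by linarith [dist_triangle_left p y (h ^ m • w)]⟩
    have hlt : M < Nat.find hex := by
      by_contra hle
      exact (hM _ (not_lt.1 hle)).not_ge (Nat.find_spec hex)
    refine ⟨Nat.find hex, hlt, Nat.find_spec hex, ?_⟩
    obtain ⟨m, hm⟩ : ∃ m, Nat.find hex = m + 1 := ⟨Nat.find hex - 1, by omega⟩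
    have := Nat.find_min hex (m := m) (by omega)
    rw [hm, pow_succ', mul_smul]
    exact not_lt.1 fun hl => this (hc' _ hl)
  -- Tukia: the stabiliser of `y` fixes `p`
  have hT : ∀ f : G, f • y = y → f • p = p := fun f hf => by
    by_contra hfp
    have hu1 : f⁻¹ • p ≠ p := fun e => hfp (inv_smul_eq_iff.1 e).symm
    have hu2 : f⁻¹ • p ≠ y := fun e => hne ((inv_smul_eq_iff.1 e).trans hf)
    have hq : f • p ≠ y := fun e => hne ((smul_left_cancel_iff f).1 (e.trans hf.symm))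
    have hΦ := hw.conv.three hu2 hu1 hne.symm (ε := min (ε / 2) (c / 2)) (by positivity)
    obtain ⟨δ, hδ, hδ'⟩ := ApiAux.exists_pos_le (hΦ.inter_of_left {g | g • p ≠ p})
      (f := fun g => dist (g • p) p) fun g hg => dist_pos.2 hg.2
    obtain ⟨M, hM⟩ := eventually_atTop.1 (Metric.tendsto_nhds.1 (h1 _ hq) (min δ (min (c / 2) (ε / 8)))
      (by positivity))
    have hw1 : Tendsto (fun n : ℕ => f • (h ^ n)⁻¹ • f⁻¹ • p) atTop (𝓝 y) := by
      have := ((hw.sp.cont f).tendsto y).comp (h2 _ hu1)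
      rwa [hf] at this
    have hw2 : ∀ᶠ n : ℕ in atTop, ∀ m ∈ Finset.range (M + 1),
        dist (h ^ m • f • (h ^ n)⁻¹ • f⁻¹ • p) y < ε / 2 := by
      refine (Finset.eventually_all _).2 fun m _ => ?_
      have := ((hw.sp.cont (h ^ m)).tendsto y).comp hw1
      rw [hfix y hy] at this
      exact Metric.tendsto_nhds.1 this _ (half_pos hε)
    obtain ⟨n, hn⟩ := hw2.exists
    have hwy : f • (h ^ n)⁻¹ • f⁻¹ • p ≠ y := fun e => hu2 <| by
      rw [← hf, smul_left_cancel_iff, ← hfix' y hy n, smul_left_cancel_iff] at e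
      exact e
    obtain ⟨m, hm, a1, a2⟩ := hD M _ hwy fun m hm => hn m (Finset.mem_range.2 (by omega))
    have a3 := hM m hm.le
    simp only [lt_min_iff] at a3
    have e1 : (h ^ m * f * (h ^ n)⁻¹) • y = y := by
      rw [mul_smul, mul_smul, hfix' y hy, hf, hfix y hy]
    have e2 : (h ^ m * f * (h ^ n)⁻¹) • p = h ^ m • f • p := by
      rw [mul_smul, mul_smul, hfix' p hp]
    have e3 : (h ^ m * f * (h ^ n)⁻¹) • f⁻¹ • p = h ^ m • f • (h ^ n)⁻¹ • f⁻¹ • p := by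
      rw [mul_smul, mul_smul]
    have := hδ' (h ^ m * f * (h ^ n)⁻¹) ⟨⟨?_, ?_, ?_⟩, ?_⟩
    · rw [e2] at this
      linarith [a3.1]
    · rw [e1, e3]
      exact (min_le_left _ _).trans a1
    · rw [e2, e3]
      refine (min_le_right _ _).trans ?_
      linarith [a3.2.1, dist_triangle (h ^ m • f • (h ^ n)⁻¹ • f⁻¹ • p) (h ^ m • f • p) p]
    · rw [e1, e2]
      refine (min_le_left _ _).trans ?_
      linarith [a3.2.2, dist_triangle_left p y (h ^ m • f • p), dist_comm y (h ^ m • f • p)]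
    · show (h ^ m * f * (h ^ n)⁻¹) • p ≠ p
      rw [e2]
      intro e
      rw [← hfix p hp m, smul_left_cancel_iff, hfix p hp m] at e
      exact hfp e
  have ho : h • o ≠ o := fun e => hh (hw.sp.inj (by rw [e, one_smul]))
  have hoy : o ≠ y := fun e => ho (by rw [e, hy])
  have hop : o ≠ p := fun e => ho (by rw [e, hp])
  refine ⟨_, hw.conv.three hoy hop hne.symm (ε := min (ε / 2) c) (by positivity), fun f hf => ?_⟩
  have hfp := hT f hf
  have b1 : f • o ≠ p := fun e => hop ((smul_left_cancel_iff f).1 (e.trans hfp.symm))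
  have b2 : f • o ≠ y := fun e => hoy ((smul_left_cancel_iff f).1 (e.trans hf.symm))
  obtain ⟨n, hn⟩ := (Metric.tendsto_nhds.1 (h2 _ b1) _ (half_pos hε)).exists
  have hwy : (h ^ n)⁻¹ • f • o ≠ y := fun e => b2 <| by
    rw [← hfix' y hy n, smul_left_cancel_iff] at e
    exact e
  obtain ⟨m, -, a1, a2⟩ := hD 0 _ hwy fun m hm => by
    rw [Nat.le_zero.1 hm, pow_zero, one_smul]
    exact hn
  have e0 : h ^ ((m : ℤ) - n) = h ^ m * (h ^ n)⁻¹ := by
    rw [zpow_sub, zpow_natCast, zpow_natCast]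
  refine ⟨(m : ℤ) - n, ?_⟩
  simp only [e0, mem_ofPred_eq, mul_smul, hf, hfp, hfix' y hy, hfix' p hp, hfix y hy, hfix p hp]
  refine ⟨(min_le_left _ _).trans a1, (min_le_right _ _).trans a2, (min_le_left _ _).trans ?_⟩
  rw [dist_comm]
  linarith

end ParAux

theorem parP : ParP := by
  intro G _ Y _ _ T o hw hWall hτ y hy ε0 hε0
  classical
  obtain ⟨τ, hτ⟩ := hτ
  by_contra hinf
  have hoy : 0 < dist o y.1 := dist_pos.2 fun e => y.2 1 (by rw [one_smul]; exact e.symm)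
  obtain ⟨ε, hε, hε1, hε2⟩ : ∃ ε : ℝ, 0 < ε ∧ ε ≤ ε0 ∧ ε ≤ dist o y.1 :=
    ⟨min ε0 (dist o y.1), lt_min hε0 hoy, min_le_left _ _, min_le_right _ _⟩
  obtain ⟨F1, hF1, h1⟩ := hw.conv (ε / 8) (ε / 8) (by positivity) (by positivity)
  obtain ⟨F2, hF2, h2⟩ := hw.conv ε (ε / 8) hε (by positivity)
  obtain ⟨h, ⟨hhy, hho⟩, hF⟩ := Set.Infinite.exists_notMem_finite hinf
    ((hF1.union hF2.inv).insert 1)
  simp only [mem_insert_iff, mem_union, Set.mem_inv, not_or] at hF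
  have hhy' : h • y.1 = y.1 := congrArg Subtype.val hhy
  have hh : ¬ IsOfFinOrder h := fun e => hF.1 (hw.hyp.tf h e)
  have a1 : dist y.1 (h⁻¹ • o) ≤ ε / 8 := by
    have := h2 _ hF.2.2 y.1 (by rw [inv_inv, dist_comm]; linarith)
    rwa [inv_smul_eq_iff.2 hhy'.symm] at this
  have hU : ∀ w, ε / 2 ≤ dist w y.1 → 7 * ε / 8 ≤ dist (h • w) y.1 := fun w hw' => by
    have := h1 h hF.2.1 w (by linarith [dist_triangle_right w y.1 (h⁻¹ • o)])
    linarith [dist_triangle_left (h • o) y.1 (h • w)]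
  obtain ⟨p, hp, hpy, n1, n2⟩ := ParAux.north_south hw hε hh hhy' (by linarith) hU
  obtain ⟨Φ0, hΦ0, hΦ0'⟩ := ParAux.stab_fin hw hε hF.1 hhy' hp hpy n1 n2
  obtain ⟨a, b, -, -, H, hH, ha, hb⟩ := hy
  obtain ⟨Φ, hΦ, hΦ'⟩ := hw.stab_bd hτ y
  refine ParAux.not_trans hh (hWall {h, h⁻¹} (Φ0 * Φ) {x | Two τ x fun z => In o z.1 H} a b ?_
    (hΦ0.mul hΦ) ?_ ?_ ?_)
  · intro t ht
    simp only [Finset.mem_insert, Finset.mem_singleton] at ht ⊢
    rcases ht with rfl | rfl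
    · exact Or.inr rfl
    · exact Or.inl (inv_inv _)
  · rintro x ⟨x', hxx, hc⟩
    obtain ⟨i, j, hs⟩ := hw.btw_of_cross hτ.1 hH hc
    obtain ⟨c, hc1, hc2⟩ := hΦ' x x' hxx ⟨i, j, hs.btw⟩
    obtain ⟨k, hk⟩ := hΦ0' c (congrArg Subtype.val hc1)
    refine ⟨h ^ (-k), (ParAux.mem_closure_pair h).2 ⟨-k, rfl⟩, h ^ k * c * (c⁻¹ * x),
      Set.mul_mem_mul hk hc2, ?_⟩
    simp [mul_assoc]
  · obtain ⟨δ, hδ, h3⟩ := ha.nhds
    exact hw.in_two hτ.1 hδ fun z' hz' => h3 _ hz'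
  · obtain ⟨δ, hδ, h3⟩ := hb.nhds
    exact hw.in_not_two hτ.1 hδ fun z' hz' hz => hz.not_compl hw.sp (h3 _ hz')

end Crest.Agent.R224
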