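import Crest.Agent.R224.Api

/-!
# Row 224: hierarchical point picking
-/

namespace Crest.Agent.R224

open Set Relation

namespace PickAux

variable {G : Type} [Group G]

theorem step {v : G → G → G → ℝ} (symm : ∀ x a b, v x a b = v x b a)
    (tri : ∀ x a b c, v x a c ≤ v x a b + v x b c)
    (hV : ∀ ε η : ℝ, 0 < ε → 0 < η → ∃ F : Set G, F.Finite ∧
      ∀ x x', x⁻¹ * x' ∉ F → ∀ w, ε ≤ v x' w x → v x w x' ≤ η)
    (hU : ∀ (E : Set G) (ε : ℝ), E.Finite → 0 < ε → ∃ ω : ℝ, 0 < ω ∧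
      ∀ x z, x⁻¹ * z ∈ E → ∀ a b, ε ≤ v z a b → ω ≤ v x a b)
    {ε₀ : ℝ} (hε₀ : 0 < ε₀) (iso : ∀ x x', x⁻¹ * x' ≠ 1 → ε₀ ≤ v x x x')
    {R : G → G → Prop} {e : ℝ} (he : 0 < e) (hR : ∀ x y, TransGen R x y → e ≤ v x y 1 ∧ y ≠ x)
    {ε : ℝ} (hε : 0 < ε) : ∃ (F : Set G) (e' : ℝ), F.Finite ∧ 0 < e' ∧
      ∀ x y, TransGen (fun a b => R a b ∨ (a⁻¹ * b ∉ F ∧ ε ≤ v a b 1)) x y →
        e' ≤ v x y 1 ∧ y ≠ x := by
  obtain ⟨E₁, f₁, h₁⟩ := hV e (ε / 4) he (by positivity)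
  obtain ⟨E₂, f₂, h₂⟩ := hV (ε / 4) (e / 2) (by positivity) (by positivity)
  obtain ⟨ω, hω, h₃⟩ := hU (E₁⁻¹ ∪ E₂) (ε / 2) (f₁.inv.union f₂) (by positivity)
  obtain ⟨e', he', a1, a2, a3⟩ : ∃ e' : ℝ, 0 < e' ∧ e' ≤ ε / 2 ∧ e' ≤ e / 2 ∧ e' ≤ ω :=
    ⟨min (ε / 2) (min (e / 2) ω), by positivity, min_le_left _ _,
      (min_le_right _ _).trans (min_le_left _ _), (min_le_right _ _).trans (min_le_right _ _)⟩
  obtain ⟨F₁, g₁, h₄⟩ := hV ε (e' / 2) hε (by positivity)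
  obtain ⟨F₂, g₂, h₅⟩ := hV (e' / 2) (min ε ε₀ / 2) (by positivity) (by positivity)
  have b1 := min_le_left ε ε₀
  have b2 := min_le_right ε ε₀
  refine ⟨F₁⁻¹ ∪ F₂ ∪ {1}, e', (g₁.inv.union g₂).union (finite_singleton _), he', ?_⟩
  generalize hF : F₁⁻¹ ∪ F₂ ∪ {1} = F
  have hA : ∀ x y, (TransGen R x y ∨ ∃ z, ReflTransGen R x z ∧ ε / 2 ≤ v z y 1) →
      e' ≤ v x y 1 := by
    rintro x y (h | ⟨z, hz, h⟩)
    · linarith [(hR x y h).1]
    rcases reflTransGen_iff_eq_or_transGen.1 hz with rfl | hz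
    · linarith
    by_cases hE : x⁻¹ * z ∈ E₁⁻¹ ∪ E₂
    · exact a3.trans (h₃ x z hE y 1 h)
    have c1 := (hR x z hz).1
    have c2 := h₁ z x (fun h' => hE (Or.inl (by simpa using h'))) 1 (by rwa [symm])
    have c3 := h₂ x z (fun h' => hE (Or.inr h')) y
      (by linarith [tri z y x 1, symm z x 1])
    linarith [tri x z y 1, symm x z y]
  have hB : ∀ x x' y, x⁻¹ * x' ∉ F → ε ≤ v x x' 1 → e' ≤ v x' y 1 → ε / 2 ≤ v x y 1 ∧ y ≠ x := by
    intro x x' y hx h h'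
    rw [← hF] at hx
    have c2 := h₄ x' x (fun h' => hx (Or.inl (Or.inl (by simpa using h')))) 1 (by rwa [symm])
    have c3 := h₅ x x' (fun h' => hx (Or.inl (Or.inr h'))) y
      (by linarith [tri x' y x 1, symm x' x 1])
    refine ⟨by linarith [tri x x' y 1, symm x x' y], ?_⟩
    rintro rfl
    linarith [iso y x' fun h' => hx (Or.inr h')]
  have hC : ∀ x y, TransGen (fun a b => R a b ∨ (a⁻¹ * b ∉ F ∧ ε ≤ v a b 1)) x y →
      e' ≤ v x y 1 := by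
    intro x y h
    refine hA x y ?_
    induction h using TransGen.head_induction_on with
    | single h =>
      exact h.imp TransGen.single fun h => ⟨_, ReflTransGen.refl, by linarith [h.2]⟩
    | head h _ ih =>
      rcases h with h | h
      · exact ih.imp (TransGen.head h) fun ⟨z, hz, h'⟩ => ⟨z, hz.head h, h'⟩
      · exact Or.inr ⟨_, ReflTransGen.refl, (hB _ _ y h.1 h.2 (hA _ _ ih)).1⟩
  have hD : ∀ x y, TransGen (fun a b => R a b ∨ (a⁻¹ * b ∉ F ∧ ε ≤ v a b 1)) x y →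
      TransGen R x y ∨ ∃ a b, ReflTransGen (fun a b => R a b ∨ (a⁻¹ * b ∉ F ∧ ε ≤ v a b 1)) x a ∧
        (a⁻¹ * b ∉ F ∧ ε ≤ v a b 1) ∧
        ReflTransGen (fun a b => R a b ∨ (a⁻¹ * b ∉ F ∧ ε ≤ v a b 1)) b y := by
    intro x y h
    induction h with
    | single h =>
      exact h.imp TransGen.single fun h => ⟨_, _, ReflTransGen.refl, h, ReflTransGen.refl⟩
    | tail h h' ih =>
      rcases ih with ih | ⟨a, b, h1, h2, h3⟩
      · exact h'.imp (TransGen.tail ih) fun h' => ⟨_, _, h.to_reflTransGen, h', ReflTransGen.refl⟩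
      · exact Or.inr ⟨a, b, h1, h2, h3.tail h'⟩
  refine fun x y h => ⟨hC x y h, ?_⟩
  rintro rfl
  rcases hD _ _ h with h | ⟨a, b, h1, h2, h3⟩
  · exact (hR _ _ h).2 rfl
  rcases reflTransGen_iff_eq_or_transGen.1 (h3.trans h1) with rfl | h4
  · exact h2.1 (hF ▸ Or.inr (inv_mul_cancel a))
  · exact (hB a b a h2.1 h2.2 (hC _ _ h4)).2 rfl

end PickAux

theorem pickP : PickP := by
  intro G _ Y _ _ T o hW ε hε
  obtain ⟨ε₀, hε₀, iso⟩ := hW.sp.iso 1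
  have key := fun {R e} => @PickAux.step G _
    (fun x a b => dist ((x⁻¹ * a) • o) ((x⁻¹ * b) • o)) (fun _ _ _ => dist_comm _ _)
    (fun _ _ _ _ => dist_triangle _ _ _) (fun ε η hε hη => by
      obtain ⟨F, hF, h⟩ := hW.conv ε η hε hη
      refine ⟨F, hF, fun x x' hx w hw => ?_⟩
      have := h _ hx ((x'⁻¹ * w) • o) (by simpa using hw)
      rwa [smul_smul, mul_assoc, mul_inv_cancel_left] at this)
    (fun E ε hE hε => by
      choose δ hδ h using fun f : G => Metric.uniformContinuous_iff.1 (hW.sp.uc f⁻¹) ε hε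
      obtain ⟨ω, hω, h1⟩ := ApiAux.exists_pos_le hE (f := δ) fun f _ => hδ f
      refine ⟨ω, hω, fun x z hz a b hab => (h1 _ hz).trans (not_lt.1 fun h2 => ?_)⟩
      have := h _ h2
      simp only [smul_smul, mul_inv_rev, inv_inv, mul_assoc, mul_inv_cancel_left] at this
      exact this.not_ge hab)
    ε₀ hε₀ (fun x x' h => by simpa using iso _ h) R e
  simp only [mul_one] at key
  choose F e' h1 h2 h3 using fun (p : {p : (G → G → Prop) × ℝ // 0 < p.2 ∧ ∀ x y,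
    TransGen p.1 x y → p.2 ≤ dist ((x⁻¹ * y) • o) (x⁻¹ • o) ∧ y ≠ x}) (k : ℕ) =>
      key p.2.1 p.2.2 (hε k)
  let s : ℕ → {p : (G → G → Prop) × ℝ // 0 < p.2 ∧ ∀ x y,
      TransGen p.1 x y → p.2 ≤ dist ((x⁻¹ * y) • o) (x⁻¹ • o) ∧ y ≠ x} := fun n =>
    Nat.rec ⟨(fun _ _ => False, 1), one_pos, fun x y h => by cases h <;> contradiction⟩
      (fun k p => ⟨(_, e' p k), h2 p k, h3 p k⟩) n
  have hs : ∀ k a b, (s (k + 1)).1.1 a b ↔ (s k).1.1 a b ∨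
      (a⁻¹ * b ∉ F (s k) k ∧ ε k ≤ dist ((a⁻¹ * b) • o) (a⁻¹ • o)) := fun _ _ _ => Iff.rfl
  have hm : ∀ j k, j ≤ k → ∀ a b, (s j).1.1 a b → (s k).1.1 a b := by
    intro j k hjk a b h
    induction hjk with
    | refl => exact h
    | step _ ih => exact (hs _ a b).2 (Or.inl ih)
  refine ⟨fun k => F (s k) k, fun k => (s (k + 1)).1.2, fun k => h1 _ _,
    fun k => (s (k + 1)).2.1, fun k X hX x0 hx0 => ?_⟩
  let : Preorder G :=
    { le := ReflTransGen (s (k + 1)).1.1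
      le_refl := fun _ => ReflTransGen.refl
      le_trans := fun _ _ _ => ReflTransGen.trans }
  obtain ⟨x, hx, hmax⟩ := hX.exists_le_maximal hx0
  refine ⟨x, hmax.1, (reflTransGen_iff_eq_or_transGen.1 hx).imp id
    fun h => ((s (k + 1)).2.2 _ _ h).1, fun j hj x' hx' => ?_⟩
  by_contra h
  rw [not_or, not_lt] at h
  have h4 := hm _ _ (Nat.succ_le_succ hj) _ _ ((hs j x x').2 (Or.inr h))
  exact ((s (k + 1)).2.2 _ _
    (TransGen.head' h4 (hmax.2 hx' (ReflTransGen.single h4)))).2 rfl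

end Crest.Agent.R224
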