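import Crest.Agent.R224.Api

/-! Row 224: far cosets of transient parabolic subgroups are small. -/

namespace Crest.Agent.R224

open Crest.Agent.Lib.KyFan Set Filter Topology
open scoped Pointwise

namespace RayAux

variable {G : Type} [Group G] {Y : Type} [MetricSpace Y] [MulAction G Y] {T U : Finset G} {o : Y}

theorem infinite (h : Trans U) : (Subgroup.closure (U : Set G) : Set G).Infinite := by
  intro hfin
  obtain ⟨κ, hκ, h⟩ := h
  have := h (fun _ => 1) (hfin.subset fun c hc => hc.1)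
  simp only [one_pow, mul_one, sub_self, ne_eq, OfNat.ofNat_ne_zero, not_false_eq_true, zero_pow,
    Finset.sum_const_zero, tsum_zero] at this
  exact absurd this (not_le.2 hκ)

/-- all but finitely many points lie in an infinite component of the complement of a finite
set. -/
theorem ray (hU : Symm U) (hC : (Subgroup.closure (U : Set G) : Set G).Infinite) {D : Set G}
    (hD : D.Finite) : {x | x ∉ D ∧ {y | Path U Dᶜ x y}.Finite}.Finite := by
  have h1 : {a | {y | Path U Dᶜ a y}.Finite ∧ ∃ b ∈ D, Adj U b a}.Finite :=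
    (hD.biUnion fun b _ => adj_finite (T := U) b).subset fun a ⟨_, b, hb, hab⟩ =>
      mem_biUnion hb hab
  refine (h1.biUnion fun a ha => ha.1).subset ?_
  rintro x ⟨hx, hK⟩
  obtain ⟨_, ⟨c, hc, rfl⟩, hy⟩ := (hC.image (mul_right_injective x).injOn).exists_notMem_finite hK
  obtain ⟨n, hn⟩ := exists_mem_Bl hU hc
  have hp := Near.path hU (T := U) (n := n) (a := x) (b := x * c) (by simpa [Near] using hn)
  obtain ⟨a, -, b, -, hab, h⟩ := hp.exists_cross (H := {y | Path U Dᶜ x y})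
    fun h => hy (h.1 (Path.refl hx))
  have key : ∀ a b, Adj U a b → Path U Dᶜ x a → ¬ Path U Dᶜ x b →
      x ∈ ⋃ a ∈ {a | {y | Path U Dᶜ a y}.Finite ∧ ∃ b ∈ D, Adj U b a}, {y | Path U Dᶜ a y} :=
    fun a b hab ha hb => mem_biUnion
      ⟨hK.subset fun y hy => ha.trans hy, b, by_contra fun h => hb (ha.tail hab h), hab.symm hU⟩
      (ha.symm hU)
  by_cases ha : Path U Dᶜ x a
  · exact key a b hab ha fun hb => h ⟨fun _ => hb, fun _ => ha⟩
  · exact key b a (hab.symm hU) (by_contra fun hb => h ⟨fun h => absurd h ha, fun h => absurd h hb⟩)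
      ha

theorem far (hs : Sp T o) {C : Subgroup G} {r : Y}
    (hP : ∀ ε : ℝ, 0 < ε → {c : G | c ∈ C ∧ ε ≤ dist (c • o) r}.Finite) (g : G) {η : ℝ}
    (hη : 0 < η) : {c : G | c ∈ C ∧ η ≤ dist ((g * c) • o) (g • r)}.Finite := by
  obtain ⟨δ, hδ, h⟩ := Metric.uniformContinuous_iff.1 (hs.uc g) η hη
  refine (hP δ hδ).subset fun c hc => ⟨hc.1, not_lt.1 fun hlt => ?_⟩
  have := h hlt
  rw [← mul_smul] at this
  exact absurd hc.2 (not_le.2 this)

theorem fix (hs : Sp T o) {C : Subgroup G} (hC : (C : Set G).Infinite) {r : Y}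
    (hP : ∀ ε : ℝ, 0 < ε → {c : G | c ∈ C ∧ ε ≤ dist (c • o) r}.Finite) {c : G} (hc : c ∈ C) :
    c • r = r := by
  refine eq_of_forall_dist_le fun ε hε => ?_
  have h1 := far hs hP c (half_pos hε)
  have h2 := (hP _ (half_pos hε)).preimage (mul_right_injective c).injOn
  obtain ⟨c', hc', h⟩ := hC.exists_notMem_finite (h1.union h2)
  have h3 : dist ((c * c') • o) (c • r) < ε / 2 := not_le.1 fun h' => h (Or.inl ⟨hc', h'⟩)
  have h4 : dist ((c * c') • o) r < ε / 2 :=
    not_le.1 fun h' => h (Or.inr ⟨C.mul_mem hc hc', h'⟩)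
  linarith [dist_triangle_left (c • r) r ((c * c') • o)]

theorem small (hs : Sp T o) (hT : Trans U) {r : Y}
    (hP : ∀ ε : ℝ, 0 < ε →
      {c : G | c ∈ Subgroup.closure (U : Set G) ∧ ε ≤ dist (c • o) r}.Finite) {η : ℝ}
    (hη : 0 < η) : ∃ E : Finset G, ∀ x : G, (∀ c ∈ Subgroup.closure (U : Set G), x * c ∉ E) →
      dist (x • o) (x • r) ≤ η := by
  obtain ⟨κ, hκ, hT⟩ := hT
  let F : G → ℝ := fun y => ∑ u ∈ U, dist (y • o) ((y * u) • o) ^ 2
  have hF : Summable F := summable_sum fun u _ => hs.l2 u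
  have hF0 : ∀ y, 0 ≤ F y := fun y => Finset.sum_nonneg fun _ _ => sq_nonneg _
  obtain ⟨E, hE⟩ := ((tendsto_tsum_compl_atTop_zero F).eventually
    (gt_mem_nhds (show 0 < κ * (η / 2) ^ 2 by positivity))).exists
  refine ⟨E, fun x hx => ?_⟩
  let φ : G → ℝ := fun c => max (dist ((x * c) • o) (x • r) - η / 2) 0
  have h1 := hT φ ((far hs hP x (half_pos hη)).subset fun c hc => ⟨hc.1, not_lt.1 fun hlt =>
    hc.2 (max_eq_right (by linarith))⟩)
  let e : Subgroup.closure (U : Set G) → {y // y ∉ E} := fun c => ⟨x * c, hx c c.2⟩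
  have he : Function.Injective e := fun c c' h =>
    Subtype.ext (mul_left_cancel (congrArg Subtype.val h))
  have hle : ∀ c : Subgroup.closure (U : Set G),
      ∑ u ∈ U, (φ ((c : G) * u) - φ c) ^ 2 ≤ F (e c) := fun c => by
    refine Finset.sum_le_sum fun u _ => sq_le_sq.2 ?_
    refine le_trans ((abs_max_sub_max_le_abs _ _ _).trans ?_) (le_abs_self _)
    rw [sub_sub_sub_cancel_right, ← mul_assoc]
    exact (abs_dist_sub_le ((x * c * u) • o) ((x * c) • o) (x • r)).trans_eq (dist_comm _ _)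
  have hFE : Summable fun y : {y // y ∉ E} => F y := hF.subtype _
  have h2 := Summable.tsum_le_tsum_of_inj e he (fun y _ => hF0 y) hle
    (Summable.of_nonneg_of_le (fun c => Finset.sum_nonneg fun _ _ => sq_nonneg _) hle
      (hFE.comp_injective he)) hFE
  have h3 : φ 1 ^ 2 < (η / 2) ^ 2 := lt_of_mul_lt_mul_left ((h1.trans h2).trans_lt hE) hκ.le
  have h4 : φ 1 < η / 2 := lt_of_pow_lt_pow_left₀ 2 (half_pos hη).le h3
  have h5 : dist ((x * 1) • o) (x • r) - η / 2 ≤ φ 1 := le_max_left _ _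
  rw [mul_one] at h5
  linarith

end RayAux

open RayAux in
theorem rayP : RayP := by
  intro G _ Y _ _ T o hW U r hU hT hP
  have hs := hW.sp
  have hC := infinite hT
  have hfix : ∀ c ∈ Subgroup.closure (U : Set G), c • r.1 = r.1 := fun c hc => fix hs hC hP hc
  have h1 : ∀ η : ℝ, 0 < η → {x : G | η < dist (x • r.1) (x • o)}.Finite := fun η hη => by
    obtain ⟨E, hE⟩ := small hs hT hP hη
    refine (E.finite_toSet.biUnion fun g _ => (far hs hP g hη).image fun c => g * c).subset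
      fun x hx => ?_
    by_contra hn
    refine absurd (hE x fun c hc hxc => hn (mem_biUnion hxc ⟨c⁻¹, ⟨inv_mem hc, ?_⟩, by simp⟩))
      (not_le.2 (dist_comm (x • r.1) _ ▸ hx))
    rw [mul_inv_cancel_right, mul_smul, hfix c hc, dist_comm]
    exact le_of_lt hx
  refine ⟨hC, h1, fun η hη E hE => ?_⟩
  have hD := hE.union (h1 _ (half_pos hη))
  refine ⟨_, hD.union (ray hU hC hD), fun x hx => ⟨fun h => hx (Or.inl (Or.inl h)), fun B hB => ?_⟩⟩
  have hxD : x ∉ E ∪ {x : G | η / 2 < dist (x • r.1) (x • o)} := fun h => hx (Or.inl h)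
  obtain ⟨y, hy, hyB⟩ := Set.Infinite.exists_notMem_finite (fun h => hx (Or.inr ⟨hxD, h⟩))
    (hB.image fun c => x * c)
  refine ⟨x⁻¹ * y, fun h => hyB ⟨_, h, by simp⟩, ?_⟩
  clear hyB
  obtain ⟨-, hy⟩ := hy
  suffices x⁻¹ * y ∈ Subgroup.closure (U : Set G) ∧ Relation.ReflTransGen
      (fun c c' : G => c⁻¹ * c' ∈ U ∧ x * c' ∉ E ∧ dist ((x * c') • o) (x • o) ≤ η) 1
      (x⁻¹ * y) from this.2
  induction hy with
  | refl => rw [inv_mul_cancel]; exact ⟨one_mem _, Relation.ReflTransGen.refl⟩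
  | @tail a b _ hab ih =>
    have e : (x⁻¹ * a)⁻¹ * (x⁻¹ * b) = a⁻¹ * b := by group
    have hb : x⁻¹ * b ∈ Subgroup.closure (U : Set G) := by
      have := mul_mem ih.1 (Subgroup.subset_closure (k := (U : Set G)) hab.2)
      rwa [mul_assoc, mul_inv_cancel_left] at this
    refine ⟨hb, ih.2.tail ⟨e ▸ hab.2, ?_, ?_⟩⟩
    · rw [mul_inv_cancel_left]
      exact fun h => hab.1 (Or.inl h)
    · have h2 : dist (b • r.1) (b • o) ≤ η / 2 := not_lt.1 fun h => hab.1 (Or.inr h)
      have h3 : dist (x • r.1) (x • o) ≤ η / 2 := not_lt.1 fun h => hxD (Or.inr h)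
      have h4 : b • r.1 = x • r.1 := by
        rw [← mul_inv_cancel_left x b, mul_smul, hfix _ hb]
      rw [mul_inv_cancel_left]
      rw [h4] at h2
      linarith [dist_triangle_left (b • o) (x • o) (x • r.1)]

end Crest.Agent.R224
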