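import Crest.Agent.R224.Chain

/-! Row 224: subdivision operators and filling of small cycles. -/

namespace Crest.Agent.R224

open Set Filter Topology Metric

namespace RefineAux

variable {k G X : Type} [CommRing k] [Group G] [MetricSpace X] [MulAction G X]

theorem exists_pos_le {ι : Type} (t : Finset ι) (f : ι → ℝ) (hf : ∀ i, 0 < f i) :
    ∃ e : ℝ, 0 < e ∧ ∀ i ∈ t, e ≤ f i := by
  classical
  induction t using Finset.induction_on with
  | empty => exact ⟨1, one_pos, by simp⟩
  | insert a s _ ih =>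
    obtain ⟨e, he, h⟩ := ih
    refine ⟨min e (f a), lt_min he (hf a), fun i hi => ?_⟩
    rcases Finset.mem_insert.1 hi with rfl | hi
    · exact min_le_right _ _
    · exact (min_le_left _ _).trans (h i hi)

theorem small_mono {a b : ℝ} (hab : a ≤ b) {l : List X} (h : SmallL a l) : SmallL b l :=
  fun x hx y hy => (h x hx y hy).trans_le hab

theorem small_sub {a : ℝ} {l m : List X} (hm : m.Sublist l) (h : SmallL a l) : SmallL a m :=
  fun x hx y hy => h x (hm.subset hx) y (hm.subset hy)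

theorem small_map (hT : Top G X) (g : G) {a : ℝ} {l : List X} (h : SmallL a l) :
    SmallL a (l.map fun x => g • x) := by
  intro x hx y hy
  obtain ⟨x, hx', rfl⟩ := List.mem_map.1 hx
  obtain ⟨y, hy', rfl⟩ := List.mem_map.1 hy
  rw [hT.isom]
  exact h x hx' y hy'

omit [MetricSpace X] in
theorem lc_one (c : Ch k X) : lc (fun l => Finsupp.single l (1 : k)) c = c := by
  refine ChainAux.ext (Φ := lc fun l => Finsupp.single l (1 : k)) (Ψ := LinearMap.id)
    fun l _ => ?_
  simp [lc_single]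

/-- filling inside a cell. -/
theorem cell_fill (h : ContrP) {A V : Set X} (hA : IsCompact A) (hV : IsCell V) (hAV : A ⊆ V)
    (η : ℝ) (hη : 0 < η) : ∃ η' : ℝ, 0 < η' ∧ ∀ (n : ℕ) (z : Ch k X),
      ChIn (fun l => l.length = n ∧ SmallL η' l ∧ ∀ a ∈ l, a ∈ A) z → dC z = 0 →
      ∃ c : Ch k X, ChIn (fun l => l.length = n + 1 ∧ SmallL η l ∧ ∀ a ∈ l, a ∈ V) c ∧
        dC c = z := by
  obtain ⟨e, he, rfl⟩ := hV
  have hinv : ContinuousOn (Function.invFun e) A := by
    rw [he.isInducing.continuousOn_iff]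
    exact continuousOn_id.congr fun x hx => Function.invFun_eq (hAV hx)
  refine h k X A (range e) (e 0) (fun t y => e ((1 - t) • Function.invFun e y)) hA ?_
    (fun x hx => ?_) (fun x _ => by simp) (fun t _ x _ => mem_range_self _) (mem_range_self _) η hη
  · exact he.continuous.comp_continuousOn ((continuousOn_const.sub continuousOn_fst).smul
      (hinv.comp continuousOn_snd fun p hp => hp.2))
  · simpa using Function.invFun_eq (hAV hx)

/-- uniform local filling. -/
theorem locFill (h : ContrP) (hT : Top G X) (ε : ℝ) (hε : 0 < ε) :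
    ∃ δ : ℝ, 0 < δ ∧ ∀ η : ℝ, 0 < η → ∃ η' : ℝ, 0 < η' ∧ ∀ (x : X) (n : ℕ) (z : Ch k X),
      ChIn (fun l => l.length = n ∧ SmallL η' l ∧ ∀ a ∈ l, dist a x < δ) z → dC z = 0 →
      ∃ c : Ch k X, ChIn (fun l => l.length = n + 1 ∧ SmallL η l ∧ ∀ a ∈ l, dist a x < ε) c ∧
        dC c = z := by
  obtain ⟨δ0, hδ0, hc⟩ := hT.ucell (ε / 2) (half_pos hε)
  obtain ⟨r, hr, hcpt⟩ := hT.ucpt
  obtain ⟨K, hK, hcov⟩ := hT.cocpt
  choose V hV hV1 hV2 using hc
  set ρ := min (δ0 / 3) (min (r / 2) (ε / 2)) with hρ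
  have hρ0 : 0 < ρ := lt_min (by positivity) (lt_min (by positivity) (by positivity))
  have hρ1 : ρ ≤ δ0 / 3 := min_le_left _ _
  have hρ2 : ρ ≤ r / 2 := (min_le_right _ _).trans (min_le_left _ _)
  have hρ3 : ρ ≤ ε / 2 := (min_le_right _ _).trans (min_le_right _ _)
  obtain ⟨t, -, ht⟩ := hK.elim_nhds_subcover (fun y => ball y ρ) fun y _ => ball_mem_nhds y hρ0
  refine ⟨ρ, hρ0, fun η hη => ?_⟩
  have key := fun y : X => cell_fill (k := k) h (A := closedBall y (2 * ρ))
    ((hcpt y).of_isClosed_subset isClosed_closedBall (closedBall_subset_closedBall (by linarith)))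
    (hV y) ((closedBall_subset_ball (by linarith)).trans (hV1 y)) η hη
  choose f hf key using key
  obtain ⟨η', hη', hle⟩ := exists_pos_le t f hf
  refine ⟨η', hη', fun x n z hz hz0 => ?_⟩
  obtain ⟨g, hg⟩ := hcov x
  obtain ⟨y, hy, hgy⟩ := mem_iUnion₂.1 (ht hg)
  rw [mem_ball] at hgy
  obtain ⟨c, hc, hcz⟩ := key y n (mapC (fun a => g • a) z)
    (hz.mapC _ fun l hl => ⟨by simpa using hl.1, small_map hT g (small_mono (hle y hy) hl.2.1),
      fun a ha => by
        obtain ⟨a, ha', rfl⟩ := List.mem_map.1 ha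
        have h1 := hl.2.2 a ha'
        rw [← hT.isom g] at h1
        have h2 := dist_triangle (g • a) (g • x) y
        rw [mem_closedBall]
        linarith⟩) (by rw [dC_mapC, hz0, map_zero])
  refine ⟨mapC (fun a => g⁻¹ • a) c, hc.mapC _ fun l hl => ⟨by simpa using hl.1,
    small_map hT _ hl.2.1, fun a ha => ?_⟩, ?_⟩
  · obtain ⟨a, ha', rfl⟩ := List.mem_map.1 ha
    have h1 := hV2 y (hl.2.2 a ha')
    rw [mem_ball] at h1
    rw [← hT.isom g, smul_inv_smul]
    have h2 := dist_triangle_right a (g • x) y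
    linarith
  · rw [dC_mapC, hcz, mapC_mapC]
    simpa [Function.comp_def] using mapC_id z

theorem refine_succ (h : ContrP) (hT : Top G X) (m : ℕ) : ∀ ε : ℝ, 0 < ε →
    ∃ δ : ℝ, 0 < δ ∧ ∀ η : ℝ, 0 < η → ∃ R : List X → Ch k X,
    R [] = Finsupp.single [] 1 ∧ (∀ x, R [x] = Finsupp.single [x] 1) ∧
    ∀ (x : X) (l : List X), (x :: l).length ≤ m + 1 → SmallL δ (x :: l) →
      ChIn (fun l' => l'.length = (x :: l).length ∧ SmallL η l' ∧ ∀ a ∈ l', dist a x < ε)
        (R (x :: l)) ∧ dC (R (x :: l)) = lc R (dL k (x :: l)) := by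
  induction m with
  | zero =>
    intro ε hε
    refine ⟨1, one_pos, fun η hη => ⟨fun l => Finsupp.single l 1, rfl, fun _ => rfl,
      fun x l hl _ => ⟨?_, by rw [dC_single, one_smul, lc_one]⟩⟩⟩
    obtain rfl : l = [] := List.length_eq_zero_iff.1 (by simpa using hl)
    exact ChIn.single ⟨rfl, by simpa [SmallL] using hη, by simpa using hε⟩ _
  | succ m ih =>
    intro ε hε
    obtain ⟨δL, hδL, hL⟩ := locFill (k := k) h hT ε hε
    obtain ⟨δ1, hδ1, hR⟩ := ih (min ε (δL / 2)) (lt_min hε (half_pos hδL))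
    refine ⟨min δ1 (δL / 2), lt_min hδ1 (half_pos hδL), fun η hη => ?_⟩
    obtain ⟨η', hη', hL⟩ := hL η hη
    obtain ⟨R, hR0, hR1, hR⟩ := hR (min η η') (lt_min hη hη')
    have key : ∀ L : List X, ∃ c : Ch k X, ∀ x l, L = x :: l → L.length = m + 2 →
        SmallL (min δ1 (δL / 2)) L →
        ChIn (fun l' => l'.length = m + 1 + 1 ∧ SmallL η l' ∧ ∀ a ∈ l', dist a x < ε) c ∧
          dC c = lc R (dL k L) := by
      intro L
      cases L with
      | nil => exact ⟨0, fun x l h => by simp at h⟩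
      | cons x l =>
        by_cases hl : (x :: l).length = m + 2 ∧ SmallL (min δ1 (δL / 2)) (x :: l)
        · have hf : ChIn (fun F => ChIn (fun l' => l'.length = m + 1 ∧ SmallL η' l' ∧
              ∀ a ∈ l', dist a x < δL) (R F) ∧ dC (R F) = lc R (dL k F)) (dL k (x :: l)) := by
            refine (chIn_dL (x :: l)).mono fun F hF => ?_
            have hF2 : F.length = m + 1 := by omega
            cases F with
            | nil => simp at hF2
            | cons y F =>
              obtain ⟨h1, h2⟩ := hR y F hF2.le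
                (small_mono (min_le_left _ _) (small_sub hF.1 hl.2))
              refine ⟨h1.mono fun l' hl' => ⟨hl'.1.trans hF2,
                small_mono (min_le_right _ _) hl'.2.1, fun a ha => ?_⟩, h2⟩
              have h3 := (hl'.2.2 a ha).trans_le (min_le_right _ _)
              have h4 := (hl.2 y (hF.1.subset List.mem_cons_self) x List.mem_cons_self).trans_le
                (min_le_right _ _)
              have h5 := dist_triangle a y x
              linarith
          obtain ⟨c, hc⟩ := hL x (m + 1) (lc R (dL k (x :: l))) (hf.lc fun F hF => hF.1)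
            (by rw [dC_lc (hf.mono fun F hF => hF.2), dC_dL, map_zero])
          refine ⟨c, fun x' l' he _ _ => ?_⟩
          obtain rfl := (List.cons.inj he).1
          exact hc
        · exact ⟨0, fun _ _ _ h1 h2 => absurd ⟨h1, h2⟩ hl⟩
    choose F hF using key
    refine ⟨fun L => if L.length = m + 2 then F L else R L, by simp [hR0], fun x => by simp [hR1],
      fun x l hl hs => ?_⟩
    have he : lc (fun L => if L.length = m + 2 then F L else R L) (dL k (x :: l)) =
        lc R (dL k (x :: l)) :=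
      lc_congr ((chIn_dL (x :: l)).mono fun L hL => if_neg (by omega))
    rw [he]
    by_cases h2 : (x :: l).length = m + 2
    · simp only [if_pos h2]
      rw [h2]
      exact hF _ x l rfl h2 hs
    · simp only [if_neg h2]
      obtain ⟨h3, h4⟩ := hR x l (by omega) (small_mono (min_le_left _ _) hs)
      exact ⟨h3.mono fun l' hl' => ⟨hl'.1, small_mono (min_le_left _ _) hl'.2.1,
        fun a ha => (hl'.2.2 a ha).trans_le (min_le_left _ _)⟩, h4⟩

/-- the cone homotopy between `R` and the identity, on lists of length `j`. -/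
noncomputable def cone (R : List X → Ch k X) : ℕ → List X → Ch k X
  | j + 1, x :: l => consC x (R (x :: l) - Finsupp.single (x :: l) 1 - lc (cone R j) (dL k (x :: l)))
  | _, _ => 0

omit [MetricSpace X] in
theorem cone_succ (R : List X → Ch k X) (j : ℕ) (x : X) (l : List X) : cone R (j + 1) (x :: l) =
    consC x (R (x :: l) - Finsupp.single (x :: l) 1 - lc (cone R j) (dL k (x :: l))) := by
  rw [cone]

omit [MetricSpace X] in
theorem cone_zero (R : List X → Ch k X) (l : List X) : cone R 0 l = 0 := by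
  simp [cone]

omit [MetricSpace X] in
theorem dC_lc_hom {R D D' : List X → Ch k X} {c : Ch k X}
    (h : ChIn (fun l => dC (D l) = R l - Finsupp.single l 1 - lc D' (dL k l)) c) :
    dC (lc D c) = lc R c - c - lc D' (dC c) := by
  refine ChainAux.ext (Φ := dC ∘ₗ lc D) (Ψ := lc R - LinearMap.id - lc D' ∘ₗ dC) fun l hl => ?_
  simp [lc_single, dC_single, h l hl]

theorem cone_spec {R : List X → Ch k X} {n : ℕ} {δ ε : ℝ} (hε : 0 < ε)
    (hR0 : R [] = Finsupp.single [] 1)
    (hR : ∀ l : List X, l.length ≤ n → SmallL δ l →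
      ChIn (fun l' => l'.length = l.length ∧ ∀ a ∈ l', ∃ b ∈ l, dist a b < ε) (R l) ∧
        dC (R l) = lc R (dL k l)) (j : ℕ) :
    ∀ l : List X, l.length = j → j ≤ n → SmallL δ l →
      ChIn (fun l' => l'.length = j + 1 ∧ ∀ a ∈ l', ∃ b ∈ l, dist a b < ε) (cone R j l) ∧
        dC (cone R j l) = R l - Finsupp.single l 1 - lc (cone R (j - 1)) (dL k l) := by
  induction j with
  | zero =>
    intro l hl _ _
    obtain rfl := List.length_eq_zero_iff.1 hl
    rw [cone_zero]
    exact ⟨ChIn.zero _, by simp [hR0, dL_nil]⟩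
  | succ j ih =>
    intro l hl hn hs
    cases l with
    | nil => simp at hl
    | cons x l =>
      obtain ⟨h1, h2⟩ := hR _ (hl.le.trans hn) hs
      have hf : ChIn (fun F => ChIn (fun l' => l'.length = j + 1 ∧
          ∀ a ∈ l', ∃ b ∈ x :: l, dist a b < ε) (cone R j F) ∧ dC (cone R j F) =
            R F - Finsupp.single F 1 - lc (cone R (j - 1)) (dL k F)) (dL k (x :: l)) := by
        refine (chIn_dL (x :: l)).mono fun F hF => ?_
        obtain ⟨h3, h4⟩ := ih F (by omega) (by omega) (small_sub hF.1 hs)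
        refine ⟨h3.mono fun l' hl' => ⟨hl'.1, fun a ha => ?_⟩, h4⟩
        obtain ⟨b, hb, hab⟩ := hl'.2 a ha
        exact ⟨b, hF.1.subset hb, hab⟩
      rw [cone_succ]
      constructor
      · refine ChIn.consC x (P := fun l' => l'.length = j + 1 ∧
          ∀ a ∈ l', ∃ b ∈ x :: l, dist a b < ε) (ChIn.sub (ChIn.sub (hl ▸ h1)
            (ChIn.single ⟨hl, fun a ha => ⟨a, ha, by simpa using hε⟩⟩ _))
            (hf.lc fun F hF => hF.1)) fun l' hl' => ⟨by simp [hl'.1], fun a ha => ?_⟩
        rcases List.mem_cons.1 ha with rfl | ha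
        · exact ⟨a, List.mem_cons_self, by simpa using hε⟩
        · exact hl'.2 a ha
      · rw [dC_consC, map_sub (dC : Ch k X →ₗ[k] Ch k X), map_sub (dC : Ch k X →ₗ[k] Ch k X),
          dC_lc_hom (hf.mono fun F hF => hF.2), h2, dC_dL, dC_single]
        simp

end RefineAux

open RefineAux

theorem refineP (h : ContrP) : RefineP := by
  intro k G X _ _ _ _ hT m ε hε
  obtain ⟨δ, hδ, hR⟩ := refine_succ (k := k) h hT m ε hε
  refine ⟨δ, hδ, fun η hη => ?_⟩
  obtain ⟨R, h0, h1, h2⟩ := hR η hη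
  exact ⟨R, h0, h1, fun x l hl => h2 x l (hl.trans (Nat.le_succ m))⟩

theorem fillXP (h : ContrP) : FillXP := by
  intro k G X _ _ _ _ hT hRef n ε hε
  obtain ⟨r, hr, hcpt⟩ := hT.ucpt
  set ε' := min (ε / 4) r with hε'
  have hε0 : 0 < ε' := lt_min (by positivity) hr
  have hε1 : ε' ≤ ε / 4 := min_le_left _ _
  obtain ⟨δ, hδ, hR⟩ := hRef n ε' hε0
  refine ⟨min δ ε', lt_min hδ hε0, fun z hz hz0 => ?_⟩
  have := hT.contr
  obtain ⟨x0, ⟨F⟩⟩ := id_nullhomotopic X
  have hA : IsCompact (⋃ l ∈ z.support, ⋃ b ∈ {b | b ∈ l}, closedBall b ε') :=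
    z.support.isCompact_biUnion fun l _ => (List.finite_toSet l).isCompact_biUnion fun b _ =>
      (hcpt b).of_isClosed_subset isClosed_closedBall
        (closedBall_subset_closedBall (min_le_right _ _))
  obtain ⟨η, hη, hfill⟩ := h k X _ univ x0 (fun t x => F (projIcc 0 1 zero_le_one t, x)) hA
    (F.continuous.comp ((continuous_projIcc.comp continuous_fst).prodMk
      continuous_snd)).continuousOn (fun x _ => by simp) (fun x _ => by simp)
    (fun _ _ _ _ => mem_univ _) (mem_univ _) ε hε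
  obtain ⟨R, hR0, -, hR⟩ := hR η hη
  have hR' : ∀ l : List X, l.length ≤ n → SmallL δ l →
      ChIn (fun l' => l'.length = l.length ∧ SmallL η l' ∧ ∀ a ∈ l', ∃ b ∈ l, dist a b < ε')
        (R l) ∧ dC (R l) = lc R (dL k l) := by
    intro l hl hs
    cases l with
    | nil =>
      rw [hR0]
      exact ⟨ChIn.single ⟨rfl, by simp [SmallL], by simp⟩ _, by simp [dC_single, dL_nil]⟩
    | cons x l =>
      obtain ⟨h1, h2⟩ := hR x l hl hs
      exact ⟨h1.mono fun l' hl' => ⟨hl'.1, hl'.2.1, fun a ha =>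
        ⟨x, List.mem_cons_self, hl'.2.2 a ha⟩⟩, h2⟩
  have hz' : ChIn (fun l => l ∈ z.support ∧ l.length = n ∧ SmallL δ l ∧ SmallL ε' l) z :=
    fun l hl => ⟨hl, (hz l hl).1, small_mono (min_le_left _ _) (hz l hl).2,
      small_mono (min_le_right _ _) (hz l hl).2⟩
  obtain ⟨c, hc, hcz⟩ := hfill n (lc R z) (hz'.lc fun l hl =>
    (hR' l hl.2.1.le hl.2.2.1).1.mono fun l' hl' => ⟨hl'.1.trans hl.2.1, hl'.2.1, fun a ha => by
      obtain ⟨b, hb, hab⟩ := hl'.2.2 a ha
      exact mem_iUnion₂.2 ⟨l, hl.1, mem_iUnion₂.2 ⟨b, hb, hab.le⟩⟩⟩)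
    (by rw [dC_lc (hz'.mono fun l hl => (hR' l hl.2.1.le hl.2.2.1).2), hz0, map_zero])
  have hD := fun l (hl : l.length = n) => cone_spec hε0 hR0 (fun l h1 h2 =>
    ⟨(hR' l h1 h2).1.mono fun l' hl' => ⟨hl'.1, hl'.2.2⟩, (hR' l h1 h2).2⟩) n l hl le_rfl
  refine ⟨c - lc (cone R n) z, ChIn.sub (hc.mono fun l hl => ⟨hl.1, hl.2.1⟩)
    (hz'.lc fun l hl => (hD l hl.2.1 hl.2.2.1).1.mono fun l' hl' =>
      ⟨hl'.1, fun a ha b hb => ?_⟩), ?_⟩
  · obtain ⟨a', ha', h1⟩ := hl'.2 a ha
    obtain ⟨b', hb', h2⟩ := hl'.2 b hb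
    have h3 := hl.2.2.2 a' ha' b' hb'
    have h4 := dist_triangle4 a a' b' b
    rw [dist_comm b' b] at h4
    linarith
  · rw [map_sub, hcz, dC_lc_hom (hz'.mono fun l hl => (hD l hl.2.1 hl.2.2.1).2), hz0]
    simp

end Crest.Agent.R224
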