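import Crest.Agent.R224.Api

/-! Row 224: finite intervals between cut points are impossible. -/

namespace Crest.Agent.R224

open Crest.Agent.Lib.KyFan Set Filter Topology
open scoped Pointwise

variable {G : Type} [Group G] {Y : Type} [MetricSpace Y] [MulAction G Y] {T : Finset G} {o : Y}

namespace S3Aux

theorem sep_left (h : W T o) {a b s v : Zt G o} (hs : Sep T s a b) (hv : Sep T v a s) :
    Sep T v a b := by
  refine (h.btw_trans hv.btw hs.btw).sep hv.1.symm fun hvb => ?_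
  subst hvb
  exact hs.2.1 (h.btw_antisymm hv.btw hs.btw)

/-- cut points are joined by chains of unseparated cut points -/
theorem chain (h : W T o) (hF : FinI T o) (n : ℕ) : ∀ a b : Zt G o, IsCP T a → IsCP T b →
    {r | Sep T r a b}.ncard = n → Relation.ReflTransGen
      (fun r r' => IsCP T r ∧ IsCP T r' ∧ r ≠ r' ∧ ∀ s, ¬ Sep T s r r') a b := by
  induction n using Nat.strong_induction_on with
  | _ n ih =>
    intro a b ha hb hn
    by_cases hab : a = b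
    · rw [hab]
    by_cases hs : ∃ s, Sep T s a b
    · obtain ⟨s, hs⟩ := hs
      have hcs : IsCP T s := ⟨a, b, hs⟩
      have h1 : {r | Sep T r a s}.ncard < n := by
        rw [← hn]
        refine ncard_lt_ncard ⟨fun v hv => sep_left h hs hv, fun hc => ?_⟩ (hF a b ha hb)
        exact (hc hs).2.1 rfl
      have h2 : {r | Sep T r s b}.ncard < n := by
        rw [← hn]
        refine ncard_lt_ncard ⟨fun v hv => (sep_left h hs.symm (Sep.symm hv)).symm,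
          fun hc => ?_⟩ (hF a b ha hb)
        exact (hc hs).1 rfl
      exact (ih _ h1 a s ha hcs rfl).trans (ih _ h2 s b hcs hb rfl)
    · exact Relation.ReflTransGen.single ⟨ha, hb, hab, fun s h' => hs ⟨s, h'⟩⟩

theorem finite_pairs {α : Type} {R : α → α → Prop} {a b : α} (h : Relation.ReflTransGen R a b) :
    ∃ P : Set (α × α), P.Finite ∧ (∀ p ∈ P, R p.1 p.2) ∧
      Relation.ReflTransGen (fun x y => (x, y) ∈ P) a b := by
  induction h with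
  | refl => exact ⟨∅, finite_empty, fun _ hp => hp.elim, Relation.ReflTransGen.refl⟩
  | @tail b c _ hbc ih =>
    obtain ⟨P, hP, hR, hc⟩ := ih
    refine ⟨insert (b, c) P, hP.insert _, ?_,
      (Relation.ReflTransGen.mono (fun _ _ hx => mem_insert_of_mem _ hx) _ _ hc).tail
        (mem_insert _ _)⟩
    rintro p (rfl | hp)
    · exact hbc
    · exact hR p hp

theorem exists_change {α : Type} {R : α → α → Prop} {a b : α} (h : Relation.ReflTransGen R a b)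
    {Q : α → Prop} (hQ : ¬ (Q a ↔ Q b)) : ∃ x y, R x y ∧ ¬ (Q x ↔ Q y) := by
  by_contra hc
  refine hQ ?_
  clear hQ
  induction h with
  | refl => rfl
  | @tail b c _ hbc ih => exact ih.trans (by_contra fun h' => hc ⟨b, c, hbc, h'⟩)

/-- the stabiliser of a cut point pushes every other point towards it -/
theorem par_conv (h : W T o) (hP : Par T o) {r z : Zt G o} (hr : IsCP T r) (hz : z ≠ r) {ε : ℝ}
    (hε : 0 < ε) : {c : G | c • r = r ∧ ε ≤ dist (c • z).1 r.1}.Finite := by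
  have hδ := Zt.dist_pos hz
  obtain ⟨F, hF, hc⟩ := h.conv (dist z.1 r.1 / 2) (ε / 2) (by linarith) (by linarith)
  have h1 := hP r hr (ε / 2) (by linarith)
  have h2 := (hP r hr (dist z.1 r.1 / 2) (by linarith)).preimage
    (f := fun c : G => c⁻¹) inv_injective.injOn
  refine ((hF.union h1).union h2).subset fun c hc' => ?_
  by_contra hn
  simp only [mem_union, mem_preimage, mem_ofPred_eq, not_or, not_and, not_le] at hn
  have a1 := hn.1.2 hc'.1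
  have a2 := hn.2 (inv_smul_eq_iff.2 hc'.1.symm)
  have a3 := hc c hn.1.1 z.1 (by linarith [dist_triangle z.1 (c⁻¹ • o) r.1])
  have a4 := hc'.2
  rw [Zt.smul_val] at a4
  linarith [dist_triangle (c • z.1) (c • o) r.1]

theorem par_sub (hP : Par T o) {r : Zt G o} (hr : IsCP T r) {U : Finset G}
    (hU : ∀ c ∈ Subgroup.closure (U : Set G), c • r = r) (ε : ℝ) (hε : 0 < ε) :
    {c : G | c ∈ Subgroup.closure (U : Set G) ∧ ε ≤ dist (c • o) r.1}.Finite :=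
  (hP r hr ε hε).subset fun c hc => ⟨hU c hc.1, hc.2⟩

theorem ray1 (hR : Ray G o) (hP : Par T o) (hD : DirTr T o) {r : Zt G o} (hr : IsCP T r) {η : ℝ}
    (hη : 0 < η) : {x : G | η < dist (x • r.1) (x • o)}.Finite := by
  obtain ⟨a, b, hab⟩ := id hr
  obtain ⟨U, h1, h2, h3⟩ := hD r a hr hab.1
  exact (hR U r h1 h2 (par_sub hP hr fun c hc => (h3 c hc).1)).2.1 η hη

theorem split_mono {L L' : Set (Zt G o × Zt G o × Zt G o × Zt G o)} (hL : L ⊆ L') {H : Set G}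
    {x : G} (h : Split L H x) : Split L' H x := by
  obtain ⟨θ, hθ, h'⟩ := h
  exact ⟨θ, hL hθ, h'⟩

/-- a root, a triple and a transient subgroup fixing the root -/
theorem gadget (h : W T o) (hR : Ray G o) (hP : Par T o) {ρ : Zt G o} (hρ : IsCP T ρ)
    {σ : Fin 3 → Zt G o} (hσ : Function.Injective σ) (hσρ : ∀ i, σ i ≠ ρ) {U : Finset G}
    (hs : Symm U) (ht : Trans U) (hU : ∀ c ∈ Subgroup.closure (U : Set G), c • ρ = ρ)
    (hsep : ∀ u ∈ U, ∀ i k s, ¬ Sep T s (σ i) (u • σ k)) :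
    ∃ L : Set (Zt G o × Zt G o × Zt G o × Zt G o), L.Finite ∧
      (∀ θ ∈ L, (θ.1 ≠ θ.2.1 ∧ θ.2.2.1 ≠ θ.2.2.2) ∧ ∀ s a b, (a = θ.1 ∨ a = θ.2.1) →
        (b = θ.2.2.1 ∨ b = θ.2.2.2) → ¬ Sep T s a b) ∧
      ∀ η : ℝ, 0 < η → ∀ E : Set G, E.Finite → ∃ E' : Set G, E'.Finite ∧
        ∀ (H : Set G) (x : G), x ∉ E' →
          ((In o (x • ρ).1 H ∧ ¬ Two σ x fun z => In o z.1 H) ∨
            (In o (x • ρ).1 Hᶜ ∧ Two σ x fun z => In o z.1 H)) →
          ∃ x', Split L H x' ∧ x' ∉ E ∧ dist (x' • o) (x • o) ≤ η := by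
  refine ⟨{θ | ∃ u ∈ U, ∃ i j k l, i ≠ j ∧ k ≠ l ∧
    (θ = (σ i, σ j, u • σ k, u • σ l) ∨ θ = (u • σ i, u • σ j, σ k, σ l))}, ?_, ?_, ?_⟩
  · have hA : (range σ ∪ ⋃ u ∈ U, range fun i => u • σ i).Finite :=
      (finite_range σ).union (U.finite_toSet.biUnion fun _ _ => finite_range _)
    refine (hA.prod (hA.prod (hA.prod hA))).subset ?_
    have a1 : ∀ i, σ i ∈ range σ ∪ ⋃ u ∈ U, range fun i => u • σ i := fun i => Or.inl ⟨i, rfl⟩
    have a2 : ∀ u ∈ U, ∀ i, u • σ i ∈ range σ ∪ ⋃ u ∈ U, range fun i => u • σ i :=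
      fun u hu i => Or.inr (mem_iUnion₂.2 ⟨u, hu, i, rfl⟩)
    rintro _ ⟨u, hu, i, j, k, l, -, -, rfl | rfl⟩
    · exact ⟨a1 _, a1 _, a2 u hu _, a2 u hu _⟩
    · exact ⟨a2 u hu _, a2 u hu _, a1 _, a1 _⟩
  · rintro _ ⟨u, hu, i, j, k, l, hij, hkl, rfl | rfl⟩
    · refine ⟨⟨hσ.ne hij, fun e => hkl (hσ (MulAction.injective u e))⟩, ?_⟩
      rintro s a b (rfl | rfl) (rfl | rfl) <;> exact hsep u hu _ _ s
    · refine ⟨⟨fun e => hij (hσ (MulAction.injective u e)), hσ.ne hkl⟩, ?_⟩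
      rintro s a b (rfl | rfl) (rfl | rfl) <;> exact fun h' => hsep u hu _ _ s h'.symm
  intro η hη E hE
  obtain ⟨E', hE', hray⟩ := (hR U ρ hs ht (par_sub hP hρ hU)).2.2 η hη E hE
  refine ⟨E', hE', fun H x hx hcase => ?_⟩
  obtain ⟨hxE, hpath⟩ := hray x hx
  have far : ∀ H' : Set G, In o (x • ρ).1 H' → ∃ c : G, Relation.ReflTransGen
      (fun c c' : G => c⁻¹ * c' ∈ U ∧ x * c' ∉ E ∧ dist ((x * c') • o) (x • o) ≤ η) 1 c ∧
      ∀ i, In o ((x * c) • σ i).1 H' := by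
    intro H' hH'
    obtain ⟨δ, hδ, hn⟩ := ((in_smul h.sp x).1 hH').nhds
    obtain ⟨c, hc, hp⟩ := hpath (⋃ i, {c : G | c • ρ = ρ ∧ δ ≤ dist (c • σ i).1 ρ.1})
      (finite_iUnion fun i => par_conv h hP hρ (hσρ i) hδ)
    have hcU : c ∈ Subgroup.closure (U : Set G) := by
      clear hc
      induction hp with
      | refl => exact one_mem _
      | tail _ hbc ih => simpa using mul_mem ih (Subgroup.subset_closure hbc.1)
    refine ⟨c, hp, fun i => ?_⟩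
    rw [mul_smul]
    refine (in_smul h.sp x).2 (hn _ (lt_of_not_ge fun hle => hc ?_))
    exact mem_iUnion.2 ⟨i, hU c hcU, hle⟩
  have hch : ∃ c : G, Relation.ReflTransGen
      (fun c c' : G => c⁻¹ * c' ∈ U ∧ x * c' ∉ E ∧ dist ((x * c') • o) (x • o) ≤ η) 1 c ∧
      ¬ ((Two σ (x * 1) fun z => In o z.1 H) ↔ Two σ (x * c) fun z => In o z.1 H) := by
    rw [mul_one]
    rcases hcase with ⟨h1, h2⟩ | ⟨h1, h2⟩
    · obtain ⟨c, hp, hc⟩ := far H h1
      exact ⟨c, hp, fun e => h2 (e.2 ⟨0, 1, by decide, hc 0, hc 1⟩)⟩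
    · obtain ⟨c, hp, hc⟩ := far Hᶜ h1
      refine ⟨c, hp, fun e => ?_⟩
      obtain ⟨i, -, -, hi, -⟩ := e.1 h2
      exact In.not_compl h.sp hi (hc i)
  obtain ⟨c, hp, hc⟩ := hch
  have hp' : Relation.ReflTransGen
      (fun c c' : G => c⁻¹ * c' ∈ U ∧ x * c ∉ E ∧ dist ((x * c) • o) (x • o) ≤ η) 1 c ∧
      x * c ∉ E ∧ dist ((x * c) • o) (x • o) ≤ η := by
    clear hc
    induction hp with
    | refl => exact ⟨Relation.ReflTransGen.refl, by simpa using hxE, by simpa using hη.le⟩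
    | tail _ hbc ih => exact ⟨ih.1.tail ⟨hbc.1, ih.2⟩, hbc.2⟩
  obtain ⟨c1, c2, ⟨hu, h1, h2⟩, h3⟩ :=
    exists_change hp'.1 (Q := fun c => Two σ (x * c) fun z => In o z.1 H) hc
  refine ⟨x * c1, ?_, h1, h2⟩
  have e : ∀ z : Zt G o, (x * c1) • (c1⁻¹ * c2) • z = (x * c2) • z := fun z => by
    rw [← mul_smul, mul_assoc, mul_inv_cancel_left]
  by_cases h4 : Two σ (x * c1) fun z => In o z.1 H
  · obtain ⟨k, l, hkl, hk, hl⟩ := two_not_iff.2 fun h5 => h3 ⟨fun _ => h5, fun _ => h4⟩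
    obtain ⟨i, j, hij, hi, hj⟩ := h4
    refine ⟨_, ⟨_, hu, i, j, k, l, hij, hkl, Or.inl rfl⟩, hi, hj, ?_, ?_⟩ <;> rw [e] <;> assumption
  · obtain ⟨i, j, hij, hi, hj⟩ : Two σ (x * c2) fun z => In o z.1 H :=
      by_contra fun h5 => h3 ⟨fun h6 => (h4 h6).elim, fun h6 => (h5 h6).elim⟩
    obtain ⟨k, l, hkl, hk, hl⟩ := two_not_iff.2 h4
    refine ⟨_, ⟨_, hu, i, j, k, l, hij, hkl, Or.inr rfl⟩, ?_, ?_, hk, hl⟩ <;> rw [e] <;> assumption

theorem K_unsep (h : W T o) {r r' z z' : Zt G o} (hne : r' ≠ r)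
    (hz : ¬ Sep T r r' z ∧ ∀ s, ¬ Sep T s r z) (hz' : ¬ Sep T r r' z' ∧ ∀ s, ¬ Sep T s r z')
    (s : Zt G o) : ¬ Sep T s z z' := by
  intro hs
  by_cases hsr : r = s
  · subst hsr
    exact (h.sep_or hs hne).elim (fun h1 => hz.1 h1.symm) hz'.1
  · exact (h.sep_or hs hsr).elim (fun h1 => hz.2 s h1.symm) (hz'.2 s)

theorem K_smul (h : W T o) {r r' z : Zt G o} (hne : r' ≠ r) {c : G} (hc : c • r = r)
    (hc' : ¬ Sep T r r' (c • r')) (hz : z ≠ r ∧ ¬ Sep T r r' z ∧ ∀ s, ¬ Sep T s r z) :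
    c • z ≠ r ∧ ¬ Sep T r r' (c • z) ∧ ∀ s, ¬ Sep T s r (c • z) := by
  refine ⟨fun e => hz.1 (MulAction.injective c (e.trans hc.symm)), fun hs => ?_, fun s hs => ?_⟩
  · refine (h.sep_or hs (c := c • r') fun e =>
      hne (MulAction.injective c (e.trans hc.symm))).elim hc' fun h1 => hz.2.1 ?_
    rwa [← h.sep_smul c, hc]
  · refine hz.2.2 (c⁻¹ • s) ?_
    rwa [← h.sep_smul c, hc, smul_inv_smul]

/-- the quadruples attached to an unseparated pair of cut points -/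
theorem pair_pack (h : W T o) (hR : Ray G o) (hP : Par T o) (hD : DirTr T o) {r r' : Zt G o}
    (hr : IsCP T r) (hr' : IsCP T r') (hne : r ≠ r') (hun : ∀ s, ¬ Sep T s r r') :
    ∃ L : Set (Zt G o × Zt G o × Zt G o × Zt G o), L.Finite ∧
      (∀ θ ∈ L, (θ.1 ≠ θ.2.1 ∧ θ.2.2.1 ≠ θ.2.2.2) ∧ ∀ s a b, (a = θ.1 ∨ a = θ.2.1) →
        (b = θ.2.2.1 ∨ b = θ.2.2.2) → ¬ Sep T s a b) ∧
      ∀ η : ℝ, 0 < η → ∀ E : Set G, E.Finite → ∃ E' : Set G, E'.Finite ∧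
        ∀ (H : Set G) (x : G), x ∉ E' →
          {g : G | g ∈ bd T H ∧ dist (g • o) (x • o) < 2 * η}.Finite →
          ¬ (In o (x • r).1 H ↔ In o (x • r').1 H) →
          ∃ x', Split L H x' ∧ x' ∉ E ∧ dist (x' • o) (x • o) ≤ η := by
  obtain ⟨U, hU1, hU2, hU3⟩ := hD r r' hr hne.symm
  obtain ⟨U', hU1', hU2', hU3'⟩ := hD r' r hr' hne
  have hr'K : r' ≠ r ∧ ¬ Sep T r r' r' ∧ ∀ s, ¬ Sep T s r r' :=
    ⟨hne.symm, fun hs => h.sep_ne hs rfl, hun⟩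
  have hK : {z | z ≠ r ∧ ¬ Sep T r r' z ∧ ∀ s, ¬ Sep T s r z}.Infinite := by
    intro hfin
    obtain ⟨ε, hε, hle⟩ := ApiAux.exists_pos_le hfin (f := fun z => dist z.1 r.1)
      fun z hz => Zt.dist_pos hz.1
    refine (hR U r hU1 hU2 (par_sub hP hr fun c hc => (hU3 c hc).1)).1
      ((par_conv h hP hr hne.symm hε).subset fun c hc => ⟨(hU3 c hc).1, hle _ ?_⟩)
    exact K_smul h hne.symm (hU3 c hc).1 (hU3 c hc).2 hr'K
  let e := (hK.sdiff (finite_singleton r')).natEmbedding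
  let σ : Fin 3 → Zt G o := fun i => (e i).1
  have hσ : Function.Injective σ := fun i j hij => Fin.ext (e.injective (Subtype.ext hij))
  have hσK : ∀ i, σ i ≠ r ∧ ¬ Sep T r r' (σ i) ∧ ∀ s, ¬ Sep T s r (σ i) := fun i => (e i).2.1
  have hσK' : ∀ i, σ i ≠ r' ∧ ¬ Sep T r' r (σ i) ∧ ∀ s, ¬ Sep T s r' (σ i) := fun i =>
    ⟨(e i).2.2, (hσK i).2.2 r', K_unsep h hne.symm hr'K.2 (hσK i).2⟩
  obtain ⟨L, hL1, hL2, hL3⟩ := gadget h hR hP hr hσ (fun i => (hσK i).1) hU1 hU2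
    (fun c hc => (hU3 c hc).1) fun u hu i k => K_unsep h hne.symm (hσK i).2
      (K_smul h hne.symm (hU3 u (Subgroup.subset_closure hu)).1
        (hU3 u (Subgroup.subset_closure hu)).2 (hσK k)).2
  obtain ⟨L', hL1', hL2', hL3'⟩ := gadget h hR hP hr' hσ (fun i => (hσK' i).1) hU1' hU2'
    (fun c hc => (hU3' c hc).1) fun u hu i k => K_unsep h hne (hσK' i).2
      (K_smul h hne (hU3' u (Subgroup.subset_closure hu)).1
        (hU3' u (Subgroup.subset_closure hu)).2 (hσK' k)).2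
  refine ⟨L ∪ L', hL1.union hL1', fun θ hθ => hθ.elim (hL2 θ) (hL2' θ), fun η hη E hE => ?_⟩
  obtain ⟨E1, hE1, h1⟩ := hL3 η hη E hE
  obtain ⟨E2, hE2, h2⟩ := hL3' η hη E hE
  refine ⟨_, (hE1.union hE2).union ((ray1 hR hP hD hr hη).union (ray1 hR hP hD hr' hη)),
    fun H x hx hfin hch => ?_⟩
  simp only [mem_union, mem_ofPred_eq, not_or, not_lt] at hx
  have hio : ∀ z : Zt G o, dist (x • z.1) (x • o) ≤ η →
      In o (x • z).1 H ∨ In o (x • z).1 Hᶜ := by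
    intro z hz
    refine in_or_in h.sp hη (hfin.subset fun g hg => ⟨hg.1, ?_⟩)
    have := hg.2
    rw [Zt.smul_val] at this
    linarith [dist_triangle (g • o) (x • z.1) (x • o)]
  have a1 := hio r hx.2.1
  have a2 := hio r' hx.2.2
  have key : ((In o (x • r).1 H ∧ ¬ Two σ x fun z => In o z.1 H) ∨
        (In o (x • r).1 Hᶜ ∧ Two σ x fun z => In o z.1 H)) ∨
      ((In o (x • r').1 H ∧ ¬ Two σ x fun z => In o z.1 H) ∨
        (In o (x • r').1 Hᶜ ∧ Two σ x fun z => In o z.1 H)) := by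
    tauto
  rcases key with h3 | h3
  · obtain ⟨x', h4, h5⟩ := h1 H x hx.1.1 h3
    exact ⟨x', split_mono subset_union_left h4, h5⟩
  · obtain ⟨x', h4, h5⟩ := h2 H x hx.1.2 h3
    exact ⟨x', split_mono subset_union_right h4, h5⟩

end S3Aux

open S3Aux

theorem s3P : S3P := by
  intro G _ Y _ _ T o h hG hR hP hD hF ⟨r0, hr0⟩
  have hch := fun t : G => chain h hF _ r0 (t • r0) hr0 (h.isCP_smul t hr0) rfl
  choose P hP1 hP2 hP3 using fun t : G => finite_pairs (hch t)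
  have h𝒫 : (⋃ t ∈ T, P t).Finite := T.finite_toSet.biUnion fun t _ => hP1 t
  have hpack := fun (p : Zt G o × Zt G o) (hp : p ∈ ⋃ t ∈ T, P t) => by
    have h1 : IsCP T p.1 ∧ IsCP T p.2 ∧ p.1 ≠ p.2 ∧ ∀ s, ¬ Sep T s p.1 p.2 := by
      obtain ⟨t, -, ht⟩ := mem_iUnion₂.1 hp
      exact hP2 t p ht
    exact pair_pack h hR hP hD h1.1 h1.2.1 h1.2.2.1 h1.2.2.2
  choose! L hL1 hL2 hL3 using hpack
  have hm1 : ∀ (z : Zt G o) (H : Set G), In o z.1 H → In o z.1 {x : G | In o (x • r0).1 H} := by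
    intro z H hz
    obtain ⟨δ, hδ, hn⟩ := hz.nhds
    have h1 : In o z.1 {g : G | dist (g • o) z.1 < δ / 2} := ⟨δ / 2, by linarith, fun _ hg => hg⟩
    refine h1.of_finite ((ray1 hR hP hD hr0 (η := δ / 2) (by linarith)).subset fun g hg => ?_)
    by_contra hle
    refine hg.2 (hn _ ?_)
    have hle : dist (g • r0.1) (g • o) ≤ δ / 2 := not_lt.1 hle
    have : dist (g • o) z.1 < δ / 2 := hg.1
    rw [Zt.smul_val]
    linarith [dist_triangle (g • r0.1) (g • o) z.1]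
  have hpq : ∃ p q : Zt G o, p ≠ q ∧ ∀ s, ¬ Sep T s p q := by
    by_contra hc
    have h1 : ∀ t : G, t • r0 = r0 := fun t => by
      rcases (hch t).cases_head with e | ⟨c, hc', -⟩
      · exact e.symm
      · exact (hc ⟨r0, c, hc'.2.2.1, hc'.2.2.2⟩).elim
    obtain ⟨a, b, hab⟩ := id hr0
    have hδ := Zt.dist_pos hab.1
    refine h.sp.near_infinite a (ε := dist a.1 r0.1 / 2) (by linarith)
      ((hP r0 hr0 (dist a.1 r0.1 / 2) (by linarith)).subset fun g hg => ⟨h1 g, ?_⟩)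
    have : dist (g • o) a.1 < dist a.1 r0.1 / 2 := hg
    linarith [dist_triangle_left a.1 r0.1 (g • o)]
  obtain ⟨p, q, hpq, hun⟩ := hpq
  have hLm : ∀ θ ∈ ⋃ p ∈ ⋃ t ∈ T, P t, L p, (θ.1 ≠ θ.2.1 ∧ θ.2.2.1 ≠ θ.2.2.2) ∧
      ∀ s a b, (a = θ.1 ∨ a = θ.2.1) → (b = θ.2.2.1 ∨ b = θ.2.2.2) → ¬ Sep T s a b := by
    intro θ hθ
    obtain ⟨p, hp, hθ⟩ := mem_iUnion₂.1 hθ
    exact hL2 p hp θ hθ
  refine (hG (⋃ p ∈ ⋃ t ∈ T, P t, L p) (fun H => {x : G | In o (x • r0).1 H}) (h𝒫.biUnion hL1)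
    (fun θ hθ => (hLm θ hθ).1) hm1
    (fun z H hz => (hm1 z Hᶜ hz).mono fun x hx hx' => In.not_compl h.sp hx' hx)
    (fun η hη E hE => ?_) p q hpq).elim (fun ⟨y, hy⟩ => hun y hy)
    fun ⟨r, θ, hθ, a, b, ha, hb, hs⟩ => (hLm θ hθ).2 r a b ha hb hs
  choose! E' hE1 hE2 using fun p hp => hL3 p hp η hη E hE
  refine ⟨_, h𝒫.biUnion hE1, fun H x hx hxE hfin => ?_⟩
  obtain ⟨b, hb, hxb⟩ := hx
  obtain ⟨t, ht, rfl⟩ := adj_iff.1 hb
  obtain ⟨r, r', hrr, hne⟩ := exists_change (hP3 t) (Q := fun z => In o (x • z).1 H)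
    (by rw [← mul_smul]; exact hxb)
  have hmem : (r, r') ∈ ⋃ t ∈ T, P t := mem_iUnion₂.2 ⟨t, ht, hrr⟩
  obtain ⟨x', h1, h2⟩ := hE2 _ hmem H x (fun h' => hxE (mem_iUnion₂.2 ⟨_, hmem, h'⟩)) hfin hne
  exact ⟨x', split_mono (subset_biUnion_of_mem (u := L) hmem) h1, h2⟩

end Crest.Agent.R224
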