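import Crest.Agent.R224.Api

/-! Row 224, Stage IV-B: an invariant length on an interval is impossible. -/

namespace Crest.Agent.R224

open Crest.Agent.Lib.KyFan Set Filter Topology
open scoped Pointwise

namespace S4Aux

variable {G : Type} [Group G] {Y : Type} [MetricSpace Y] [MulAction G Y] {T : Finset G} {o : Y}
variable {A B : Zt G o} {t : Zt G o → ℝ}

theorem le_of_lt (h : W T o) (hl : Len T A B t) {v w : Zt G o} (hv : Btw T A v B)
    (hw : Btw T A w B) (hlt : t v < t w) : Btw T A v w := by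
  rcases h.btw_total hv hw with h1 | h1
  · exact h1
  · exact absurd (hl.mono w v h1 hv) (not_le.2 hlt)

theorem btw_of_lt (h : W T o) (hl : Len T A B t) {u v w : Zt G o} (hu : Btw T A u B)
    (hv : Btw T A v B) (hw : Btw T A w B) (h1 : t u < t v) (h2 : t v < t w) : Btw T u v w :=
  h.btw_trans' (le_of_lt h hl hu hv h1) (le_of_lt h hl hv hw h2)

theorem sep_of_lt (h : W T o) (hl : Len T A B t) {u v w : Zt G o} (hu : Btw T A u B)
    (hv : Btw T A v B) (hw : Btw T A w B) (h1 : t u < t v) (h2 : t v < t w) : Sep T v u w :=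
  (btw_of_lt h hl hu hv hw h1 h2).sep (fun e => by rw [e] at h1; exact lt_irrefl _ h1)
    (fun e => by rw [e] at h2; exact lt_irrefl _ h2)

/-- the majority set of the points on the `A`-side of `y`. -/
def M (T : Finset G) (τ : Fin 3 → Zt G o) (A y : Zt G o) : Set G :=
  {x | Two τ x fun z => ¬ Btw T A y z}

theorem mem_M {τ : Fin 3 → Zt G o} {y : Zt G o} {x : G} :
    x ∈ M T τ A y ↔ Two τ x fun z => ¬ Btw T A y z := Iff.rfl

theorem not_mem_M {τ : Fin 3 → Zt G o} {y : Zt G o} {x : G} :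
    x ∉ M T τ A y ↔ Two τ x fun z => Btw T A y z := by
  have := @two_not_iff G _ Y _ _ o τ x fun z => ¬ Btw T A y z
  simp only [not_not] at this
  exact this.symm

theorem M_mono (h : W T o) {τ : Fin 3 → Zt G o} {y y' : Zt G o} (hy : Btw T A y y') :
    M T τ A y ⊆ M T τ A y' := fun _ hx =>
  mem_M.2 ((mem_M.1 hx).mono fun _ hz hz' => hz (h.btw_trans hy hz'))

theorem ends (h : W T o) (hl : Len T A B t) {τ : Fin 3 → Zt G o} (hτ : Function.Injective τ) :
    ∃ δ : ℝ, 0 < δ ∧ ∀ y, Btw T A y B → 1 / 4 ≤ t y → t y ≤ 3 / 4 →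
      (∀ x : G, dist (x • o) A.1 < δ → x ∈ M T τ A y) ∧
      ∀ x : G, dist (x • o) B.1 < δ → x ∉ M T τ A y := by
  have hA : Btw T A A B := btw_left A B
  have hB : Btw T A B B := btw_right A B
  obtain ⟨r1, hr1, h10, h11⟩ := hl.dense 0 (1 / 4) le_rfl (by norm_num) (by norm_num)
  obtain ⟨r2, hr2, h20, h21⟩ := hl.dense (3 / 4) 1 (by norm_num) (by norm_num) le_rfl
  obtain ⟨-, hB1, H1, hc1, ha1, hb1⟩ := sep_of_lt h hl hA hr1 hB (by rw [hl.t0]; exact h10)
    (by rw [hl.t1]; linarith)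
  obtain ⟨hA2, -, H2, hc2, ha2, hb2⟩ := sep_of_lt h hl hA hr2 hB (by rw [hl.t0]; linarith)
    (by rw [hl.t1]; exact h21)
  obtain ⟨δ1, hδ1, h1⟩ := ha1.nhds
  obtain ⟨δ2, hδ2, h2⟩ := hb2.nhds
  obtain ⟨e1, he1, k1⟩ := h.in_two hτ (z := A) (A := fun z => In o z.1 H1) hδ1
    fun z' hz => h1 _ hz
  obtain ⟨e2, he2, k2⟩ := h.in_two hτ (z := B) (A := fun z => In o z.1 H2ᶜ) hδ2
    fun z' hz => h2 _ hz
  refine ⟨min e1 e2, lt_min he1 he2, fun y hy hy1 hy2 => ⟨fun x hx => ?_, fun x hx => ?_⟩⟩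
  · have hne : y ≠ r1 := fun e => by rw [e] at hy1; linarith
    have hin : In o y.1 H1ᶜ := by
      rcases hc1.in_or h.sp (z := y) (fun e => hne (Subtype.ext e)) with h3 | h3
      · exfalso
        have s1 : Sep T r1 y B := ⟨hne, hB1, H1, hc1, h3, hb1⟩
        have s2 : Btw T r1 y B := btw_of_lt h hl hr1 hy hB (by linarith) (by rw [hl.t1]; linarith)
        exact hne (h.btw_antisymm s2.symm s1.btw.symm)
      · exact h3
    have k3 : Two τ x fun z => In o z.1 H1 := k1 x (lt_of_lt_of_le hx (min_le_left _ _))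
    refine mem_M.2 (k3.mono fun z hz hb => ?_)
    rcases hb with e | e | e
    · rw [e, hl.t0] at hy1; linarith
    · rw [e] at hin; exact hz.not_compl h.sp hin
    · exact h.not_sep_of_in hc1 hin ha1 hz e
  · have hne : y ≠ r2 := fun e => by rw [e] at hy2; linarith
    have hin : In o y.1 H2 := by
      rcases hc2.in_or h.sp (z := y) (fun e => hne (Subtype.ext e)) with h3 | h3
      · exact h3
      · exfalso
        have s1 : Sep T r2 A y := ⟨hA2, hne, H2, hc2, ha2, h3⟩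
        exact hne (h.btw_antisymm (le_of_lt h hl hy hr2 (by linarith)) s1.btw)
    rw [not_mem_M]
    have k3 : Two τ x fun z => In o z.1 H2ᶜ := k2 x (lt_of_lt_of_le hx (min_le_right _ _))
    refine k3.mono fun z hz => ?_
    have s0 : Sep T y A B := sep_of_lt h hl hA hy hB (by rw [hl.t0]; linarith)
      (by rw [hl.t1]; linarith)
    have hzy : z ≠ y := fun e => by rw [e] at hz; exact hin.not_compl h.sp hz
    rcases h.sep_or s0 hzy with s | s
    · exact s.btw
    · exact absurd s (h.not_sep_of_in hc2.compl (by rwa [compl_compl]) hz hb2)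

theorem thick (h : W T o) {y y' α β : Zt G o} (hy : Btw T A y y') (hne : y ≠ y')
    (hα : ¬ Btw T A y α) (hβ : Btw T A y' β) :
    Btw T α y y' ∧ Btw T α y β ∧ Btw T α y' β := by
  have h1 : Btw T α y y' := (h.btw_or hy α).resolve_left hα
  have h2 : Btw T y y' β := h.btw_trans' hy hβ
  exact ⟨h1, h.btw_extend h1 h2 hne⟩

theorem cross_finite (h : W T o) (hPF : PF T o) (hl : Len T A B t) {τ : Fin 3 → Zt G o}
    (hτ : Function.Injective τ) {y y' : Zt G o} (hy : Btw T A y B) (hy' : Btw T A y' B)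
    (hlt : t y < t y') (h0 : 0 ≤ t y) (h1 : t y' ≤ 1) :
    {x | x ∈ M T τ A y ∧ ∃ s ∈ T, x * s ∉ M T τ A y'}.Finite := by
  obtain ⟨r1, hr1, h10, h11⟩ := hl.dense (t y) ((t y + t y') / 2) h0 (by linarith) (by linarith)
  obtain ⟨r2, hr2, h20, h21⟩ := hl.dense ((t y + t y') / 2) (t y') (by linarith) (by linarith) h1
  have hr : r1 ≠ r2 := fun e => by rw [e] at h11; linarith
  have s1 := sep_of_lt h hl hy hr1 hy' h10 (by linarith)
  have s2 := sep_of_lt h hl hy hr2 hy' (by linarith) h21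
  have hne : y ≠ y' := fun e => by rw [e] at hlt; exact lt_irrefl _ hlt
  have hyy := le_of_lt h hl hy hy' hlt
  have key : ∀ (i j k l : Fin 3) (s : G), {x : G | i ≠ j ∧ k ≠ l ∧
      x⁻¹ • y ∈ Core T (τ i) (τ j) (s • τ k) (s • τ l) ∧
      x⁻¹ • y' ∈ Core T (τ i) (τ j) (s • τ k) (s • τ l)}.Finite := by
    intro i j k l s
    by_cases hij : i = j
    · simp [hij]
    by_cases hkl : k = l
    · simp [hkl]
    have := hPF y y' r1 r2 (τ i) (τ j) (s • τ k) (s • τ l) hr s1 s2 (fun e => hij (hτ e))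
      (fun e => hkl (hτ (MulAction.injective s e)))
    exact (this.preimage (f := fun x : G => x⁻¹) inv_injective.injOn).subset
      fun x hx => hx.2.2
  refine (T.finite_toSet.biUnion fun s _ => finite_iUnion fun i => finite_iUnion fun j =>
    finite_iUnion fun k => finite_iUnion fun l => key i j k l s).subset ?_
  rintro x ⟨⟨i, j, hij, hi, hj⟩, s, hs, hx'⟩
  obtain ⟨k, l, hkl, hk, hl'⟩ := not_mem_M.1 hx'
  rw [mul_smul] at hk hl'
  simp only [mem_iUnion]
  refine ⟨s, hs, i, j, k, l, hij, hkl, ?_, ?_⟩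
  · rw [← h.core_smul x, smul_inv_smul]
    exact ⟨(thick h hyy hne hi hk).2.1, (thick h hyy hne hi hl').2.1,
      (thick h hyy hne hj hk).2.1, (thick h hyy hne hj hl').2.1⟩
  · rw [← h.core_smul x, smul_inv_smul]
    exact ⟨(thick h hyy hne hi hk).2.2, (thick h hyy hne hi hl').2.2,
      (thick h hyy hne hj hk).2.2, (thick h hyy hne hj hl').2.2⟩

/-- bad points of type `(a, b, z)`. -/
def Bad (T : Finset G) (A y y' a b z : Zt G o) (x : G) : Prop :=
  ¬ Btw T A y (x • a) ∧ Btw T A y' (x • b) ∧ Btw T A y (x • z) ∧ ¬ Btw T A y' (x • z)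

section Count
variable {y y' a b z : Zt G o}

theorem smul_iff (h : W T o) (x : G) {u v w : Zt G o} :
    Btw T u (x⁻¹ • v) w ↔ Btw T (x • u) v (x • w) := by
  rw [← h.btw_smul x, smul_inv_smul]

theorem Bad.facts (h : W T o) (hyy : Btw T A y y') (hne : y ≠ y') {x : G}
    (hx : Bad T A y y' a b z x) :
    Btw T a (x⁻¹ • y) (x⁻¹ • y') ∧ Btw T a (x⁻¹ • y) b ∧ Btw T a (x⁻¹ • y') b ∧
      Btw T a (x⁻¹ • y) z ∧ ¬ Btw T a (x⁻¹ • y') z := by
  obtain ⟨h1, h2, h3, h4⟩ := hx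
  obtain ⟨k1, k2, k3⟩ := thick h hyy hne h1 h2
  simp only [smul_iff h, smul_inv_smul]
  refine ⟨k1, k2, k3, (h.btw_or h3 _).resolve_left h1, fun hb => ?_⟩
  rcases h.btw_or hb A with h5 | h5
  · exact h1 (h.btw_trans hyy h5.symm)
  · exact h4 h5

theorem Bad.lr (h : W T o) (hyy : Btw T A y y') (hne : y ≠ y') {x x' : G}
    (hx : Bad T A y y' a b z x) (hx' : Bad T A y y' a b z x') :
    Btw T a (x⁻¹ • y) (x'⁻¹ • y') := by
  obtain ⟨-, k2, -, k4, -⟩ := hx.facts h hyy hne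
  obtain ⟨-, -, k3, -, k5⟩ := hx'.facts h hyy hne
  exact (h.btw_total k2 k3).resolve_right fun h1 => k5 (h.btw_trans h1 k4)

theorem Bad.mem_iff (h : W T o) (hyy : Btw T A y y') (hne : y ≠ y') {x : G}
    (hx : Bad T A y y' a b z x) (v : Zt G o) :
    Btw T y (x • v) y' ↔ Btw T a (x⁻¹ • y) v ∧ Btw T a v (x⁻¹ • y') := by
  rw [← h.btw_order (hx.facts h hyy hne).1, ← h.btw_smul x (r := v), smul_inv_smul,
    smul_inv_smul]

theorem Bad.order (h : W T o) (hl : Len T A B t) (hy : Btw T A y B) (hy' : Btw T A y' B)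
    (hyy : Btw T A y y') (hne : y ≠ y') {x : G} (hx : Bad T A y y' a b z x) {v v' : Zt G o}
    (hv : Btw T y (x • v) y') (hv' : Btw T y (x • v') y') (hvv : Btw T a v v') :
    t (x • v) ≤ t (x • v') := by
  have h1 : Btw T a (x⁻¹ • y) v := ((hx.mem_iff h hyy hne v).1 hv).1
  have h2 : Btw T (x⁻¹ • y) v v' := h.btw_trans' h1 hvv
  have h3 : Btw T y (x • v) (x • v') := by
    rw [← h.btw_smul x, smul_inv_smul] at h2; exact h2
  have h4 : Btw T A y (x • v') := ((h.btw_order hyy).1 hv').1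
  exact hl.mono _ _ ((h.btw_order h4).1 h3).2 (h.btw_convex hy hy' hv')

theorem Bad.diff (h : W T o) (hl : Len T A B t) (hy : Btw T A y B) (hy' : Btw T A y' B)
    (hyy : Btw T A y y') (hne : y ≠ y') {x x' : G} (hx : Bad T A y y' a b z x)
    (hx' : Bad T A y y' a b z x') {v v' : Zt G o}
    (hv : Btw T y (x • v) y') (hv' : Btw T y (x • v') y')
    (kv : Btw T y (x' • v) y') (kv' : Btw T y (x' • v') y') :
    t (x • v') - t (x • v) = t (x' • v') - t (x' • v) := by
  have hinv := hl.inv (x' * x⁻¹) (x • v') (x • v) (h.btw_convex hy hy' hv')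
    (h.btw_convex hy hy' hv) (by rw [mul_smul, inv_smul_smul]; exact h.btw_convex hy hy' kv')
    (by rw [mul_smul, inv_smul_smul]; exact h.btw_convex hy hy' kv)
  simp only [mul_smul, inv_smul_smul] at hinv
  have f := hx.facts h hyy hne
  have b1 : Btw T a v b := h.btw_trans ((hx.mem_iff h hyy hne v).1 hv).2 f.2.2.1
  have b2 : Btw T a v' b := h.btw_trans ((hx.mem_iff h hyy hne v').1 hv').2 f.2.2.1
  rcases h.btw_total b1 b2 with h1 | h1
  · have e1 := hx.order h hl hy hy' hyy hne hv hv' h1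
    have e2 := hx'.order h hl hy hy' hyy hne kv kv' h1
    rw [abs_of_nonneg (by linarith), abs_of_nonneg (by linarith)] at hinv
    exact hinv.symm
  · have e1 := hx.order h hl hy hy' hyy hne hv' hv h1
    have e2 := hx'.order h hl hy hy' hyy hne kv' kv h1
    rw [abs_of_nonpos (by linarith), abs_of_nonpos (by linarith)] at hinv
    linarith

theorem Bad.tr (h : W T o) (hl : Len T A B t) (hy : Btw T A y B) (hy' : Btw T A y' B)
    {c η : ℝ} (hη : 0 < η) (h1 : t y < c - η) (h2 : c + η < t y') {x x' : G}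
    (hx : Bad T A y y' a b z x) (hx' : Bad T A y y' a b z x') {v0 : Zt G o}
    (hv : Btw T y (x • v0) y') (kv : Btw T y (x' • v0) y') :
    Tr T A B t c η (x' * x⁻¹) (t (x' • v0) - t (x • v0)) := by
  have hlt : t y < t y' := by linarith
  have hne : y ≠ y' := fun e => by rw [e] at hlt; exact lt_irrefl _ hlt
  have hyy := le_of_lt h hl hy hy' hlt
  intro w hw hw1 hw2
  rw [abs_lt] at hw1 hw2
  have hP : Btw T y (x • (x⁻¹ • w)) y' := by
    rw [smul_inv_smul]; exact btw_of_lt h hl hy hw hy' (by linarith) (by linarith)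
  obtain ⟨p1, p2⟩ := (hx.mem_iff h hyy hne _).1 hP
  have f := hx.facts h hyy hne
  have f' := hx'.facts h hyy hne
  have hb : Btw T a (x⁻¹ • w) b := h.btw_trans p2 f.2.2.1
  have q1 : Btw T a (x'⁻¹ • y) (x⁻¹ • w) := by
    refine (h.btw_total f'.2.1 hb).resolve_right fun h3 => ?_
    have P1 : Btw T y (x • (x'⁻¹ • y)) y' :=
      (hx.mem_iff h hyy hne _).2 ⟨h.btw_trans p1 h3, hx'.lr h hyy hne hx⟩
    have P2 : Btw T y (x' • (x'⁻¹ • y)) y' := by rw [smul_inv_smul]; exact btw_left _ _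
    have e1 := hx.order h hl hy hy' hyy hne hP P1 h3
    have e2 := hx.diff h hl hy hy' hyy hne hx' P1 hv P2 kv
    simp only [smul_inv_smul] at e1 e2
    linarith
  have q2 : Btw T a (x⁻¹ • w) (x'⁻¹ • y') := by
    refine (h.btw_total hb f'.2.2.1).resolve_right fun h3 => ?_
    have P1 : Btw T y (x • (x'⁻¹ • y')) y' :=
      (hx.mem_iff h hyy hne _).2 ⟨hx.lr h hyy hne hx', h.btw_trans h3 p2⟩
    have P2 : Btw T y (x' • (x'⁻¹ • y')) y' := by rw [smul_inv_smul]; exact btw_right _ _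
    have e1 := hx.order h hl hy hy' hyy hne P1 hP h3
    have e2 := hx.diff h hl hy hy' hyy hne hx' P1 hv P2 kv
    simp only [smul_inv_smul] at e1 e2
    linarith
  have hP' : Btw T y (x' • (x⁻¹ • w)) y' := (hx'.mem_iff h hyy hne _).2 ⟨q1, q2⟩
  have e := hx.diff h hl hy hy' hyy hne hx' hv hP kv hP'
  rw [mul_smul]
  simp only [smul_inv_smul] at e
  exact ⟨h.btw_convex hy hy' hP', by linarith⟩

theorem exists_max (h : W T o) {f : G → Zt G o} (F : Finset G) (hF : F.Nonempty)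
    (hf : ∀ x ∈ F, Btw T a (f x) b) : ∃ x0 ∈ F, ∀ x ∈ F, Btw T a (f x) (f x0) := by
  classical
  induction hF using Finset.Nonempty.cons_induction with
  | singleton x => exact ⟨x, by simp, by simp [btw_right]⟩
  | cons x s hx hs ih =>
    obtain ⟨x0, hx0, h0⟩ := ih fun y hy => hf y (by simp [hy])
    rcases h.btw_total (hf x (by simp)) (hf x0 (by simp [hx0])) with h1 | h1
    · refine ⟨x0, by simp [hx0], fun y hy => ?_⟩
      rcases Finset.mem_cons.1 hy with rfl | hy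
      · exact h1
      · exact h0 y hy
    · refine ⟨x, by simp, fun y hy => ?_⟩
      rcases Finset.mem_cons.1 hy with rfl | hy
      · exact btw_right _ _
      · exact h.btw_trans (h0 y hy) h1

theorem count (h : W T o) (hl : Len T A B t) (hy : Btw T A y B) (hy' : Btw T A y' B)
    {c η : ℝ} (hη : 0 < η) (h0 : c - 2 * η < t y) (h1 : t y < c - η) (h2 : c + η < t y')
    (h3 : t y' < c + 2 * η) (hg : ∀ (g : G) (s : ℝ), Tr T A B t c η g s → |s| ≤ η / 16 → g = 1)
    (F : Finset G) (hF : ∀ x ∈ F, Bad T A y y' a b z x) : F.card ≤ 64 := by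
  rcases F.eq_empty_or_nonempty with rfl | hne'
  · simp
  have hlt : t y < t y' := by linarith
  have hne : y ≠ y' := fun e => by rw [e] at hlt; exact lt_irrefl _ hlt
  have hyy := le_of_lt h hl hy hy' hlt
  obtain ⟨x0, hx0, hmax⟩ := exists_max h (f := fun x => x⁻¹ • y) F hne'
    fun x hx => ((hF x hx).facts h hyy hne).2.1
  have hP : ∀ x ∈ F, Btw T y (x • (x0⁻¹ • y)) y' := fun x hx =>
    ((hF x hx).mem_iff h hyy hne _).2 ⟨hmax x hx, (hF x0 hx0).lr h hyy hne (hF x hx)⟩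
  set s : G → ℝ := fun x => t (x • (x0⁻¹ • y)) with hs
  have hs1 : ∀ x ∈ F, t y ≤ s x ∧ s x ≤ t y' := fun x hx => by
    obtain ⟨k1, k2⟩ := (h.btw_order hyy).1 (hP x hx)
    exact ⟨hl.mono _ _ k1 (h.btw_convex hy hy' (hP x hx)), hl.mono _ _ k2 hy'⟩
  have hη' : 0 < η / 16 := by linarith
  have : F.card ≤ (Finset.range 64).card := by
    refine Finset.card_le_card_of_injOn (fun x => ⌊(s x - (c - 2 * η)) / (η / 16)⌋₊) ?_ ?_
    · intro x hx
      have := hs1 x hx
      simp only [Finset.coe_range, mem_Iio]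
      rw [Nat.floor_lt (div_nonneg (by linarith) hη'.le), div_lt_iff₀ hη']
      push_cast
      linarith
    · intro x hx x' hx' he
      have k := hs1 x hx
      have k' := hs1 x' hx'
      have a0 : 0 ≤ (s x - (c - 2 * η)) / (η / 16) := div_nonneg (by linarith) hη'.le
      have a0' : 0 ≤ (s x' - (c - 2 * η)) / (η / 16) := div_nonneg (by linarith) hη'.le
      have b1 := Nat.floor_le a0
      have b2 := Nat.lt_floor_add_one ((s x - (c - 2 * η)) / (η / 16))
      have b1' := Nat.floor_le a0'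
      have b2' := Nat.lt_floor_add_one ((s x' - (c - 2 * η)) / (η / 16))
      simp only at he
      rw [← he] at b1' b2'
      rw [le_div_iff₀ hη'] at b1 b1'
      rw [div_lt_iff₀ hη'] at b2 b2'
      have := hg _ _ ((hF x hx).tr h hl hy hy' hη h1 h2 (hF x' hx') (hP x hx) (hP x' hx'))
        (by rw [abs_le]; constructor <;> nlinarith)
      exact (mul_inv_eq_one.1 this).symm
  simpa using this

end Count

end S4Aux

open S4Aux

theorem s4P : S4P := by
  intro G _ Y _ _ T o h hPF hL A B t hl hg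
  classical
  have hT := h.hyp.symm
  have hA : Btw T A A B := btw_left A B
  have hB : Btw T A B B := btw_right A B
  obtain ⟨m, hm, hm0, hm1⟩ := hl.dense 0 1 le_rfl one_pos le_rfl
  obtain ⟨τ, hτ⟩ : ∃ τ : Fin 3 → Zt G o, Function.Injective τ := by
    have e1 : A ≠ B := fun e => by have := hl.t0; rw [e, hl.t1] at this; norm_num at this
    have e2 : m ≠ A := fun e => by rw [e, hl.t0] at hm0; exact lt_irrefl _ hm0
    have e3 : m ≠ B := fun e => by rw [e, hl.t1] at hm1; exact lt_irrefl _ hm1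
    refine ⟨![A, B, m], fun i j hij => ?_⟩
    fin_cases i <;> fin_cases j <;> simp_all [eq_comm]
  obtain ⟨R0, hR0⟩ := h.hyp.fillN
  set J : Finset (G × Fin 3 × G × Fin 3 × Fin 3) :=
    (Bl_finite T (2 * R0)).toFinset ×ˢ Finset.univ ×ˢ T ×ˢ Finset.univ ×ˢ Finset.univ with hJ
  obtain ⟨Φ, hΦ⟩ := hR0 (J.card * 64)
  obtain ⟨L, hLine⟩ := hL A B
  obtain ⟨δ, hδ, hends⟩ := ends h hl hτ
  have hL0 := hLine.thick h.sp hT Φ hδ
  set L0 := {g : G | (∃ x ∈ L, Near T Φ x g) ∧ δ ≤ dist (g • o) A.1 ∧ δ ≤ dist (g • o) B.1}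
    with hL0def
  set p : G → ℝ := fun x => sSup (t '' {y | Btw T A y B ∧ x ∉ M T τ A y}) with hp
  obtain ⟨c, ⟨hc0, hc1⟩, hcp⟩ : ∃ c ∈ Ioo (1 / 3 : ℝ) (2 / 3), c ∉ p '' L0 :=
    (Set.Ioo_infinite (by norm_num)).exists_notMem_finite (hL0.image p)
  obtain ⟨η0, hη0, hη0'⟩ : ∃ η0 : ℝ, 0 < η0 ∧ ∀ x ∈ L0, 2 * η0 < |p x - c| := by
    obtain ⟨e, he, h1⟩ := Metric.isOpen_iff.1 (hL0.image p).isClosed.isOpen_compl c hcp
    refine ⟨e / 3, by linarith, fun x hx => ?_⟩
    by_contra hn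
    refine h1 (a := p x) ?_ ⟨x, hx, rfl⟩
    rw [Metric.mem_ball, Real.dist_eq]
    linarith
  obtain ⟨η, hη, hηle, hgood⟩ := hg c (min η0 (1 / 24)) (by linarith) (by linarith)
    (lt_min hη0 (by norm_num))
  have hη1 : η ≤ η0 := hηle.trans (min_le_left _ _)
  have hη2 : η ≤ 1 / 24 := hηle.trans (min_le_right _ _)
  obtain ⟨y, hy, hy0, hy1⟩ := hl.dense (c - 2 * η) (c - η) (by linarith) (by linarith) (by linarith)
  obtain ⟨y', hy', hy0', hy1'⟩ := hl.dense (c + η) (c + 2 * η) (by linarith) (by linarith)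
    (by linarith)
  have hlt : t y < t y' := by linarith
  have hyy := le_of_lt h hl hy hy' hlt
  have hsub : M T τ A y ⊆ M T τ A y' := M_mono h hyy
  obtain ⟨eA, eB⟩ := hends y hy (by linarith) (by linarith)
  obtain ⟨eA', eB'⟩ := hends y' hy' (by linarith) (by linarith)
  -- no point near the line is between the two majority sets
  have hclear : ∀ x ∈ L, ∀ g, Near T Φ x g → g ∈ M T τ A y' → g ∈ M T τ A y := by
    intro x hx g hxg hg'
    by_contra hn
    have h1 : δ ≤ dist (g • o) A.1 := not_lt.1 fun h' => hn (eA g h')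
    have h2 : δ ≤ dist (g • o) B.1 := not_lt.1 fun h' => eB' g h' hg'
    have h3 := hη0' g ⟨⟨x, hx, hxg⟩, h1, h2⟩
    have hub : ∀ s ∈ t '' {y | Btw T A y B ∧ g ∉ M T τ A y}, s ≤ t y' := by
      rintro _ ⟨w, ⟨hw, hw'⟩, rfl⟩
      by_contra hlt'
      exact hw' (M_mono h (le_of_lt h hl hy' hw (not_le.1 hlt')) hg')
    have hmem : t y ∈ t '' {y | Btw T A y B ∧ g ∉ M T τ A y} := ⟨y, ⟨hy, hn⟩, rfl⟩
    have h4 : t y ≤ p g := le_csSup ⟨_, hub⟩ hmem
    have h5 : p g ≤ t y' := csSup_le ⟨_, hmem⟩ hub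
    have h6 : |p g - c| ≤ 2 * η := by rw [abs_le]; constructor <;> linarith
    linarith
  have hX := cross_finite h hPF hl hτ hy hy' hlt (by linarith) (by linarith)
  set X := {x | x ∈ M T τ A y ∧ ∃ s ∈ T, x * s ∉ M T τ A y'} with hXdef
  set S : Set G := {x | x ∈ M T τ A y' ∧ x ∉ M T τ A y ∧ ∃ x1 ∈ X, Near T (2 * R0) x1 x} with hS
  set Fj : G × Fin 3 × G × Fin 3 × Fin 3 → Finset G := fun j =>
    (hX.toFinset.filter fun x => Bad T A y y' (τ j.2.1) (j.2.2.1 • τ j.2.2.2.1)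
      (j.1 • τ j.2.2.2.2) x).image (· * j.1) with hFj
  have hSsub : S ⊆ (J.biUnion Fj : Finset G) := by
    rintro x ⟨hx1, hx2, x1, hx1X, hn⟩
    obtain ⟨⟨i, -, -, hi, -⟩, s, hs, hs'⟩ := id hx1X
    obtain ⟨k, -, -, hk, -⟩ := not_mem_M.1 hs'
    obtain ⟨l, hl1, hl2⟩ : ∃ l, Btw T A y (x • τ l) ∧ ¬ Btw T A y' (x • τ l) := by
      obtain ⟨i1, j1, hij1, a1, b1⟩ := not_mem_M.1 hx2
      obtain ⟨i2, j2, hij2, a2, b2⟩ := mem_M.1 hx1
      have : i1 = i2 ∨ i1 = j2 ∨ j1 = i2 ∨ j1 = j2 := by omega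
      rcases this with e | e | e | e
      · exact ⟨i1, a1, e ▸ a2⟩
      · exact ⟨i1, a1, e ▸ b2⟩
      · exact ⟨j1, b1, e ▸ a2⟩
      · exact ⟨j1, b1, e ▸ b2⟩
    have hx : x1 • (x1⁻¹ * x) • τ l = x • τ l := by rw [← mul_smul, mul_inv_cancel_left]
    simp only [Finset.coe_biUnion, mem_iUnion, Finset.mem_coe]
    refine ⟨(x1⁻¹ * x, i, s, k, l), ?_, ?_⟩
    · simp only [hJ, Finset.mem_product, Finite.mem_toFinset, Finset.mem_univ, true_and, and_true]
      exact ⟨hn, hs⟩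
    · simp only [hFj, Finset.mem_image, Finset.mem_filter, Finite.mem_toFinset]
      refine ⟨x1, ⟨hx1X, hi, by rwa [← mul_smul], ?_, ?_⟩, by simp⟩
      · rw [hx]; exact hl1
      · rw [hx]; exact hl2
  have hSf : S.Finite := (Finset.finite_toSet _).subset hSsub
  have hSc : S.ncard ≤ J.card * 64 := by
    refine (ncard_le_ncard hSsub (Finset.finite_toSet _)).trans ?_
    rw [ncard_coe_finset]
    refine Finset.card_biUnion_le_card_mul _ _ _ fun j _ => Finset.card_image_le.trans ?_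
    exact count h hl hy hy' hη hy0 hy1 hy0' hy1' hgood _ fun x hx => (Finset.mem_filter.1 hx).2
  set ω : G → G → F2 := fun a b =>
    if (a ∈ M T τ A y ∧ b ∉ M T τ A y') ∨ (b ∈ M T τ A y ∧ a ∉ M T τ A y') then 1 else 0 with hω
  set χ : G → F2 := fun a => if a ∈ M T τ A y then 1 else 0 with hχ
  have hωχ : ∀ a b, (a ∈ M T τ A y' → a ∈ M T τ A y) → (b ∈ M T τ A y' → b ∈ M T τ A y) →
      ω a b = χ a + χ b := by
    intro a b ha hb
    have ea : a ∈ M T τ A y' ↔ a ∈ M T τ A y := ⟨ha, fun h' => hsub h'⟩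
    have eb : b ∈ M T τ A y' ↔ b ∈ M T τ A y := ⟨hb, fun h' => hsub h'⟩
    simp only [hω, hχ, ea, eb]
    by_cases h1 : a ∈ M T τ A y <;> by_cases h2 : b ∈ M T τ A y <;> simp [h1, h2]
    rfl
  have hωX : ∀ a b, Adj T a b → ω a b ≠ 0 → a ∈ X ∨ b ∈ X := by
    intro a b hab hne
    simp only [hω, ne_eq, ite_eq_right_iff, one_ne_zero, imp_false, not_not] at hne
    rcases hne with ⟨h1, h2⟩ | ⟨h1, h2⟩
    · exact Or.inl ⟨h1, a⁻¹ * b, hab, by rwa [mul_inv_cancel_left]⟩
    · exact Or.inr ⟨h1, b⁻¹ * a, hab.symm hT, by rwa [mul_inv_cancel_left]⟩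
  obtain ⟨f, hf⟩ := hΦ ω S hSf hSc (by
    intro x hx
    by_cases hex : ∃ x1 ∈ X, Near T R0 x x1
    · obtain ⟨x1, hx1, hn1⟩ := hex
      have key : ∀ a, Near T R0 x a → a ∈ M T τ A y' → a ∈ M T τ A y := by
        intro a ha ha'
        by_contra hn
        refine hx a ⟨ha', hn, x1, hx1, ?_⟩ ha
        rw [_root_.two_mul]
        exact (hn1.symm hT).trans ha
      exact ⟨χ, fun a b ha hb _ => hωχ a b (key a ha) (key b hb)⟩
    · refine ⟨0, fun a b ha hb hab => ?_⟩
      by_contra hne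
      simp only [Pi.zero_apply, add_zero] at hne
      rcases hωX a b hab hne with h1 | h1
      · exact hex ⟨a, h1, ha⟩
      · exact hex ⟨b, h1, hb⟩)
  have F2iff : ∀ u v : F2, (u = 1 ↔ v = 1) ↔ u + v = 0 := by decide
  refine h.parity (H := M T τ A y) (H' := {a | f a = 1}) hLine ⟨δ, hδ, eA⟩ ⟨δ, hδ, eB⟩ ?_ ?_
  · refine ((nbhd_finite (T := T) Φ hSf).union (nbhd_finite (T := T) 1 hX)).subset ?_
    rintro a ⟨b, hab, hne⟩
    by_contra hn
    simp only [mem_union, mem_ofPred_eq, not_or, not_exists, not_and] at hn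
    have h1 := hf a b hab hn.1
    simp only [mem_ofPred_eq, F2iff] at hne
    rcases hωX a b hab (by rwa [h1]) with h2 | h2
    · exact hn.2 a h2 (Near.refl 1 a)
    · exact hn.2 b h2 hab.near
  · intro a ha b hb hab
    have h1 := hf a b hab fun s hs hn => hs.2.1 (hclear a ha s hn hs.1)
    rw [hωχ a b (hclear a ha a (Near.refl _ _)) (hclear b hb b (Near.refl _ _))] at h1
    simp only [mem_ofPred_eq, F2iff, ← h1, hχ]
    by_cases h1 : a ∈ M T τ A y <;> by_cases h2 : b ∈ M T τ A y <;> simp [h1, h2]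
    rfl

end Crest.Agent.R224
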