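import Crest.Agent.R224.Chain

/-! Row 224: the suspension isomorphism for compactly supported Alexander-Spanier cochains. -/

namespace Crest.Agent.R224

open Crest.Agent.Lib.KyFan Set Filter Topology

namespace SuspAux

section alg
variable {Y : Type}

/-- the open upper half space -/
def up (Y : Type) (c : ℝ) : Set (Y × ℝ) := {p | c < p.2}

/-- truncation of the second coordinate -/
def cl (s : ℝ) (p : Y × ℝ) : Y × ℝ := (p.1, min p.2 s)

/-- the slice at height `s` -/
def sl (s : ℝ) (y : Y) : Y × ℝ := (y, s)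

theorem hd_up_cons (c : ℝ) (β : Co (Y × ℝ)) (p : Y × ℝ) (l : List (Y × ℝ)) :
    hd (up Y c) β (p :: l) = (if c < p.2 then 1 else 0) * β (p :: l) := by
  by_cases h : c < p.2
  · rw [hd_cons_mem β (show p ∈ up Y c from h), if_pos h, one_mul]
  · rw [hd_cons_notMem β (show p ∉ up Y c from h), if_neg h, zero_mul]

theorem cob_hd (c : ℝ) (φ : Co Y) (l : List (Y × ℝ)) (hl : 2 ≤ l.length ∨ φ [] = 0) :
    cob (hd (up Y c) (pull Prod.fst φ)) l =
      susp c φ l + hd (up Y c) (pull Prod.fst (cob φ)) l := by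
  match l, hl with
  | [], _ => simp [susp_nil, hd_nil]
  | [p], hl =>
    have h0 : φ [] = 0 := by simpa using hl
    simp [cob_cons, susp_single, hd_nil, hd_up_cons, pull, h0]
  | p :: q :: r, _ =>
    rw [← cob_pull, cob_cons, hd_up_cons, hd_up_cons, susp_cons_cons]
    have : (fun m => hd (up Y c) (pull Prod.fst φ) (p :: m)) =
        fun m => (if c < p.2 then 1 else 0) * pull Prod.fst φ (p :: m) :=
      funext fun m => hd_up_cons c _ p m
    rw [this, cob_mul, cob_cons (pull Prod.fst φ) p]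
    have h2 := F2.add_self ((if c < p.2 then (1 : F2) else 0) * pull Prod.fst φ (q :: r))
    change _ = _ * pull Prod.fst φ (q :: r) + _
    linear_combination (exp := 1) -h2

theorem cob_susp (c : ℝ) (φ : Co Y) (l : List (Y × ℝ)) (hl : 3 ≤ l.length ∨ φ [] = 0) :
    cob (susp c φ) l = susp c (cob φ) l := by
  have h1 : cob (susp c φ) l = cob (fun m => cob (hd (up Y c) (pull Prod.fst φ)) m +
      hd (up Y c) (pull Prod.fst (cob φ)) m) l := by
    refine cob_congr fun m _ hm => ?_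
    rw [cob_hd c φ m (hl.imp (fun h => by omega) id), add_assoc, F2.add_self, add_zero]
  have h2 : cob φ [] = 0 := rfl
  rw [h1, cob_add, cob_cob, zero_add, cob_hd c (cob φ) l (Or.inr h2)]
  have h3 : cob (cob φ) = 0 := funext fun l => cob_cob φ l
  rw [h3]
  cases l with
  | nil => simp [hd_nil]
  | cons p l => simp [hd_up_cons, pull]

theorem susp_add (c : ℝ) (φ ψ : Co Y) (l : List (Y × ℝ)) :
    susp c (φ + ψ) l = susp c φ l + susp c ψ l := by
  match l with
  | [] => simp [susp_nil]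
  | [p] => simp [susp_single]
  | p :: q :: r => simp only [susp_cons_cons, Pi.add_apply, mul_add]

theorem prism_map {X X' Z : Type} (f g : X → Z) (e : X' → X) (φ : Co Z) (l : List X') :
    prism f g φ (l.map e) = prism (f ∘ e) (g ∘ e) φ l := by
  induction l generalizing φ with
  | nil => rfl
  | cons x l ih => rw [List.map_cons, prism_cons, prism_cons, ih, List.map_map]; rfl

theorem cl_cl {s s' : ℝ} (h : s ≤ s') : (cl s ∘ cl s' : Y × ℝ → Y × ℝ) = cl s := by
  funext p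
  simp [cl, min_assoc, h]

theorem cl_of_le {s : ℝ} {p : Y × ℝ} (h : p.2 ≤ s) : cl s p = p := by
  simp [cl, h]

theorem hd_eq_zero {X : Type} {P : Set X} (φ : Co X) {l : List X} (h : ∀ x ∈ l, x ∉ P) :
    hd P φ l = 0 := by
  cases l with
  | nil => exact hd_nil P φ
  | cons x l => exact hd_cons_notMem φ (h x List.mem_cons_self) l

end alg

variable {Y : Type} [MetricSpace Y]

theorem continuous_cl (s : ℝ) : Continuous (cl s : Y × ℝ → Y × ℝ) := by
  unfold cl
  fun_prop

theorem continuous_sl (s : ℝ) : Continuous (sl s : Y → Y × ℝ) := by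
  unfold sl
  fun_prop

theorem lt_mem_nhds' {p : Y × ℝ} {s : ℝ} (h : p.2 < s) : {q : Y × ℝ | q.2 < s} ∈ 𝓝 p :=
  (isOpen_lt continuous_snd continuous_const).mem_nhds h

theorem gt_mem_nhds' {p : Y × ℝ} {s : ℝ} (h : s < p.2) : {q : Y × ℝ | s < q.2} ∈ 𝓝 p :=
  (isOpen_lt continuous_const continuous_snd).mem_nhds h

theorem LZ_susp {n : ℕ} {φ : Co Y} (c : ℝ) {p : Y × ℝ} (h : LZ n φ p.1) :
    LZ (n + 1) (susp c φ) p := by
  obtain ⟨N, hN, h⟩ := h
  refine ⟨Prod.fst ⁻¹' N, continuous_fst.continuousAt hN, fun l hl hm => ?_⟩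
  match l, hl, hm with
  | [p], _, _ => exact susp_single c φ p
  | p :: q :: r, hl, hm =>
    rw [susp_cons_cons, h _ (by simpa using hl), mul_zero]
    intro y hy
    obtain ⟨z, hz, rfl⟩ := List.mem_map.1 hy
    exact hm z (List.mem_cons_of_mem _ hz)

theorem LZ_susp_of_ne (n : ℕ) (φ : Co Y) {c : ℝ} {p : Y × ℝ} (h : p.2 ≠ c) :
    LZ n (susp c φ) p := by
  rcases lt_or_gt_of_ne h with h | h
  · refine ⟨_, lt_mem_nhds' h, fun l _ hm => ?_⟩
    match l, hm with
    | [], _ => exact susp_nil c φ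
    | [p], _ => exact susp_single c φ p
    | p :: q :: r, hm =>
      have h1 : ¬ c < p.2 := not_lt.2 (le_of_lt (hm p (by simp)))
      have h2 : ¬ c < q.2 := not_lt.2 (le_of_lt (hm q (by simp)))
      rw [susp_cons_cons, if_neg h1, if_neg h2, add_zero, zero_mul]
  · refine ⟨_, gt_mem_nhds' h, fun l _ hm => ?_⟩
    match l, hm with
    | [], _ => exact susp_nil c φ
    | [p], _ => exact susp_single c φ p
    | p :: q :: r, hm =>
      have h1 : c < p.2 := hm p (by simp)
      have h2 : c < q.2 := hm q (by simp)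
      rw [susp_cons_cons, if_pos h1, if_pos h2, F2.add_self, zero_mul]

theorem LZ_hd_up (n : ℕ) (β : Co (Y × ℝ)) {c : ℝ} {p : Y × ℝ} (h : p.2 < c) :
    LZ n (hd (up Y c) β) p :=
  ⟨_, lt_mem_nhds' h, fun _ _ hm => hd_eq_zero β fun x hx hx' =>
    lt_asymm (show x.2 < c from hm x hx) (show c < x.2 from hx')⟩

theorem LZ_fst {n : ℕ} {φ : Co Y} {p : Y × ℝ} (h : LZ n φ p.1) : LZ n (pull Prod.fst φ) p :=
  LZ.pull continuous_fst.continuousAt h

theorem CS_susp {n : ℕ} {V : Set Y} {a b c : ℝ} (hac : a < c) (hcb : c < b) {φ : Co Y}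
    (h : CS n V φ) : CS (n + 1) (V ×ˢ Ioo a b) (susp c φ) := by
  obtain ⟨K, hK, hKV, h⟩ := h
  refine ⟨K ×ˢ {c}, hK.prod isCompact_singleton,
    Set.prod_mono hKV (Set.singleton_subset_iff.2 (mem_Ioo.2 ⟨hac, hcb⟩)), fun p hp => ?_⟩
  by_cases h1 : p.1 ∈ K
  · exact LZ_susp_of_ne _ φ fun h2 => hp ⟨h1, h2⟩
  · exact LZ_susp c (h _ h1)

theorem LZ_prism {X : Type} [TopologicalSpace X] {n : ℕ} {f g : X → X} {φ : Co X} {x : X}
    {N S : Set X} (hN : N ∈ 𝓝 x) (hf : ∀ y ∈ N, f y ∈ S) (hg : ∀ y ∈ N, g y ∈ S)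
    (h : ∀ l : List X, l.length = n + 1 → (∀ y ∈ l, y ∈ S) → φ l = 0) : LZ n (prism f g φ) x := by
  refine ⟨N, hN, fun l hl hm => ?_⟩
  by_contra hc
  obtain ⟨m, h1, h2, h3⟩ := prism_ne_zero hc
  refine h1 (h m (by rw [h2, hl]) fun y hy => ?_)
  obtain ⟨z, hz, rfl | rfl⟩ := h3 y hy
  · exact hf z (hm z hz)
  · exact hg z (hm z hz)

theorem LZ_prism_low {n : ℕ} {s s' t : ℝ} (hs : t ≤ s) (hs' : t ≤ s') {φ : Co (Y × ℝ)}
    {p : Y × ℝ} (hp : p.2 < t) (h : LZ (n + 1) φ p) : LZ n (prism (cl s) (cl s') φ) p := by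
  obtain ⟨N, hN, h⟩ := h
  refine LZ_prism (inter_mem hN (lt_mem_nhds' hp)) (S := N) (fun y hy => ?_) (fun y hy => ?_) h
  · rw [cl_of_le ((le_of_lt hy.2).trans hs)]
    exact hy.1
  · rw [cl_of_le ((le_of_lt hy.2).trans hs')]
    exact hy.1

theorem LZ_prism_out {n : ℕ} (s s' : ℝ) {K : Set Y} (hK : IsClosed K) {φ : Co (Y × ℝ)}
    (h : ∀ l : List (Y × ℝ), (∀ y ∈ l, y.1 ∉ K) → φ l = 0) {p : Y × ℝ} (hp : p.1 ∉ K) :
    LZ n (prism (cl s) (cl s') φ) p :=
  LZ_prism (N := Prod.fst ⁻¹' Kᶜ) (S := Prod.fst ⁻¹' Kᶜ)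
    (continuous_fst.continuousAt (hK.isOpen_compl.mem_nhds hp)) (fun _ hy => hy) (fun _ hy => hy)
    fun l _ hm => h l hm

theorem dist_cl_le (s : ℝ) (p q : Y × ℝ) : dist (cl s p) (cl s q) ≤ dist p q := by
  simp only [cl, Prod.dist_eq]
  refine max_le_max le_rfl ?_
  rw [Real.dist_eq, Real.dist_eq]
  simpa using abs_min_sub_min_le_max p.2 s q.2 s

theorem dist_cl_cl {s s' : ℝ} (h : s' ≤ s) (p : Y × ℝ) : dist (cl s p) (cl s' p) ≤ s - s' := by
  simp only [cl, Prod.dist_eq, dist_self, Real.dist_eq]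
  refine max_le (by linarith) ?_
  rw [abs_le]
  constructor
  · have := min_le_min_left p.2 h
    linarith
  · rcases le_total p.2 s' with h1 | h1
    · rw [min_eq_left h1, min_eq_left (h1.trans h)]
      linarith
    · rw [min_eq_right h1]
      have := min_le_right p.2 s
      linarith

/-- the half lemma -/
theorem half [ProperSpace Y] {V : Set Y} (hV : IsOpen V) {m : ℕ} (hm : 1 ≤ m) {Φ : Co (Y × ℝ)}
    {K : Set Y} (hK : IsCompact K) (hKV : K ⊆ V) {a a' b' : ℝ} (ha : a < a') (hb : a' ≤ b')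
    (h1 : ∀ p, p ∉ K ×ˢ Ici a' → LZ m Φ p) (h2 : ∀ p, LZ (m + 1) (cob Φ) p) :
    ∃ (K' : Set Y) (a'' : ℝ) (Ψ : Co (Y × ℝ)), IsCompact K' ∧ K' ⊆ V ∧ a < a'' ∧ a'' < a' ∧
      Ψ [] = 0 ∧ (∀ p, p ∉ K' ×ˢ Ici a'' → LZ (m - 1) Ψ p) ∧ (∀ l, Ψ (l.map (cl b')) = Ψ l) ∧
      ∀ p, LZ m (pull (cl b') Φ + cob Ψ) p := by
  obtain ⟨K', hK', hKK', hK'V⟩ := exists_compact_between hK hV hKV
  obtain ⟨a'', ha1, ha2⟩ := exists_between ha
  set Φ' : Co (Y × ℝ) := hd (Prod.fst ⁻¹' K') Φ with hΦ'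
  have e1 : ∀ p, LZ m (Φ' + Φ) p := by
    intro p
    by_cases hp : p.1 ∈ K
    · exact LZ.hd_add_of_mem_nhds hm Φ
        (continuous_fst.continuousAt (mem_interior_iff_mem_nhds.1 (hKK' hp)))
    · have := h1 p fun h => hp h.1
      exact (this.hd _).add this
  have e2 : ∀ p, LZ (m + 1) (cob Φ') p := by
    intro p
    refine ((e1 p).cob.add (h2 p)).congr fun l _ => ?_
    rw [cob_add', add_assoc, co_add_self, add_zero]
  have e3 : ∀ p : Y × ℝ, p.2 < a' → LZ m Φ' p := fun p hp =>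
    (h1 p fun h => absurd h.2 (not_le.2 hp)).hd _
  have e4 : ∀ l : List (Y × ℝ), (∀ y ∈ l, y.1 ∉ K') → Φ' l = 0 := fun l hl => hd_eq_zero Φ hl
  have e5 : ∀ l : List (Y × ℝ), (∀ y ∈ l, y.1 ∉ K') → cob Φ' l = 0 := fun l hl => by
    rw [cob_congr (ψ := fun _ => 0) fun m hs _ => e4 m fun y hy => hl y (hs.subset hy), cob_zero]
  obtain ⟨η, hη, hL⟩ := LZ.exists_unif (hK'.prod (isCompact_Icc (a := a'') (b := b')))
    fun p _ => e2 p
  have key : ∀ (N : ℕ) (s : ℝ), a'' ≤ s → s ≤ b' → s ≤ a'' + N * (η / 2) →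
      ∃ Ψ : Co (Y × ℝ), Ψ [] = 0 ∧ (∀ p, p ∉ K' ×ˢ Ici a'' → LZ (m - 1) Ψ p) ∧
        (∀ l, Ψ (l.map (cl b')) = Ψ l) ∧ ∀ p, LZ m (pull (cl s) Φ' + cob Ψ) p := by
    intro N
    induction N with
    | zero =>
      intro s _ _ hs
      refine ⟨0, rfl, fun p _ => LZ.zero _ p, fun _ => rfl, fun p => ?_⟩
      have : LZ m (pull (cl s) Φ') p := by
        refine LZ.pull (continuous_cl s).continuousAt (e3 _ ?_)
        have : (cl s p).2 ≤ s := min_le_right _ _
        simp only [Nat.cast_zero, zero_mul, add_zero] at hs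
        linarith
      refine this.congr fun l _ => ?_
      rw [Pi.add_apply, show cob (0 : Co (Y × ℝ)) l = 0 from cob_zero l, add_zero]
    | succ N ih =>
      intro s hs1 hs2 hs3
      set s0 := max a'' (s - η / 2) with hs0
      have t1 : a'' ≤ s0 := le_max_left _ _
      have t2 : s0 ≤ s := max_le hs1 (by linarith)
      have t3 : s - η / 2 ≤ s0 := le_max_right _ _
      have t4 : s0 ≤ a'' + N * (η / 2) := by
        refine max_le (le_add_of_nonneg_right (by positivity)) ?_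
        push_cast at hs3
        linarith
      obtain ⟨Ψ, g0, g1, g2, g3⟩ := ih s0 t1 (t2.trans hs2) t4
      refine ⟨Ψ + prism (cl s) (cl s0) Φ', by simp [g0], fun p hp => (g1 p hp).add ?_,
        fun l => ?_, fun p => ?_⟩
      · by_cases hp1 : p.1 ∈ K'
        · have hp2 : p.2 < a'' := not_le.1 fun h => hp ⟨hp1, h⟩
          refine LZ_prism_low hs1 t1 hp2 ?_
          rw [Nat.sub_add_cancel hm]
          exact e3 p (hp2.trans ha2)
        · exact LZ_prism_out _ _ hK'.isClosed e4 hp1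
      · rw [Pi.add_apply, Pi.add_apply, g2, prism_map, cl_cl hs2, cl_cl (t2.trans hs2)]
      · have : LZ m (prism (cl s) (cl s0) (cob Φ')) p := by
          by_cases hp1 : p.1 ∈ K'
          · by_cases hp2 : p.2 < a''
            · exact LZ_prism_low hs1 t1 hp2 (e2 p)
            · have hz : cl s0 p ∈ K' ×ˢ Icc a'' b' :=
                ⟨hp1, le_min (not_lt.1 hp2) t1, (min_le_right _ _).trans (t2.trans hs2)⟩
              refine LZ_prism (Metric.ball_mem_nhds p (half_pos hη))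
                (S := {y | dist y (cl s0 p) < η}) (fun y hy => ?_) (fun y hy => ?_) (hL _ hz)
              · have u1 := dist_cl_le s0 y p
                have u2 := dist_cl_cl t2 y
                have u3 := dist_triangle (cl s y) (cl s0 y) (cl s0 p)
                have u4 : dist y p < η / 2 := hy
                change dist _ _ < η
                linarith
              · have u1 := dist_cl_le s0 y p
                have u4 : dist y p < η / 2 := hy
                change dist _ _ < η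
                linarith
          · exact LZ_prism_out _ _ hK'.isClosed e5 hp1
        refine ((g3 p).add this).congr fun l _ => ?_
        simp only [cob_add', Pi.add_apply, prism_cob, pull]
        have := F2.add_self (Φ' (l.map (cl s0)))
        linear_combination (exp := 1) this
  obtain ⟨N, hN⟩ := exists_nat_ge ((b' - a'') / (η / 2))
  rw [div_le_iff₀ (half_pos hη)] at hN
  obtain ⟨Ψ, g0, g1, g2, g3⟩ := key N b' (by linarith) le_rfl (by linarith)
  refine ⟨K', a'', Ψ, hK', hK'V, ha1, ha2, g0, g1, g2, fun p => ?_⟩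
  have := LZ.pull (continuous_cl b').continuousAt (e1 (cl b' p))
  refine ((g3 p).add this).congr fun l _ => ?_
  simp only [Pi.add_apply, pull]
  have := F2.add_self (Φ' (l.map (cl b')))
  linear_combination (exp := 1) this

/-- a compact support lies in a compact box -/
theorem exists_box {V : Set Y} {a b c : ℝ} (hac : a < c) (hcb : c < b) {m : ℕ} {Φ : Co (Y × ℝ)}
    (h : CS m (V ×ˢ Ioo a b) Φ) : ∃ (K : Set Y) (a' b'' : ℝ), IsCompact K ∧ K ⊆ V ∧ a < a' ∧
      a' ≤ c ∧ c ≤ b'' ∧ b'' < b ∧ ∀ p, p ∉ K ×ˢ Icc a' b'' → LZ m Φ p := by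
  obtain ⟨K0, hK0, hsub, h⟩ := h
  have hS : IsCompact (insert c (Prod.snd '' K0)) := (hK0.image continuous_snd).insert c
  have hS' : insert c (Prod.snd '' K0) ⊆ Ioo a b := by
    rintro t (rfl | ⟨p, hp, rfl⟩)
    · exact ⟨hac, hcb⟩
    · exact (hsub hp).2
  obtain ⟨a', ha', hmin⟩ := hS.exists_isLeast (insert_nonempty _ _)
  obtain ⟨b'', hb'', hmax⟩ := hS.exists_isGreatest (insert_nonempty _ _)
  refine ⟨Prod.fst '' K0, a', b'', hK0.image continuous_fst, ?_, (hS' ha').1,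
    hmin (mem_insert _ _), hmax (mem_insert _ _), (hS' hb'').2, fun p hp => h p fun hp' => hp ?_⟩
  · rintro _ ⟨p, hp, rfl⟩
    exact (hsub hp).1
  · exact ⟨mem_image_of_mem _ hp', hmin (mem_insert_of_mem _ (mem_image_of_mem _ hp')),
      hmax (mem_insert_of_mem _ (mem_image_of_mem _ hp'))⟩

/-- changing the level of the suspension -/
theorem susp_change {V : Set Y} {a b c c' : ℝ} (hac : a < c) (hcc : c ≤ c') (hcb : c' < b) {n : ℕ}
    (hn : 1 ≤ n) {φ : Co Y} (h : Zc n V φ) :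
    Bc (n + 1) (V ×ˢ Ioo a b) (susp c φ + susp c' φ) := by
  obtain ⟨⟨K, hK, hKV, h1⟩, h2⟩ := h
  refine Bc.of_cob hn (ψ := hd (up Y c) (pull Prod.fst φ) + hd (up Y c') (pull Prod.fst φ))
    ⟨K ×ˢ Icc c c', hK.prod isCompact_Icc,
      prod_mono hKV fun t ht => ⟨hac.trans_le ht.1, ht.2.trans_lt hcb⟩, fun p hp => ?_⟩ fun p => ?_
  · by_cases hp1 : p.1 ∈ K
    · by_cases hp2 : p.2 < c
      · exact (LZ_hd_up _ _ hp2).add (LZ_hd_up _ _ (hp2.trans_le hcc))
      · have hp3 : c' < p.2 := not_le.1 fun h => hp ⟨hp1, not_lt.1 hp2, h⟩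
        refine ⟨_, gt_mem_nhds' hp3, fun l _ hm => ?_⟩
        cases l with
        | nil => simp [hd_nil]
        | cons q l =>
          have hq : c' < q.2 := hm q List.mem_cons_self
          rw [Pi.add_apply, hd_up_cons, hd_up_cons, if_pos hq, if_pos (hcc.trans_lt hq),
            F2.add_self]
    · exact ((LZ_fst (h1 _ hp1)).hd _).add ((LZ_fst (h1 _ hp1)).hd _)
  · refine (((LZ_fst (h2 p.1)).hd (up Y c)).add ((LZ_fst (h2 p.1)).hd (up Y c'))).congr
      fun l hl => ?_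
    simp only [cob_add', Pi.add_apply]
    rw [cob_hd c φ l (Or.inl (by omega)), cob_hd c' φ l (Or.inl (by omega))]
    have e1 := F2.add_self (susp c φ l)
    have e2 := F2.add_self (susp c' φ l)
    linear_combination (exp := 1) -e1 - e2

/-- every cocycle is cohomologous to a suspension -/
theorem surj [ProperSpace Y] {V : Set Y} (hV : IsOpen V) {a b c : ℝ} (hac : a < c) (hcb : c < b)
    {m : ℕ} (hm : 1 ≤ m) {Φ : Co (Y × ℝ)} (h : Zc m (V ×ˢ Ioo a b) Φ) :
    ∃ (φ : Co Y) (c' : ℝ), c ≤ c' ∧ c' < b ∧ CS (m - 1) V φ ∧ (∀ y, LZ m (cob φ) y) ∧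
      Bc m (V ×ˢ Ioo a b) (Φ + susp c' φ) := by
  obtain ⟨K, a', b'', hK, hKV, ha, hac', hcb', hb, h1⟩ := exists_box hac hcb h.1
  obtain ⟨b', hb1, hb2⟩ := exists_between hb
  obtain ⟨c', hc1, hc2⟩ := exists_between hb2
  obtain ⟨K', a'', Ψ, hK', hK'V, ha1, ha2, g0, g1, g2, g3⟩ := half hV hm hK hKV ha
    (b' := b') (by linarith) (fun p hp => h1 p fun h => hp ⟨h.1, h.2.1⟩) h.2
  have e0 : ∀ p : Y × ℝ, b'' < p.2 → LZ m Φ p := fun p hp =>
    h1 p fun h => absurd h.2.2 (not_le.2 hp)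
  have e1 : ∀ p, LZ m (Φ + pull (cl b') Φ) p := by
    intro p
    by_cases hp : p.2 < b'
    · refine ⟨_, lt_mem_nhds' hp, fun l _ hl => ?_⟩
      have : l.map (cl b') = l := by
        conv_rhs => rw [← List.map_id l]
        exact List.map_congr_left fun y hy => cl_of_le (le_of_lt (hl y hy))
      rw [Pi.add_apply, pull, this, F2.add_self]
    · refine (e0 p (by linarith)).add (LZ.pull (continuous_cl b').continuousAt (e0 _ ?_))
      exact lt_min (by linarith) hb1
  have e2 : ∀ p, LZ m (Φ + cob Ψ) p := by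
    intro p
    refine ((e1 p).add (g3 p)).congr fun l _ => ?_
    simp only [Pi.add_apply]
    have := F2.add_self (pull (cl b') Φ l)
    linear_combination (exp := 1) this
  have e3 : ∀ y, y ∉ K' → LZ (m - 1) (pull (sl b') Ψ) y := fun y hy =>
    LZ.pull (continuous_sl b').continuousAt (g1 _ fun h => hy h.1)
  have e4 : ∀ y, LZ m (cob (pull (sl b') Ψ)) y := by
    intro y
    rw [cob_pull]
    refine LZ.pull (continuous_sl b').continuousAt (((e0 _ hb1).add (e2 _)).congr fun l _ => ?_)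
    simp only [Pi.add_apply]
    rw [← add_assoc, F2.add_self, zero_add]
  refine ⟨pull (sl b') Ψ, c', by linarith, hc2, ⟨K', hK', hK'V, e3⟩, e4,
    Ψ + hd (up Y c') (pull Prod.fst (pull (sl b') Ψ)), by simp [g0, hd_nil],
    ⟨K' ×ˢ Icc a'' c', hK'.prod isCompact_Icc,
      prod_mono hK'V fun t ht => ⟨ha1.trans_le ht.1, ht.2.trans_lt hc2⟩, fun p hp => ?_⟩,
    fun p => ?_⟩
  · by_cases hp1 : p.1 ∈ K'
    · by_cases hp2 : p.2 < a''
      · exact (g1 p fun h => absurd h.2 (not_le.2 hp2)).add (LZ_hd_up _ _ (by linarith))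
      · have hp3 : c' < p.2 := not_le.1 fun h => hp ⟨hp1, not_lt.1 hp2, h⟩
        refine ⟨_, gt_mem_nhds' hp3, fun l _ hl => ?_⟩
        cases l with
        | nil => simp [g0, hd_nil]
        | cons q l =>
          have hq : c' < q.2 := hl q List.mem_cons_self
          rw [Pi.add_apply, hd_up_cons, if_pos hq, one_mul, pull, pull, List.map_map, ← g2]
          have : (q :: l).map (cl b') = (q :: l).map (sl b' ∘ Prod.fst) := by
            refine List.map_congr_left fun y hy => ?_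
            have hy' : c' < y.2 := hl y hy
            simp only [cl, sl, Function.comp, min_eq_right (show b' ≤ y.2 by linarith)]
          rw [this, F2.add_self]
    · exact (g1 p fun h => hp1 h.1).add ((LZ_fst (e3 _ hp1)).hd _)
  · refine ((e2 p).add ((LZ_fst (e4 p.1)).hd (up Y c'))).congr fun l _ => ?_
    simp only [cob_add', Pi.add_apply]
    rw [cob_hd c' _ l (Or.inr g0)]
    have e1 := F2.add_self (susp c' (pull (sl b') Ψ) l)
    linear_combination (exp := 1) -e1

theorem inj [ProperSpace Y] {V : Set Y} (hV : IsOpen V) {a b c : ℝ} (hac : a < c) (hcb : c < b)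
    {n : ℕ} (hn : 1 ≤ n) {φ : Co Y} (h : Zc n V φ) (hB : Bc (n + 1) (V ×ˢ Ioo a b) (susp c φ)) :
    Bc n V φ := by
  obtain ⟨Θ, -, k1, k2⟩ := hB
  obtain ⟨⟨K2, hK2, hK2V, h3⟩, h4⟩ := h
  rw [Nat.add_sub_cancel] at k1
  obtain ⟨K, a', b'', hK, hKV, ha, hac', hcb', hb, h1⟩ := exists_box hac hcb k1
  obtain ⟨b', hb1, -⟩ := exists_between hb
  obtain ⟨K', a'', Ψ, hK', hK'V, -, -, g0, g1, -, g3⟩ := half hV hn
    (Φ := Θ + hd (up Y c) (pull Prod.fst φ)) (hK.union hK2) (union_subset hKV hK2V) ha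
    (b' := b') (by linarith)
    (fun p hp => by
      by_cases hp2 : p.2 < a'
      · exact (h1 p fun h => absurd h.2.1 (not_le.2 hp2)).add (LZ_hd_up _ _ (by linarith))
      · have hp1 : p.1 ∉ K ∪ K2 := fun h => hp ⟨h, not_lt.1 hp2⟩
        exact (h1 p fun h => hp1 (Or.inl h.1)).add ((LZ_fst (h3 _ fun h => hp1 (Or.inr h))).hd _))
    (fun p => by
      refine ((k2 p).add ((LZ_fst (h4 p.1)).hd (up Y c))).congr fun l hl => ?_
      simp only [cob_add', Pi.add_apply]
      rw [cob_hd c φ l (Or.inl (by omega))]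
      ring)
  refine ⟨pull (sl b') Ψ, g0, ⟨K', hK', hK'V, fun y hy =>
    LZ.pull (continuous_sl b').continuousAt (g1 _ fun h => hy h.1)⟩, fun y => ?_⟩
  have e0 : LZ n Θ (sl b' y) := h1 _ fun h => absurd h.2.2 (not_le.2 hb1)
  refine (LZ.pull (continuous_sl b').continuousAt (e0.add (g3 (sl b' y)))).congr fun l hl => ?_
  rw [cob_pull]
  simp only [pull, Pi.add_apply, List.map_map]
  have e1 : (cl b' ∘ sl b' : Y → Y × ℝ) = sl b' := by
    funext y
    simp [cl, sl]
  rw [e1]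
  cases l with
  | nil => simp at hl; omega
  | cons y l =>
    have e2 : c < (sl b' y).2 := by
      change c < b'
      linarith
    have e3 : (Prod.fst ∘ sl b' : Y → Y) = id := rfl
    rw [List.map_cons, hd_up_cons, if_pos e2, one_mul, ← List.map_cons, pull, List.map_map, e3,
      List.map_id, ← add_assoc, ← add_assoc, F2.add_self, zero_add]

end SuspAux

open SuspAux in
theorem suspP : SuspP := by
  intro Y _ _ V a b c hV hac hcb
  refine ⟨fun Φ hΦ => ?_, fun n hn => ⟨fun φ h => ⟨CS_susp hac hcb h.1, fun p => ?_⟩,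
    fun φ h => ?_, fun φ h hB => inj hV hac hcb hn h hB, fun Φ hΦ => ?_⟩⟩
  · obtain ⟨φ, c', -, -, -, -, h⟩ := surj hV hac hcb le_rfl hΦ
    refine h.congr fun p => (LZ.zero 1 p).congr fun l hl => ?_
    obtain ⟨q, rfl⟩ := List.length_eq_one_iff.1 hl
    simp only [Pi.add_apply, susp_single, add_zero, F2.add_self, Pi.zero_apply]
  · exact (LZ_susp c (h.2 p.1)).congr fun l hl => (cob_susp c φ l (Or.inl (by omega))).symm
  · obtain ⟨ψ, h0, h1, h2⟩ := h
    have h3 := CS_susp hac hcb h1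
    rw [Nat.sub_add_cancel hn] at h3
    refine Bc.of_cob hn h3 fun p => (LZ_susp c (h2 p.1)).congr fun l _ => ?_
    rw [susp_add, Pi.add_apply, cob_susp c ψ l (Or.inr h0)]
  · obtain ⟨φ, c', h1, h2, h3, h4, h5⟩ := surj hV hac hcb (Nat.le_add_left 1 n) hΦ
    rw [Nat.add_sub_cancel] at h3
    refine ⟨φ, ⟨h3, h4⟩, ?_⟩
    have := h5.add (susp_change hac h1 h2 hn ⟨h3, h4⟩)
    rwa [add_comm (susp c φ), ← add_assoc, add_assoc Φ, co_add_self, add_zero] at this

end Crest.Agent.R224
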