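import Crest.Agent.R224.Chain

/-! Row 224: a group acting freely and cocompactly on the space `X` is torsion free. -/

namespace Crest.Agent.R224

open Finsupp

namespace TorsAux

section Alg
variable {k X Y : Type} [CommRing k]

open Classical in
/-- projection onto the lists satisfying `p`. -/
noncomputable def pr (p : List X → Prop) : Ch k X →ₗ[k] Ch k X :=
  lc fun l => if p l then single l 1 else 0

theorem pr_pos {p : List X → Prop} {l : List X} (h : p l) (a : k) :
    pr p (single l a) = single l a := by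
  rw [pr, lc_single, if_pos h, smul_single, smul_eq_mul, mul_one]

theorem pr_neg {p : List X → Prop} {l : List X} (h : ¬ p l) (a : k) :
    pr p (single l a) = 0 := by
  rw [pr, lc_single, if_neg h, smul_zero]

theorem pr_apply {p : List X → Prop} {l : List X} (h : p l) (c : Ch k X) : pr p c l = c l := by
  classical
  refine ChainAux.ext (Φ := lapply l ∘ₗ pr p) (Ψ := lapply l) fun m _ => ?_
  by_cases hm : p m
  · simp [pr_pos hm]
  · have : m ≠ l := fun e => hm (e ▸ h)
    simp [pr_neg hm, this]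

theorem chIn_of_pr {p : List X → Prop} {c : Ch k X} (h : pr p c = 0) :
    ChIn (fun l => ¬ p l) c := by
  intro l hl hp
  have := pr_apply hp c
  rw [h] at this
  exact mem_support_iff.1 hl this.symm

theorem chIn_pr {P : List X → Prop} (p : List X → Prop) {c : Ch k X} (h : ChIn P c) :
    ChIn P (pr p c) := by
  classical
  refine h.lc fun l hl => ?_
  split_ifs
  · exact ChIn.single hl _
  · exact ChIn.zero _

theorem pr_congr {p q : List X → Prop} {c : Ch k X} (h : ChIn (fun l => p l ↔ q l) c) :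
    pr p c = pr q c := by
  refine ChainAux.ext fun l hl => ?_
  by_cases hp : p l
  · rw [pr_pos hp, pr_pos ((h l hl).1 hp)]
  · rw [pr_neg hp, pr_neg fun hq => hp ((h l hl).2 hq)]

theorem pr_zero {p : List X → Prop} {c : Ch k X} (h : ChIn (fun l => ¬ p l) c) : pr p c = 0 := by
  refine ChainAux.ext (Ψ := 0) fun l hl => ?_
  rw [pr_neg (h l hl), LinearMap.zero_apply]

theorem pr_pr {p q : List X → Prop} (h : ∀ l, q l → p l) (c : Ch k X) :
    pr p (pr q c) = pr q c := by
  refine ChainAux.ext (Φ := pr p ∘ₗ pr q) fun l _ => ?_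
  by_cases hq : q l
  · simp [pr_pos hq, pr_pos (h l hq)]
  · simp [pr_neg hq]

theorem pr_mapC {p : List Y → Prop} {q : List X → Prop} (f : X → Y)
    (h : ∀ l, p (l.map f) ↔ q l) (c : Ch k X) : pr p (mapC f c) = mapC f (pr q c) := by
  refine ChainAux.ext (Φ := pr p ∘ₗ mapC f) (Ψ := mapC f ∘ₗ pr q) fun l _ => ?_
  by_cases hq : q l
  · simp [mapC_single, pr_pos hq, pr_pos ((h l).2 hq)]
  · simp [mapC_single, pr_neg hq, pr_neg fun hp => hq ((h l).1 hp)]

theorem chIn_dC {P Q : List X → Prop} {c : Ch k X} (h : ChIn P c)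
    (hPQ : ∀ l m, P l → m.Sublist l → m.length + 1 = l.length → Q m) : ChIn Q (dC c) :=
  h.lc fun l hl => (chIn_dL l).mono fun m hm => hPQ l m hl hm.1 hm.2

theorem chIn_true (c : Ch k X) : ChIn (fun _ => True) c := fun _ _ => trivial

end Alg

section Res
variable {k H X : Type} [CommRing k] [Group H] [MulAction H X]

/-- the action on chains. -/
noncomputable abbrev act (a : H) : Ch k X →ₗ[k] Ch k X := mapC fun x => a • x

theorem act_act (a b : H) (c : Ch k X) : act a (act b c) = act (a * b) c := by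
  rw [act, mapC_mapC]
  congr 2
  funext x
  simp [mul_smul]

theorem act_one (c : Ch k X) : act (1 : H) c = c := by
  simp only [act, one_smul]
  exact mapC_id c

/-- an equivariant augmented chain map in lengths `≤ m` with values on lists satisfying `Q`. -/
structure Res (Q : List X → Prop) (m : ℕ) (F : Ch k H →ₗ[k] Ch k X) : Prop where
  nil : F (single [] 1) = single [] 1
  eqv : ∀ (a : H) (c : Ch k H), F (act a c) = act a (F c)
  comm : ∀ c : Ch k H, ChIn (fun l => l.length ≤ m) c → dC (F c) = F (dC c)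
  mem : ∀ j ≤ m, ∀ c : Ch k H, ChIn (fun l => l.length = j) c →
    ChIn (fun l => l.length = j ∧ Q l) (F c)

theorem Res.mono {Q Q' : List X → Prop} {m : ℕ} {F : Ch k H →ₗ[k] Ch k X} (h : Res Q m F)
    (hQ : ∀ l, Q l → Q' l) : Res Q' m F :=
  ⟨h.nil, h.eqv, h.comm, fun j hj c hc => (h.mem j hj c hc).mono fun l hl => ⟨hl.1, hQ l hl.2⟩⟩

theorem res_zero {Q : List X → Prop} (hQ : Q []) : ∃ F : Ch k H →ₗ[k] Ch k X, Res Q 0 F := by
  let f : List H → Ch k X := fun l => match l with | [] => single [] 1 | _ :: _ => 0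
  refine ⟨lc f, ?_, fun a c => ?_, fun c hc => ?_, fun j hj c hc => ?_⟩
  · simp [lc_single, f]
  · refine ChainAux.ext (Φ := lc f ∘ₗ act a) (Ψ := act a ∘ₗ lc f) fun l _ => ?_
    cases l <;> simp [mapC_single, lc_single, f]
  · refine dC_lc (hc.mono fun l hl => ?_)
    obtain rfl : l = [] := List.length_eq_zero_iff.1 (Nat.le_zero.1 hl)
    simp [dC_single, dL_nil, f]
  · obtain rfl : j = 0 := Nat.le_zero.1 hj
    refine hc.lc fun l hl => ?_
    obtain rfl : l = [] := List.length_eq_zero_iff.1 hl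
    exact ChIn.single ⟨rfl, hQ⟩ _

theorem res_succ {Q Q' : List X → Prop} {m : ℕ} {F : Ch k H →ₗ[k] Ch k X} (h : Res Q m F)
    (hQ : ∀ l, Q l → Q' l) (hinv : ∀ (a : H) l, Q' l → Q' (l.map fun x => a • x))
    (hfill : ∀ z : Ch k X, ChIn (fun l => l.length = m ∧ Q l) z → dC z = 0 →
      ∃ c : Ch k X, ChIn (fun l => l.length = m + 1 ∧ Q' l) c ∧ dC c = z) :
    ∃ F' : Ch k H →ₗ[k] Ch k X, Res Q' (m + 1) F' := by
  have hex : ∀ t : List H, ∃ c : Ch k X, t.length = m →
      ChIn (fun l => l.length = m + 1 ∧ Q' l) c ∧ dC c = F (dL k (1 :: t)) := by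
    intro t
    by_cases ht : t.length = m
    · have h1 : ChIn (fun l => l.length = m) (dL k (1 :: t)) :=
        (chIn_dL _).mono fun l hl => by have := hl.2; simp at this; omega
      obtain ⟨c, hc⟩ := hfill _ (h.mem m le_rfl _ h1)
        (by rw [h.comm _ (h1.mono fun l hl => hl.le), dC_dL, map_zero])
      exact ⟨c, fun _ => hc⟩
    · exact ⟨0, fun h => (ht h).elim⟩
  choose c hc using hex
  let f : List H → Ch k X := fun l => match l with
    | [] => F (single [] 1)
    | a :: t => if t.length = m then act a (c (t.map fun x => a⁻¹ • x)) else F (single (a :: t) 1)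
  have hlow : ∀ z : Ch k H, ChIn (fun l => l.length ≤ m) z → lc f z = F z := by
    intro z hz
    refine ChainAux.ext fun l hl => ?_
    have := hz l hl
    cases l with
    | nil => simp [lc_single, f]
    | cons a t =>
      have ht : t.length ≠ m := by simp at this; omega
      simp [lc_single, f, ht]
  refine ⟨lc f, ?_, fun b z => ?_, fun z hz => ?_, fun j hj z hz => ?_⟩
  · simp [lc_single, f, h.nil]
  · refine ChainAux.ext (Φ := lc f ∘ₗ act b) (Ψ := act b ∘ₗ lc f) fun l _ => ?_
    simp only [LinearMap.comp_apply, mapC_single, lc_single, one_smul]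
    cases l with
    | nil => simp [f, h.nil, mapC_single]
    | cons a t =>
      simp only [List.map_cons, f, List.length_map]
      split_ifs with ht
      · rw [act_act, List.map_map]
        congr 3
        funext x
        simp [mul_assoc]
      · rw [← h.eqv, mapC_single, List.map_cons]
  · refine dC_lc (hz.mono fun l hl => ?_)
    have h1 : ChIn (fun l => l.length ≤ m) (dL k l) :=
      (chIn_dL _).mono fun l' hl' => by have := hl'.2; omega
    rw [hlow _ h1]
    cases l with
    | nil => simp [f, h.nil, dC_single, dL_nil]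
    | cons a t =>
      simp only [f]
      split_ifs with ht
      · rw [dC_mapC, (hc _ (by simpa using ht)).2, ← h.eqv, mapC_dL]
        congr 2
        simp [List.map_map, Function.comp_def]
      · rw [h.comm _ (ChIn.single (by simp at hl ⊢; omega) _), dC_single, one_smul]
  · rcases Nat.lt_or_ge j (m + 1) with hj' | hj'
    · rw [hlow _ (hz.mono fun l hl => by omega)]
      exact (h.mem j (by omega) z hz).mono fun l hl => ⟨hl.1, hQ l hl.2⟩
    · obtain rfl : j = m + 1 := by omega
      refine hz.lc fun l hl => ?_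
      cases l with
      | nil => simp at hl
      | cons a t =>
        have ht : t.length = m := by simpa using hl
        simp only [f, if_pos ht]
        exact (hc _ (by simpa using ht)).1.mapC _ fun l hl => ⟨by simpa using hl.1, hinv a l hl.2⟩

/-- the reduction step. -/
theorem res_red [Fintype H] (hn : (Fintype.card H : k) = 0) {Q : List X → Prop}
    (hsub : ∀ l m, Q l → m.Sublist l → Q m)
    (hinv : ∀ (a : H) l, Q l → Q (l.map fun x => a • x)) (U : X → Prop)
    (hU : ∀ (a : H) x, U (a • x) ↔ U x) (sh : X → H) (hsh : ∀ (a : H) x, sh (a • x) = a * sh x)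
    (hloc : ∀ l, Q l → ∀ x ∈ l, ∀ y ∈ l, U x → U y → sh x = sh y)
    {m : ℕ} {F : Ch k H →ₗ[k] Ch k X} (h : Res Q (m + 1) F) :
    ∃ F' : Ch k H →ₗ[k] Ch k X, Res (fun l => Q l ∧ ∀ x ∈ l, ¬ U x) m F' := by
  classical
  let A : Ch k X →ₗ[k] Ch k X := pr fun l => ∃ x ∈ l, U x ∧ sh x = 1
  let B : Ch k X →ₗ[k] Ch k X := pr fun l => ∃ x ∈ l, U x
  have hBA : ∀ c, B (A c) = A c := pr_pr fun l ⟨x, hx, h1, _⟩ => ⟨x, hx, h1⟩
  have hBact : ∀ (a : H) c, B (act a c) = act a (B c) := fun a =>
    pr_mapC _ fun l => by simp [hU]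
  have hsum : ∀ c, ChIn Q c → ∑ a : H, act a (A (act a⁻¹ c)) = B c := by
    intro c hc
    have : (∑ a : H, act a ∘ₗ A ∘ₗ act a⁻¹) c = B c := by
      refine ChainAux.ext fun l hl => ?_
      simp only [LinearMap.sum_apply, LinearMap.comp_apply, mapC_single]
      by_cases hl' : ∃ x ∈ l, U x
      · obtain ⟨x, hx, hUx⟩ := hl'
        rw [Finset.sum_eq_single (sh x)]
        · rw [pr_pos, pr_pos ⟨x, hx, hUx⟩, mapC_single]
          · simp [List.map_map, Function.comp_def]
          · exact ⟨_, List.mem_map_of_mem hx, (hU _ _).2 hUx, by simp [hsh]⟩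
        · intro a _ ha
          rw [pr_neg, map_zero]
          rintro ⟨y', hy', h1, h2⟩
          obtain ⟨y, hy, rfl⟩ := List.mem_map.1 hy'
          rw [hsh, inv_mul_eq_one] at h2
          exact ha (h2.trans (hloc l (hc l hl) y hy x hx ((hU _ _).1 h1) hUx))
        · simp
      · rw [pr_neg hl']
        refine Finset.sum_eq_zero fun a _ => ?_
        rw [pr_neg, map_zero]
        rintro ⟨y', hy', h1, -⟩
        obtain ⟨y, hy, rfl⟩ := List.mem_map.1 hy'
        exact hl' ⟨y, hy, (hU _ _).1 h1⟩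
    simpa [LinearMap.sum_apply] using this
  have hdA : ∀ c, ChIn Q c → B (dC (A c)) = A (dC c) := by
    intro c hc
    refine ChainAux.ext (Φ := B ∘ₗ dC ∘ₗ A) (Ψ := A ∘ₗ dC) fun l hl => ?_
    simp only [LinearMap.comp_apply]
    by_cases hl' : ∃ x ∈ l, U x ∧ sh x = 1
    · rw [pr_pos hl', dC_single, one_smul]
      obtain ⟨x, hx, h1, h2⟩ := hl'
      refine pr_congr ((chIn_dL l).mono fun m hm => ⟨fun ⟨y, hy, h3⟩ => ⟨y, hy, h3, ?_⟩,
        fun ⟨y, hy, h3, _⟩ => ⟨y, hy, h3⟩⟩)
      exact (hloc l (hc l hl) y (hm.1.subset hy) x hx h3 h1).trans h2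
    · rw [pr_neg hl', map_zero, map_zero, dC_single, one_smul]
      exact (pr_zero ((chIn_dL l).mono fun m hm ⟨y, hy, h3⟩ =>
        hl' ⟨y, hm.1.subset hy, h3⟩)).symm
  let D : Ch k H →ₗ[k] Ch k X := ∑ a : H, act a ∘ₗ A ∘ₗ F ∘ₗ consC 1 ∘ₗ act a⁻¹
  have hD : ∀ c, D c = ∑ a : H, act a (A (F (consC 1 (act a⁻¹ c)))) := fun c => by
    simp [D, LinearMap.sum_apply]
  have hcone : ∀ (j : ℕ) (a : H) (c : Ch k H), ChIn (fun l => l.length + 1 = j) c →
      ChIn (fun l => l.length = j) (consC (1 : H) (act a c)) := fun j a c hc =>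
    (hc.mapC (Q := fun l => l.length + 1 = j) _ fun l hl => by simpa using hl).consC _
      fun l hl => by simpa using hl
  have hDmem : ∀ j ≤ m + 1, ∀ c : Ch k H, ChIn (fun l => l.length + 1 = j) c →
      ChIn (fun l => l.length = j ∧ Q l) (D c) := by
    intro j hj c hc
    rw [hD]
    refine ChIn.sum _ fun a _ => ?_
    exact (chIn_pr _ (h.mem j hj _ (hcone j _ c hc))).mapC _ fun l hl =>
      ⟨by simpa using hl.1, hinv a l hl.2⟩
  have hDeqv : ∀ (b : H) c, D (act b c) = act b (D c) := by
    intro b c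
    rw [hD, hD, map_sum]
    refine Fintype.sum_equiv (Equiv.mulLeft b⁻¹) _ _ fun a => ?_
    simp [act_act]
  refine ⟨F - dC ∘ₗ D - D ∘ₗ dC, ?_, fun b c => ?_, fun c hc => ?_, fun j hj c hc => ?_⟩
  · have h1 : dC (D (single [] 1)) = 0 := by
      rw [hD, map_sum]
      have h2 : ∀ a : H, dC (act a (A (F (consC (1 : H) (act a⁻¹ (single [] 1)))))) =
          dC (A (F (single [1] 1))) := by
        intro a
        have h3 : ChIn (fun l => l.length = 0) (dC (A (F (single [1] 1)))) :=
          chIn_dC (chIn_pr _ (h.mem 1 (by omega) _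
            (ChIn.single (P := fun l => l.length = 1) rfl _))) fun l m hl _ hm => by
            have := hl.1; omega
        rw [mapC_single, consC_single, List.map_nil, dC_mapC]
        refine (mapC_congr (h3.mono fun l hl x hx => ?_)).trans (mapC_id _)
        obtain rfl : l = [] := List.length_eq_zero_iff.1 hl
        simp at hx
      rw [Finset.sum_congr rfl fun a _ => h2 a, Finset.sum_const, Finset.card_univ,
        ← Nat.cast_smul_eq_nsmul k, hn, zero_smul]
    simp [h.nil, h1, dC_single, dL_nil]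
  · simp only [LinearMap.sub_apply, LinearMap.comp_apply, map_sub, h.eqv, dC_mapC, hDeqv]
  · simp only [LinearMap.sub_apply, LinearMap.comp_apply, map_sub, dC_dC, map_zero, sub_zero]
    rw [h.comm c (hc.mono fun l hl => by omega)]
  · have h1 : ChIn (fun l => l.length = j ∧ Q l) ((F - dC ∘ₗ D - D ∘ₗ dC) c) := by
      refine ((h.mem j (by omega) c hc).sub (chIn_dC (hDmem (j + 1) (by omega) c
        (hc.mono fun l hl => by omega)) fun l m hl h2 h3 => ⟨by have := hl.1; omega,
          hsub l m hl.2 h2⟩)).sub (hDmem j (by omega) _ (chIn_dC hc fun l m hl _ h3 => by omega))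
    have h2 : B ((F - dC ∘ₗ D - D ∘ₗ dC) c) = 0 := by
      have h3 : ∀ a : H, B (dC (act a (A (F (consC (1 : H) (act a⁻¹ c)))))) =
          act a (A (act a⁻¹ (F c))) - act a (A (F (consC (1 : H) (act a⁻¹ (dC c))))) := by
        intro a
        have h4 := hcone (j + 1) a⁻¹ c (hc.mono fun l hl => by omega)
        rw [dC_mapC, hBact, hdA _ ((h.mem (j + 1) (by omega) _ h4).mono fun l hl => hl.2),
          h.comm _ (h4.mono fun l hl => by omega), dC_consC, dC_mapC, map_sub, map_sub, map_sub,
          h.eqv]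
      simp only [LinearMap.sub_apply, LinearMap.comp_apply, map_sub, hD, map_sum, h3, hBact, hBA,
        Finset.sum_sub_distrib, hsum _ ((h.mem j (by omega) c hc).mono fun l hl => hl.2)]
      abel
    exact (h1.and (chIn_of_pr h2)).mono fun l hl =>
      ⟨hl.1.1, hl.1.2, fun x hx hUx => hl.2 ⟨x, hx, hUx⟩⟩

theorem res_false [Fintype H] [Nontrivial k] (hn : (Fintype.card H : k) = 0)
    {S : List X → Prop} (hsub : ∀ l m, S l → m.Sublist l → S m)
    (hinv : ∀ (a : H) l, S l → S (l.map fun x => a • x)) (col : X → ℕ)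
    (hcol : ∀ (a : H) x, col (a • x) = col x) (sh : X → H)
    (hsh : ∀ (a : H) x, sh (a • x) = a * sh x)
    (hloc : ∀ l, S l → ∀ x ∈ l, ∀ y ∈ l, col x = col y → sh x = sh y) (i : ℕ)
    (F : Ch k H →ₗ[k] Ch k X) : ¬ Res (fun l => S l ∧ ∀ x ∈ l, col x < i) (i + 1) F := by
  induction i generalizing F with
  | zero =>
    intro h
    have h1 : F (single [1] 1) = 0 := by
      by_contra hne
      obtain ⟨l, hl⟩ := support_nonempty_iff.2 hne
      obtain ⟨h2, -, h3⟩ := h.mem 1 le_rfl _ (ChIn.single (P := fun l => l.length = 1) rfl 1) l hl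
      obtain ⟨x, rfl⟩ := List.length_eq_one_iff.1 h2
      exact absurd (h3 x List.mem_cons_self) (Nat.not_lt_zero _)
    have h2 := h.comm (single [1] 1) (ChIn.single (by simp) _)
    rw [h1, map_zero, dC_single, one_smul, dL_cons, dL_nil, map_zero, sub_zero, h.nil] at h2
    exact one_ne_zero (single_eq_zero.1 h2.symm)
  | succ i ih =>
    intro h
    obtain ⟨F', hF'⟩ := res_red hn (Q := fun l => S l ∧ ∀ x ∈ l, col x < i + 1)
      (fun l m hl hm => ⟨hsub l m hl.1 hm, fun x hx => hl.2 x (hm.subset hx)⟩)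
      (fun a l hl => ⟨hinv a l hl.1, fun x hx => by
        obtain ⟨y, hy, rfl⟩ := List.mem_map.1 hx
        rw [hcol]; exact hl.2 y hy⟩)
      (fun x => col x = i) (fun a x => by rw [hcol]) sh hsh
      (fun l hl x hx y hy h1 h2 => hloc l hl.1 x hx y hy (h1.trans h2.symm)) h
    exact ih F' (hF'.mono fun l hl => ⟨hl.1.1, fun x hx => by
      have := hl.1.2 x hx; have := hl.2 x hx; omega⟩)

end Res

section Geo
variable {k H X : Type} [CommRing k] [Group H] [MetricSpace X] [MulAction H X]

theorem small_map (hi : ∀ (g : H) (x y : X), dist (g • x) (g • y) = dist x y) {ε : ℝ} (a : H)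
    (l : List X) (h : SmallL ε l) : SmallL ε (l.map fun x => a • x) := by
  intro x' hx' y' hy'
  obtain ⟨x, hx, rfl⟩ := List.mem_map.1 hx'
  obtain ⟨y, hy, rfl⟩ := List.mem_map.1 hy'
  rw [hi]
  exact h x hx y hy

theorem res_exists (hi : ∀ (g : H) (x y : X), dist (g • x) (g • y) = dist x y) (hf : FillX k X)
    (m : ℕ) {ε : ℝ} (hε : 0 < ε) : ∃ F : Ch k H →ₗ[k] Ch k X, Res (SmallL ε) m F := by
  induction m generalizing ε with
  | zero => exact res_zero fun a ha => by simp at ha
  | succ m ih =>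
    obtain ⟨δ, hδ, h1⟩ := hf m ε hε
    obtain ⟨F, hF⟩ := ih (lt_min hδ hε)
    exact res_succ hF (fun l hl a ha b hb => (hl a ha b hb).trans_le (min_le_right _ _))
      (small_map hi) fun z hz => h1 z (hz.mono fun l hl =>
        ⟨hl.1, fun a ha b hb => (hl.2 a ha b hb).trans_le (min_le_left _ _)⟩)

/-- colours and sheets. -/
theorem exists_col (h : Top0 H X) : ∃ (ρ : ℝ) (N : ℕ) (col : X → ℕ) (s : X → H), 0 < ρ ∧
    (∀ x, col x < N) ∧ (∀ (a : H) x, col (a • x) = col x) ∧ (∀ (a : H) x, s (a • x) = a * s x) ∧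
    ∀ x y, dist x y < ρ → col x = col y → s x = s y := by
  obtain ⟨ε, hε, hsep⟩ := h.sep
  obtain ⟨K, hK, hc⟩ := h.cocpt
  obtain ⟨t, -, ht, hcov⟩ := finite_cover_balls_of_compact hK (e := ε / 3) (by positivity)
  obtain ⟨N, c, -, rfl⟩ := ht.fin_param
  have hfree : ∀ (a b : H) (x : X), dist (a • x) (b • x) < ε → a = b := by
    intro a b x hab
    by_contra hne
    have := hsep (b⁻¹ * a) x fun e => hne (inv_mul_eq_one.1 e).symm
    rw [← h.isom b, smul_smul, mul_inv_cancel_left] at this
    exact this.not_gt hab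
  have hex : ∀ w : MulAction.orbitRel.Quotient H X, ∃ (p : X) (i : Fin N),
      dist p (c i) < ε / 3 ∧ ∀ x : X, Quotient.mk'' x = w → ∃ a : H, a • p = x := by
    intro w
    induction w using Quotient.inductionOn' with
    | h y =>
      obtain ⟨g, hg⟩ := hc y
      have := hcov hg
      simp only [Set.mem_iUnion, Metric.mem_ball] at this
      obtain ⟨_, ⟨i, rfl⟩, hi⟩ := this
      refine ⟨g • y, i, hi, fun x hx => ?_⟩
      obtain ⟨a, ha⟩ := MulAction.orbitRel_apply.1 (Quotient.exact' hx)
      exact ⟨a * g⁻¹, by rw [mul_smul, inv_smul_smul]; exact ha⟩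
  choose p i hp s hs using hex
  have horb : ∀ (a : H) (x : X), (Quotient.mk'' (a • x) : MulAction.orbitRel.Quotient H X) =
      Quotient.mk'' x := fun a x => Quotient.sound' (MulAction.orbitRel_apply.2 ⟨a, rfl⟩)
  refine ⟨ε / 3, N, fun x => i (Quotient.mk'' x), fun x => s _ x rfl, by positivity,
    fun x => (i _).2, fun a x => by simp only [horb], fun a x => ?_, fun x y hxy hcol => ?_⟩
  · refine hfree _ _ (p (Quotient.mk'' x)) ?_
    have h1 := hs _ (a • x) rfl
    have h2 := hs _ x rfl
    rw [mul_smul, h2, ← horb a x, h1, dist_self]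
    exact hε
  · have h1 := hs _ x rfl
    have h2 := hs _ y rfl
    have h3 := hp (Quotient.mk'' x)
    have h4 := hp (Quotient.mk'' y)
    rw [← Fin.ext hcol] at h4
    refine hfree _ _ (p (Quotient.mk'' x)) ?_
    have h5 := dist_triangle_right (p (Quotient.mk'' y)) (p (Quotient.mk'' x))
      (c (i (Quotient.mk'' x)))
    rw [← h.isom (s _ y rfl), h2] at h5
    rw [h1]
    linarith [dist_triangle x y (s _ y rfl • p (Quotient.mk'' x))]

end Geo

theorem exists_retr {G : Type} [Group G] (H : Subgroup G) :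
    ∃ r : G → H, ∀ (a : H) (g : G), r (a * g) = a * r g := by
  let q : G → G := fun g => (Quotient.mk (QuotientGroup.rightRel H) g).out
  have h1 : ∀ g, g * (q g)⁻¹ ∈ H := fun g =>
    QuotientGroup.rightRel_apply.1 (Quotient.mk_out (s := QuotientGroup.rightRel H) g)
  have h2 : ∀ (a : H) g, q (a * g) = q g := fun a g => by
    have : Quotient.mk (QuotientGroup.rightRel H) (a * g) = Quotient.mk _ g :=
      (Quotient.sound (QuotientGroup.rightRel_apply.2 (by simp))).symm
    simp only [q, this]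
  exact ⟨fun g => ⟨_, h1 g⟩, fun a g => Subtype.ext (by simp [h2, mul_assoc])⟩

end TorsAux

open TorsAux in
theorem torsP : TorsP := by
  intro G X _ _ _ h hf g hg
  by_contra hne
  let H := Subgroup.zpowers g
  have : Finite H := finite_zpowers.2 hg
  have := Fintype.ofFinite H
  have hnt : Nontrivial H := ⟨⟨⟨g, Subgroup.mem_zpowers g⟩, 1, fun e => hne (congrArg Subtype.val e)⟩⟩
  have : Fact (1 < Fintype.card H) := ⟨Fintype.one_lt_card⟩
  obtain ⟨ρ, N, col, s, hρ, hN, hcol, hs, hloc⟩ := exists_col h.toTop0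
  obtain ⟨r, hr⟩ := exists_retr H
  have hi : ∀ (a : H) (x y : X), dist (a • x) (a • y) = dist x y := fun a => h.isom a
  obtain ⟨F, hF⟩ := res_exists hi (hf (Fintype.card H)) (N + 1) hρ
  refine res_false (ZMod.natCast_self _) (S := SmallL ρ)
    (fun l m hl hm a ha b hb => hl a (hm.subset ha) b (hm.subset hb)) (small_map hi) col
    (fun a x => hcol a x) (fun x => r (s x)) (fun a x => ?_)
    (fun l hl x hx y hy hxy => congrArg r (hloc x y (hl x hx y hy) hxy)) N F
    (hF.mono fun l hl => ⟨hl, fun x _ => hN x⟩)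
  rw [← hr]
  exact congrArg r (hs a x)

end Crest.Agent.R224
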