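import Crest.Agent.R224.Api

/-! Row 224: the boundary has at least two points. -/

namespace Crest.Agent.R224

open Crest.Agent.Lib.KyFan Set Filter Topology

namespace TwoAux

variable {G : Type} [Group G] {Y : Type} [MetricSpace Y] [MulAction G Y] {T : Finset G} {o : Y}

omit [Group G] in
/-- tails of a weight with bounded sums on `S`. -/
theorem exists_tail {S : Set G} {φ : G → ℝ} {c : ℝ} (h0 : ∀ x, 0 ≤ φ x)
    (hc : ∀ F : Finset G, (∀ x ∈ F, x ∈ S) → ∑ x ∈ F, φ x ≤ c) {η : ℝ} (hη : 0 < η) :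
    ∃ F : Finset G, ∀ F' : Finset G, (∀ x ∈ F', x ∈ S \ (F : Set G)) → ∑ x ∈ F', φ x ≤ η := by
  classical
  have hs : Summable (S.indicator φ) := by
    refine summable_of_sum_le (c := c) (fun x => indicator_nonneg (fun y _ => h0 y) x) fun u => ?_
    rw [Finset.sum_indicator_eq_sum_filter]
    exact hc _ fun x hx => (Finset.mem_filter.1 hx).2
  obtain ⟨F, hF⟩ := summable_iff_vanishing_norm.1 hs η hη
  refine ⟨F, fun F' hF' => ?_⟩
  have h1 := hF F' (Finset.disjoint_left.2 fun x hx hxF => (hF' x hx).2 hxF)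
  rw [Finset.sum_congr rfl fun x hx => indicator_of_mem (hF' x hx).1 φ] at h1
  exact (le_abs_self _).trans h1.le

/-- a coarsely connected set of finite weight is totally bounded. -/
theorem totallyBounded {S : Set G} {R : ℕ} {φ : G → ℝ} {c : ℝ} (h0 : ∀ x, 0 ≤ φ x)
    (hφ : ∀ x y, Near T R x y → dist (x • o) (y • o) ≤ φ x)
    (hc : ∀ F : Finset G, (∀ x ∈ F, x ∈ S) → ∑ x ∈ F, φ x ≤ c)
    (hS : ∀ a ∈ S, ∀ b ∈ S, Relation.ReflTransGen (fun x y => y ∈ S ∧ Near T R x y) a b) :
    TotallyBounded ((fun g : G => g • o) '' S) := by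
  rcases S.eq_empty_or_nonempty with rfl | ⟨a, ha⟩
  · simp
  refine Metric.totallyBounded_iff.2 fun ε hε => ?_
  obtain ⟨F, hF⟩ := exists_tail h0 hc (half_pos hε)
  have hN : (insert a (⋃ f ∈ (F : Set G), {x | Near T R f x})).Finite :=
    (F.finite_toSet.biUnion fun f _ => near_finite R f).insert a
  refine ⟨_, hN.image fun g : G => g • o, ?_⟩
  rintro _ ⟨b, hb, rfl⟩
  have key : b ∈ F ∨ ∃ n ∈ insert a (⋃ f ∈ (F : Set G), {x | Near T R f x}),
      n ∈ S \ (F : Set G) ∧
        Relation.ReflTransGen (fun x y => y ∈ S \ (F : Set G) ∧ Near T R x y) n b := by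
    have hab := hS a ha b hb
    clear hb
    induction hab with
    | refl =>
      by_cases haF : a ∈ F
      · exact Or.inl haF
      · exact Or.inr ⟨a, mem_insert _ _, ⟨ha, haF⟩, .refl⟩
    | @tail b b' _ hb ih =>
      by_cases hF' : b' ∈ F
      · exact Or.inl hF'
      · rcases ih with ih | ⟨n, hn, hnS, ih⟩
        · exact Or.inr ⟨b', mem_insert_of_mem _ (mem_biUnion ih hb.2), ⟨hb.1, hF'⟩, .refl⟩
        · exact Or.inr ⟨n, hn, hnS, ih.tail ⟨⟨hb.1, hF'⟩, hb.2⟩⟩
  rcases key with h | ⟨n, hn, hnS, h⟩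
  · exact mem_biUnion (mem_image_of_mem _ (mem_insert_of_mem _ (mem_biUnion h (Near.refl R b))))
      (Metric.mem_ball_self hε)
  · refine mem_biUnion (mem_image_of_mem _ hn) ?_
    have := chain_dist (o := o) h0 hφ hF hnS h
    rw [Metric.mem_ball, dist_comm]
    linarith

/-- an infinite set of vertices with totally bounded image accumulates somewhere. -/
theorem exists_acc (hs : Sp T o) {S : Set G} (hi : S.Infinite)
    (hb : TotallyBounded ((fun g : G => g • o) '' S)) :
    ∃ y : Y, ∀ ε : ℝ, 0 < ε → {g : G | g ∈ S ∧ dist (g • o) y < ε}.Infinite := by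
  have _ := hs.cpl
  have hK : IsCompact (closure ((fun g : G => g • o) '' S)) :=
    hb.closure.isCompact_of_isClosed isClosed_closure
  have _ : NeBot (cofinite ⊓ 𝓟 S) := cofinite_inf_principal_neBot_iff.2 hi
  obtain ⟨y, -, hy⟩ := hK.exists_mapClusterPt (f := cofinite ⊓ 𝓟 S) (u := fun g : G => g • o) (by
    rw [map_le_iff_le_comap, comap_principal]
    exact inf_le_right.trans (principal_mono.2 fun g hg => subset_closure (mem_image_of_mem _ hg)))
  refine ⟨y, fun ε hε => ?_⟩
  have h1 := mapClusterPt_iff_frequently.1 hy _ (Metric.ball_mem_nhds y hε)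
  rw [frequently_inf_principal, frequently_cofinite_iff_infinite] at h1
  exact h1

end TwoAux

open TwoAux in
theorem twoP (hC : CoareaP) : TwoP := by
  intro G _ Y _ _ T o h hs ⟨u, hu, hconn, t1, t2, ht, hi1, hi2⟩
  have _ : Countable G := countable_of_gen h.gen
  obtain ⟨R1, hR1⟩ := h.wall_conn
  obtain ⟨φ, h0, hsum, hφ⟩ := hs.exists_phi (max R1 1)
  have hadj : ∀ x y, Adj T x y → |u y - u x| ≤ φ x := fun x y hxy => by
    rw [abs_sub_comm]
    exact (hu x y).trans (hφ x y (hxy.near.mono (le_max_right _ _)))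
  have hsum' : Summable fun x => φ x * φ x := by simpa only [sq] using hsum
  have key : ∀ α β : ℝ, t1 ≤ α → α < β → β ≤ t2 → ∃ s ∈ Ioo α β, ∃ z : Zt G o,
      ∀ ε : ℝ, 0 < ε → ∃ g : G, dist (g • o) z.1 < ε ∧ |u g - s| < ε := by
    intro α β hα hαβ hβ
    obtain ⟨s, hsI, hne, hc⟩ := hC G T φ φ u α β ((2 * ∑' x, φ x * φ x + 1) / (β - α)) h0 h0 hadj
      hsum' hαβ (by rw [div_mul_cancel₀ _ (sub_pos.2 hαβ).ne']; linarith)
    have hQ : {x | u x < s}ᶜ = {x | s < u x} := by
      ext x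
      simp only [mem_compl_iff, mem_ofPred_eq, not_lt]
      exact ⟨fun hx => lt_of_le_of_ne hx (hne x).symm, le_of_lt⟩
    have hinf : (bd T {x | u x < s}).Infinite := by
      intro hfin
      rcases h.oneEnd _ hfin with h1 | h1
      · exact hi1 (h1.subset fun x hx => lt_trans hx (hα.trans_lt hsI.1))
      · rw [hQ] at h1
        exact hi2 (h1.subset fun x hx => lt_trans (hsI.2.trans_le hβ) hx)
    have hch := hR1 {x | u x < s} (hconn s).1 (by rw [hQ]; exact (hconn s).2)
    obtain ⟨y, hy⟩ := exists_acc hs hinf (totallyBounded (T := T) (R := R1) h0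
      (fun x y hxy => hφ x y (hxy.mono (le_max_left _ _))) hc hch)
    refine ⟨s, hsI, ⟨y, hs.not_vertex fun ε hε => (hy ε hε).mono fun g hg => hg.2⟩,
      fun ε hε => ?_⟩
    have hfin : {x : G | ε ≤ φ x}.Finite := by
      have := hsum.tendsto_cofinite_zero.eventually_lt_const (pow_pos hε 2)
      refine (eventually_cofinite.1 this).subset fun x hx => ?_
      exact (pow_le_pow_left₀ hε.le hx 2).not_gt
    obtain ⟨g, ⟨⟨g', hgg, hn⟩, hg⟩, hg2⟩ := ((hy ε hε).sdiff hfin).nonempty
    refine ⟨g, hg, ?_⟩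
    have h1 := abs_le.1 (hadj g g' hgg)
    have h2 : φ g < ε := not_le.1 hg2
    simp only [mem_ofPred_eq] at hn
    rw [abs_lt]
    by_cases hx : u g < s
    · have hy : s ≤ u g' := not_lt.1 fun hy => hn (iff_of_true hx hy)
      constructor <;> linarith [h1.1, h1.2]
    · have hy : u g' < s := by
        by_contra hy
        exact hn (iff_of_false hx hy)
      have hx' := not_lt.1 hx
      constructor <;> linarith [h1.1, h1.2]
  obtain ⟨s, hsI, z, hz⟩ := key t1 ((t1 + t2) / 2) le_rfl (by linarith) (by linarith)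
  obtain ⟨s', hsI', z', hz'⟩ := key ((t1 + t2) / 2) t2 (by linarith) (by linarith) le_rfl
  refine ⟨z, z', fun e => ?_⟩
  subst e
  have hss : 0 < (s' - s) / 4 := by linarith [hsI.2, hsI'.1]
  obtain ⟨g, hg, hg1⟩ := hz _ hss
  obtain ⟨g', hg', hg1'⟩ := hz' _ hss
  have h1 := abs_le.1 (hu g g')
  have h2 := abs_lt.1 hg1
  have h3 := abs_lt.1 hg1'
  linarith [dist_triangle_right (g • o) (g' • o) z.1, h1.1, h2.2, h3.1]

end Crest.Agent.R224
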