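import Crest.Agent.R224.Defs

/-! Row 224: uniform versions of the local properties of the universal cover. -/

namespace Crest.Agent.R224

open Set Filter Topology Metric

namespace UnifAux

variable {G X : Type} [Group G] [MetricSpace X] [MulAction G X]

theorem cont (h : ∀ (g : G) (x y : X), dist (g • x) (g • y) = dist x y) (g : G) :
    Continuous fun x : X => g • x :=
  (Isometry.of_dist_eq (h g)).continuous

/-- the action of `g` as a homeomorphism. -/
def hom (h : ∀ (g : G) (x y : X), dist (g • x) (g • y) = dist x y) (g : G) : X ≃ₜ X where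
  toFun x := g • x
  invFun x := g⁻¹ • x
  left_inv x := inv_smul_smul g x
  right_inv x := smul_inv_smul g x
  continuous_toFun := cont h g
  continuous_invFun := cont h g⁻¹

theorem cell_smul (h : ∀ (g : G) (x y : X), dist (g • x) (g • y) = dist x y) (g : G) {V : Set X}
    (hV : IsCell V) : IsCell ((fun x : X => g • x) '' V) := by
  obtain ⟨e, he, rfl⟩ := hV
  refine ⟨(hom h g) ∘ e, (hom h g).isOpenEmbedding.comp he, ?_⟩
  rw [range_comp]
  rfl

theorem cell_open {V : Set X} (hV : IsCell V) : IsOpen V := by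
  obtain ⟨e, he, rfl⟩ := hV
  exact he.isOpen_range

end UnifAux

open UnifAux in
theorem unifP : UnifP := by
  intro G X _ _ _ h
  obtain ⟨K, hK, hcov⟩ := h.cocpt
  refine { h with ucell := ?_, ucpt := ?_, pd := ?_ }
  · intro ε hε
    choose V hV hxV hVb using fun x : X => h.cells x (ε / 2) (half_pos hε)
    obtain ⟨δ, hδ, hL⟩ := lebesgue_number_lemma_of_metric (c := V) hK
      (fun x => cell_open (hV x)) (fun x _ => mem_iUnion.2 ⟨x, hxV x⟩)
    refine ⟨δ, hδ, fun y => ?_⟩
    obtain ⟨g, hg⟩ := hcov y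
    obtain ⟨x, hx⟩ := hL _ hg
    refine ⟨_, cell_smul h.isom g⁻¹ (hV x), fun z hz => ⟨g • z, hx ?_, inv_smul_smul g z⟩, ?_⟩
    · rw [mem_ball, h.isom]; exact hz
    · rintro _ ⟨v, hv, rfl⟩
      have h1 := mem_ball.1 (hVb x hv)
      have h2 := mem_ball.1 (hVb x (hx (mem_ball_self hδ)))
      rw [mem_ball, ← h.isom g, smul_inv_smul]
      have := dist_triangle_right v (g • y) x
      linarith
  · have key : ∀ x : X, ∃ U C : Set X, IsOpen U ∧ IsCompact C ∧ x ∈ U ∧ U ⊆ C := by
      intro x
      obtain ⟨V, ⟨e, he, rfl⟩, ⟨u, rfl⟩, -⟩ := h.cells x 1 one_pos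
      exact ⟨e '' ball u 1, e '' closedBall u 1, he.isOpenMap _ isOpen_ball,
        (isCompact_closedBall u 1).image he.continuous, ⟨u, mem_ball_self one_pos, rfl⟩,
        image_mono ball_subset_closedBall⟩
    choose U C hU hC hxU hUC using key
    obtain ⟨δ, hδ, hL⟩ := lebesgue_number_lemma_of_metric (c := U) hK hU
      (fun x _ => mem_iUnion.2 ⟨x, hxU x⟩)
    refine ⟨δ / 2, half_pos hδ, fun y => ?_⟩
    obtain ⟨g, hg⟩ := hcov y
    obtain ⟨x, hx⟩ := hL _ hg
    refine ((hC x).image (cont h.isom g⁻¹)).of_isClosed_subset isClosed_closedBall fun z hz => ?_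
    refine ⟨g • z, hUC x (hx ?_), inv_smul_smul g z⟩
    rw [mem_ball, h.isom]
    have := mem_closedBall.1 hz
    linarith
  · intro A A' hA hA'
    obtain ⟨ε, hε, hsep⟩ := h.sep
    have h4 : 0 < ε / 4 := by positivity
    obtain ⟨t, ht, hAt⟩ := Metric.totallyBounded_iff.1 hA.totallyBounded _ h4
    obtain ⟨t', ht', hAt'⟩ := Metric.totallyBounded_iff.1 hA'.totallyBounded _ h4
    have hsub : ∀ a b : X, {g : G | dist (g • a) b < ε / 2}.Finite := by
      intro a b
      refine Set.Subsingleton.finite fun g hg g' hg' => ?_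
      by_contra hne
      have h1 : g'⁻¹ * g ≠ 1 := fun e => hne (by rw [inv_mul_eq_one] at e; exact e.symm)
      have h2 := hsep _ a h1
      rw [← h.isom g', mul_smul, smul_inv_smul] at h2
      have h3 := dist_triangle_right (g • a) (g' • a) b
      have h5 : dist (g • a) b < ε / 2 := hg
      have h6 : dist (g' • a) b < ε / 2 := hg'
      linarith
    refine (ht.biUnion fun a _ => ht'.biUnion fun b _ => hsub a b).subset ?_
    rintro g ⟨x, hx, hgx⟩
    obtain ⟨a, ha, hxa⟩ := mem_iUnion₂.1 (hAt hx)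
    obtain ⟨b, hb, hxb⟩ := mem_iUnion₂.1 (hAt' hgx)
    refine mem_iUnion₂.2 ⟨a, ha, mem_iUnion₂.2 ⟨b, hb, ?_⟩⟩
    have h1 := mem_ball.1 hxa
    have h2 := mem_ball.1 hxb
    have h3 := dist_triangle_left (g • a) b (g • x)
    rw [h.isom] at h3
    show dist (g • a) b < ε / 2
    linarith

end Crest.Agent.R224
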