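import Crest.Agent.R224.Api

/-! Row 224: groups that are cocompact on a wall are transient. -/

namespace Crest.Agent.R224

open Crest.Agent.Lib.KyFan Set Filter Topology
open scoped Pointwise

namespace WallAux

variable {G : Type} [Group G] {T : Finset G}

/-- a piece of a wall whose frontier is one-dimensional is a wall away from its frontier. -/
theorem fillL (h : Hyp T) : ∃ R1 lam : ℕ, ∀ R : ℕ, ∃ Φ : ℕ, ∀ (H P S : Set G) (col : G → Bool)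
    (lab : G → ℕ), S.Finite → Lab T lam R S col lab →
    (∀ p ∈ bd T H, ∀ q ∈ bd T H, p ∈ P → q ∉ P → Near T R1 p q → p ∈ S) →
    ∃ H' : Set G, ∀ a b, Adj T a b → (∀ s ∈ S, ¬ Near T Φ a s) →
      ((a ∈ H' ↔ b ∈ H') ↔ (a ∈ P → (a ∈ H ↔ b ∈ H))) := by
  classical
  obtain ⟨R0, lam, H0⟩ := h.fill
  refine ⟨R0 + R0, lam, fun R => ?_⟩
  obtain ⟨Φ, HΦ⟩ := H0 R
  refine ⟨Φ, fun H P S col lab hS hN hfr => ?_⟩
  obtain ⟨f, hf⟩ := HΦ (fun a b => if a ∈ P ∧ ¬ (a ∈ H ↔ b ∈ H) then 1 else 0) S col lab hS hN (by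
    intro x hx
    by_cases hP : ∃ p ∈ bd T H, p ∈ P ∧ Near T R0 x p
    · obtain ⟨p, hp, hpP, hxp⟩ := hP
      refine ⟨fun a => if a ∈ H then 1 else 0, fun a b ha _ hab => ?_⟩
      have key : ¬ (a ∈ H ↔ b ∈ H) → a ∈ P := fun hc => by
        by_contra haP
        exact hx p (hfr p hp a ⟨b, hab, hc⟩ hpP haP ((hxp.symm h.symm).trans ha)) hxp
      by_cases haH : a ∈ H <;> by_cases hbH : b ∈ H
      · simp only [haH, hbH, not_true, and_false, if_false, if_true]; decide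
      · simp [haH, hbH, key (by tauto)]
      · simp [haH, hbH, key (by tauto)]
      · simp [haH, hbH]
    · refine ⟨fun _ => 0, fun a b ha _ hab => ?_⟩
      beta_reduce
      rw [if_neg, add_zero]
      rintro ⟨haP, hc⟩
      exact hP ⟨a, ⟨b, hab, hc⟩, haP, ha⟩)
  refine ⟨{a | f a = 1}, fun a b hab hfar => ?_⟩
  have h1 := hf a b hab hfar
  have h2 : ∀ x y : F2, ((x = 1 ↔ y = 1) ↔ x + y = 0) := by decide
  simp only [mem_ofPred_eq]
  rw [h2, ← h1]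
  by_cases hc : a ∈ P ∧ ¬ (a ∈ H ↔ b ∈ H)
  · rw [if_pos hc]
    exact iff_of_false one_ne_zero fun h' => hc.2 (h' hc.1)
  · rw [if_neg hc]
    exact iff_of_true rfl fun haP => by_contra fun h' => hc ⟨haP, h'⟩

end WallAux

theorem wallP : WallP := by
  intro G _ Y _ _ T o h hline hdim U Φ H a b hU hΦ hbd ha hb
  by_contra hT
  have hsym := h.hyp.symm
  have hsub : ∀ F : Set G, F.Finite → ∃ n, F ⊆ Bl T n := fun F hF =>
    exists_subset_Bl hsym hF (by rw [h.hyp.gen]; exact subset_univ _)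
  obtain ⟨L, hL⟩ := hline a b
  have hc : ∀ w : G, ∃ c : G, w ∈ bd T H →
      c ∈ Subgroup.closure (U : Set G) ∧ c⁻¹ * w ∈ Φ := fun w => by
    by_cases hw : w ∈ bd T H
    · obtain ⟨c, hc, e, he, rfl⟩ := hbd hw
      exact ⟨c, fun _ => ⟨hc, by simpa using he⟩⟩
    · exact ⟨1, fun h' => absurd h' hw⟩
  choose c hc using hc
  obtain ⟨ρ, hρ⟩ := hsub Φ hΦ
  have hnear : ∀ w ∈ bd T H, Near T ρ (c w) w := fun w hw => hρ (hc w hw).2
  obtain ⟨R0, lam, hfill⟩ := WallAux.fillL h.hyp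
  set Λ : Set G := (Subgroup.closure (U : Set G) : Set G) ∩ Bl T (ρ + (R0 + lam) + ρ) with hΛ
  have hΛf : Λ.Finite := (Bl_finite T _).subset inter_subset_right
  have hΛ1 : (1 : G) ∈ Λ := ⟨one_mem _, one_mem_Bl _⟩
  have hmemΛ : ∀ p ∈ bd T H, ∀ q ∈ bd T H, Near T (R0 + lam) p q → (c p)⁻¹ * c q ∈ Λ :=
    fun p hp q hq hpq => ⟨mul_mem (inv_mem (hc p hp).1) (hc q hq).1,
      ((hnear p hp).trans hpq).trans ((hnear q hq).symm hsym)⟩
  obtain ⟨R, hR, hD⟩ := hdim U hU hT Λ hΛf inter_subset_left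
  obtain ⟨R1, hR1⟩ := hsub R hR
  obtain ⟨Φ1, hΦ1⟩ := hfill (ρ + R1 + ρ)
  set D0 : Set G := {w | w ∈ bd T H ∧ ∃ x ∈ L, Near T Φ1 x w} with hD0
  have hD0f : D0.Finite := by
    obtain ⟨ra, hra, fa⟩ := ha.bd_finite h.sp hsym
    obtain ⟨rb, hrb, fb⟩ := hb.bd_finite h.sp hsym
    rw [bd_compl] at fb
    refine ((fa.union fb).union (hL.thick h.sp hsym Φ1 (lt_min hra hrb))).subset ?_
    rintro w ⟨hw, hx⟩
    rcases lt_or_ge (dist (w • o) a.1) ra with h1 | h1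
    · exact Or.inl (Or.inl ⟨hw, h1⟩)
    rcases lt_or_ge (dist (w • o) b.1) rb with h2 | h2
    · exact Or.inl (Or.inr ⟨hw, h2⟩)
    exact Or.inr ⟨hx, (min_le_left _ _).trans h1, (min_le_right _ _).trans h2⟩
  obtain ⟨P, hPf, hDP, -, col, lab, hlab⟩ := hD (c '' D0 * Λ) ((hD0f.image c).mul hΛf) (by
    rintro _ ⟨_, ⟨w, hw, rfl⟩, l, hl, rfl⟩
    exact mul_mem (hc w hw.1).1 hl.1)
  have hPW : {w | w ∈ bd T H ∧ c w ∈ P}.Finite := by
    refine (hPf.mul hΦ).subset ?_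
    rintro w ⟨hw, hwP⟩
    exact ⟨c w, hwP, _, (hc w hw).2, by simp⟩
  have hS : {w | w ∈ bd T H ∧ c w ∈ fr Λ P}.Finite :=
    hPW.subset fun w hw => ⟨hw.1, hw.2.1⟩
  obtain ⟨H', hH'⟩ := hΦ1 H {w | w ∈ bd T H ∧ c w ∈ P} {w | w ∈ bd T H ∧ c w ∈ fr Λ P}
    (fun w => col (c w)) (fun w => lab (c w)) hS
    (fun p hp q hq hcol => ⟨fun e =>
        (((hnear p hp.1).symm hsym).trans
          (show Near T R1 (c p) (c q) from hR1 ((hlab _ hp.2 _ hq.2 hcol).1 e))).trans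
          (hnear q hq.1),
      fun e => (hlab _ hp.2 _ hq.2 hcol).2
        (hmemΛ p hp.1 q hq.1 (e.mono (Nat.le_add_left _ _)))⟩)
    (fun p hp q hq hpP hqP hpq => ⟨hp, hpP.2, _,
      hmemΛ p hp q hq (hpq.mono (Nat.le_add_right _ _)), fun e => hqP ⟨hq, by simpa using e⟩⟩)
  refine h.parity (H' := H') hL ha hb ?_ fun x hx y hy hxy => ?_
  · refine ((nbhd_finite (T := T) Φ1 hS).union hPW).subset ?_
    rintro x ⟨y, hxy, hne⟩
    by_cases hfar : ∀ s ∈ {w | w ∈ bd T H ∧ c w ∈ fr Λ P}, ¬ Near T Φ1 x s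
    · right
      by_contra hx
      exact hne ((hH' x y hxy hfar).2 fun h' => absurd h' hx)
    · left
      push Not at hfar
      exact hfar
  · have hfar : ∀ s ∈ {w | w ∈ bd T H ∧ c w ∈ fr Λ P}, ¬ Near T Φ1 x s := by
      rintro s ⟨hs, -, l, hl, hsl⟩ hxs
      exact hsl (hDP ⟨c s, ⟨s, ⟨hs, x, hx, hxs⟩, rfl⟩, l, hl, rfl⟩)
    rw [hH' x y hxy hfar]
    refine ⟨fun h' => by_contra fun hne => hne (h' ?_), fun h' _ => h'⟩
    have hxb : x ∈ bd T H := ⟨y, hxy, hne⟩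
    exact ⟨hxb, hDP ⟨c x, ⟨x, ⟨hxb, x, hx, Near.refl _ _⟩, rfl⟩, 1, hΛ1, mul_one _⟩⟩

end Crest.Agent.R224
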