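import Crest.Agent.R224.Zig1

/-! Row 224: the Čech zigzag. -/

namespace Crest.Agent.R224

open Crest.Agent.Lib.KyFan Set Filter Topology
open scoped Classical

namespace ZigAux

variable {X : Type}

abbrev Fam (X : Type) := Finset X →₀ Co X

noncomputable def cobF : Fam X →+ Fam X :=
  Finsupp.mapRange.addMonoidHom (AddMonoidHom.mk' cob cob_add')

theorem cobF_apply (a : Fam X) (σ : Finset X) : cobF a σ = cob (a σ) := rfl

theorem cob_zero' : cob (0 : Co X) = 0 := funext fun l => cob_zero l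

theorem bd_cobF (a : Fam X) : bd (cobF a) = cobF (bd a) := bd_map _ a

theorem cobF_cobF (a : Fam X) : cobF (cobF a) = 0 := by
  ext σ l
  exact cob_cob _ l

theorem fam_add_self (a : Fam X) : a + a = 0 := by
  ext σ l
  exact F2.add_self _

noncomputable def hdH (P : Set X) : Co X →+ Co X :=
  AddMonoidHom.mk' (hd P) fun φ ψ => by
    funext l
    simp only [hd, Pi.add_apply]
    split_ifs <;> simp

section Top
variable [TopologicalSpace X]

def Nul (m : ℕ) (a : Fam X) : Prop := ∀ σ x, LZ m (a σ) x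

theorem Nul.add {m : ℕ} {a b : Fam X} (ha : Nul m a) (hb : Nul m b) : Nul m (a + b) :=
  fun σ x => (ha σ x).add (hb σ x)

theorem Nul.zero (m : ℕ) : Nul m (0 : Fam X) := fun _ x => LZ.zero m x

theorem Nul.cobF {m : ℕ} {a : Fam X} (ha : Nul m a) : Nul (m + 1) (cobF a) :=
  fun σ x => (ha σ x).cob

theorem Nul.bd {m : ℕ} {a : Fam X} (ha : Nul m a) : Nul m (bd a) :=
  bd_prop (P := fun _ φ => ∀ x, LZ m φ x) (fun _ x => LZ.zero m x)
    (fun _ _ _ h h' x => (h x).add (h' x)) fun σ _ _ _ => ha σ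

theorem Nul.cone {m : ℕ} {a : Fam X} (ha : Nul m a) (I : Finset X) (P : X → Set X) :
    Nul m (cone I (fun v => hdH (P v)) a) :=
  cone_prop I _ (P := fun _ φ => ∀ x, LZ m φ x) (fun _ x => LZ.zero m x)
    (fun _ _ _ h h' x => (h x).add (h' x)) fun σ _ _ _ _ x => (ha σ x).hd _

theorem prim {m : ℕ} {O : Finset X → Set X} {a : Fam X} (hB : ∀ σ, Bc (m + 1) (O σ) (a σ)) :
    ∃ b : Fam X, (∀ σ, b σ ≠ 0 → a σ ≠ 0) ∧ (∀ σ, CS m (O σ) (b σ)) ∧ Nul (m + 1) (a + cobF b) := by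
  choose ψ _ h1 h2 using hB
  refine ⟨Finsupp.onFinset a.support (fun σ => if a σ = 0 then 0 else ψ σ) fun σ h => ?_,
    fun σ h => ?_, fun σ => ?_, fun σ x => ?_⟩
  · rw [Finsupp.mem_support_iff]
    intro h0
    exact h (if_pos h0)
  · intro h0
    exact h (if_pos h0)
  · rw [Finsupp.onFinset_apply]
    split_ifs
    · exact CS.zero _ _
    · exact h1 σ
  · rw [Finsupp.add_apply, cobF_apply, Finsupp.onFinset_apply]
    split_ifs with h0
    · rw [h0, cob_zero', add_zero]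
      exact LZ.zero _ _
    · exact h2 σ x

/-- the state of the descent. -/
def St (m j : ℕ) (O : Finset X → Set X) (t : Fam X) : Prop :=
  ∃ a : Fam X, (∀ σ, a σ ≠ 0 → σ.card = j + 1) ∧ (∀ σ, Zc m (O σ) (a σ)) ∧ Nul m (bd a + t)

theorem down {m j : ℕ} {O : Finset X → Set X}
    (hO : ∀ σ : Finset X, σ.card = j + 2 → ∀ w ∈ σ, O σ ⊆ O (σ.erase w)) {a t a' : Fam X}
    (ha : ∀ σ, a σ ≠ 0 → σ.card = j + 1) (haCS : ∀ τ, CS m (O τ) (a τ)) (hat : Nul m (bd a + t))
    (ha' : ∀ σ, a' σ ≠ 0 → σ.card = j + 2) (hB : ∀ σ, Bc (m + 1) (O σ) (a' σ))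
    (h : Nul (m + 1) (bd a' + cobF a)) : St m j O t := by
  obtain ⟨b, hb1, hb2, hb3⟩ := prim hB
  refine ⟨a + bd b, fun σ hσ => ?_, fun σ => ⟨(haCS σ).add ?_, ?_⟩, ?_⟩
  · by_cases h0 : a σ = 0
    · exact bd_card (j := j + 1) (fun σ hσ => ha' σ (hb1 σ hσ)) σ (by simpa [h0] using hσ)
    · exact ha σ h0
  · exact bd_prop (P := fun τ φ => CS m (O τ) φ) (fun _ => CS.zero _ _) (fun _ _ _ => CS.add)
      (fun σ hσ w hw => (hb2 σ).mono (hO σ (ha' σ (hb1 σ hσ)) w hw)) σ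
  · have h1 := h.add hb3.bd
    have : bd a' + cobF a + bd (a' + cobF b) = cobF (a + bd b) := by
      rw [map_add, map_add, bd_cobF, add_add_add_comm, fam_add_self, zero_add]
    rw [this] at h1
    exact h1 σ
  · rw [map_add, bd_bd co_add_self, add_zero]
    exact hat

theorem last {m : ℕ} (hm : 1 ≤ m) {O : Finset X → Set X} {φ : Co X} {a' : Fam X}
    (hB : ∀ σ, Bc (m + 1) (O σ) (a' σ)) (h : Nul (m + 1) (bd a' + Finsupp.single ∅ φ)) :
    Bc (m + 1) univ φ := by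
  obtain ⟨b, -, hb2, hb3⟩ := prim hB
  refine Bc.of_cob hm (ψ := bd b ∅) ?_ ?_
  · exact bd_prop (P := fun _ φ => CS m univ φ) (fun _ => CS.zero _ _) (fun _ _ _ => CS.add)
      (fun σ _ _ _ => (hb2 σ).mono (subset_univ _)) ∅
  · have h1 := h.add hb3.bd
    have : bd a' + Finsupp.single ∅ φ + bd (a' + cobF b) = Finsupp.single ∅ φ + cobF (bd b) := by
      rw [map_add, bd_cobF, add_add_add_comm, fam_add_self, zero_add]
    rw [this] at h1
    simpa [cobF_apply] using h1 ∅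

theorem LZ_of_CS_empty {m : ℕ} {φ : Co X} (h : CS m ∅ φ) (x : X) : LZ m φ x := by
  obtain ⟨K, -, hK, h⟩ := h
  exact h x fun hx => hK hx

noncomputable def deg (O : Set X) (φ : Co X) : F2 := if Bc 5 O φ then 0 else 1

theorem deg_eq_zero {O : Set X} {φ : Co X} : deg O φ = 0 ↔ Bc 5 O φ := by
  unfold deg
  split_ifs with h <;> simp [h]

theorem deg_zero (O : Set X) : deg O (0 : Co X) = 0 :=
  deg_eq_zero.2 (Bc.of_LZ (LZ.zero 5) O)

def CE (O : Set X) : Prop := IsCell O ∨ O = ∅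

theorem deg_add (hC : CellP X) {O : Set X} (hO : CE O) {φ ψ : Co X} (hφ : Zc 5 O φ)
    (hψ : Zc 5 O ψ) : deg O (φ + ψ) = deg O φ + deg O ψ := by
  have key : ∀ {φ ψ : Co X}, Bc 5 O φ → Bc 5 O (φ + ψ) → Bc 5 O ψ := fun {φ ψ} h1 h2 => by
    have := h1.add h2
    rwa [← add_assoc, co_add_self, zero_add] at this
  unfold deg
  by_cases h1 : Bc 5 O φ <;> by_cases h2 : Bc 5 O ψ
  · simp [h1, h2, h1.add h2]
  · have : ¬ Bc 5 O (φ + ψ) := fun h => h2 (key h1 h)
    simp [h1, h2, this]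
  · have : ¬ Bc 5 O (φ + ψ) := fun h => h1 (key h2 (add_comm φ ψ ▸ h))
    simp [h1, h2, this]
  · rcases hO with hO | rfl
    · obtain ⟨γ, -, -, h3⟩ := hC.two O hO
      have h4 := ((h3 φ hφ).resolve_left h1).add ((h3 ψ hψ).resolve_left h2)
      rw [add_add_add_comm, co_add_self, add_zero] at h4
      simp only [h1, h2, h4, if_true, if_false]
      rfl
    · exact absurd (Bc.of_LZ (LZ_of_CS_empty hφ.1) _) h1

theorem deg_mono (hC : CellP X) {O O' : Set X} (hO : CE O) (hO' : CE O') (h : O ⊆ O') {φ : Co X}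
    (hφ : Zc 5 O φ) : deg O' φ = deg O φ := by
  have : Bc 5 O' φ ↔ Bc 5 O φ := by
    refine ⟨fun h1 => ?_, fun h1 => h1.mono h⟩
    rcases hO with hO | rfl
    · rcases hO' with hO' | rfl
      · exact hC.inj O O' hO hO' h φ hφ h1
      · exact h1.mono (empty_subset _)
    · exact Bc.of_LZ (LZ_of_CS_empty hφ.1) _
  simp only [deg, this]

theorem Zc_zero (m : ℕ) (O : Set X) : Zc m O (0 : Co X) :=
  ⟨CS.zero _ _, fun x => by rw [cob_zero']; exact LZ.zero _ _⟩

theorem deg_sum (hC : CellP X) {O : Set X} (hO : CE O) {ι : Type} (s : Finset ι) {φ : ι → Co X}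
    (h : ∀ i ∈ s, Zc 5 O (φ i)) :
    Zc 5 O (∑ i ∈ s, φ i) ∧ deg O (∑ i ∈ s, φ i) = ∑ i ∈ s, deg O (φ i) := by
  induction s using Finset.induction_on with
  | empty => exact ⟨Zc_zero _ _, by simp [deg_zero]⟩
  | insert i s hi ih =>
    obtain ⟨h1, h2⟩ := ih fun j hj => h j (Finset.mem_insert_of_mem hj)
    have h3 := h i (Finset.mem_insert_self _ _)
    rw [Finset.sum_insert hi, Finset.sum_insert hi, deg_add hC hO h3 h1, h2]
    exact ⟨h3.add h1, rfl⟩

theorem deg_bd (hC : CellP X) {O : Finset X → Set X} (hCE : ∀ σ, CE (O σ)) {a : Fam X}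
    (hO : ∀ σ, a σ ≠ 0 → ∀ w ∈ σ, O σ ⊆ O (σ.erase w)) (ha : ∀ σ, Zc 5 (O σ) (a σ))
    {z : Finset X →₀ F2} (hz : ∀ σ, z σ = deg (O σ) (a σ)) (τ : Finset X) :
    Zc 5 (O τ) (bd a τ) ∧ deg (O τ) (bd a τ) = bd z τ := by
  have hsup : z.support ⊆ a.support := fun σ hσ => by
    rw [Finsupp.mem_support_iff] at hσ ⊢
    intro h0
    exact hσ (by rw [hz, h0, deg_zero])
  rw [bd_apply a subset_rfl, bd_apply z hsup, Finset.sum_sigma', Finset.sum_sigma']
  have hZ : ∀ p ∈ a.support.sigma fun σ => σ,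
      Zc 5 (O τ) (if p.1.erase p.2 = τ then a p.1 else 0) := by
    intro p hp
    obtain ⟨h1, h2⟩ := Finset.mem_sigma.1 hp
    split_ifs with he
    · exact (ha _).mono (he ▸ hO _ (Finsupp.mem_support_iff.1 h1) _ h2)
    · exact Zc_zero _ _
  obtain ⟨h1, h2⟩ := deg_sum hC (hCE τ) _ hZ
  refine ⟨h1, h2.trans (Finset.sum_congr rfl fun p hp => ?_)⟩
  obtain ⟨h1, h2⟩ := Finset.mem_sigma.1 hp
  split_ifs with he
  · rw [hz]
    exact deg_mono hC (hCE _) (hCE _) (he ▸ hO _ (Finsupp.mem_support_iff.1 h1) _ h2) (ha _)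
  · exact deg_zero _

end Top

section Metric
variable [MetricSpace X]

theorem up {n : ℕ} (hn : 1 ≤ n) {φ : Co X} (hφ : Zc n univ φ) {δ : ℝ} (hδ : 0 < δ) :
    ∃ (a t : ℕ → Fam X) (N : ℕ), t 0 = Finsupp.single ∅ φ ∧ (∀ j, t (j + 1) = cobF (a j)) ∧
      (∀ j, Nul (n + j) (bd (a j) + t j)) ∧ (∀ j σ, a j σ ≠ 0 → σ.card = j + 1) ∧
      (∀ j σ, CS (n + j) (⋂ x ∈ σ, Metric.ball x δ) (a j σ)) ∧ ∀ j, N ≤ j → t j = 0 := by
  obtain ⟨⟨K, hK, -, hKφ⟩, hc⟩ := hφ
  obtain ⟨I, -, hI⟩ := hK.elim_nhds_subcover (fun x => Metric.ball x (δ / 2))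
    fun x _ => Metric.ball_mem_nhds x (half_pos hδ)
  set U : Set X := ⋃ x ∈ I, Metric.ball x (δ / 2) with hU
  have hUo : IsOpen U := isOpen_biUnion fun _ _ => Metric.isOpen_ball
  have hex : ∀ y : X, ∃ v : X, y ∈ U → v ∈ I ∧ y ∈ Metric.ball v (δ / 2) := by
    intro y
    by_cases hy : y ∈ U
    · obtain ⟨v, hv, h⟩ := mem_iUnion₂.1 hy
      exact ⟨v, fun _ => ⟨hv, h⟩⟩
    · exact ⟨y, fun h => absurd h hy⟩
  choose c hc' using hex
  set P : X → Set X := fun v => {y | y ∈ U ∧ c y = v} with hP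
  have hsum : ∀ ψ : Co X, (∑ v ∈ I, hdH (P v)) ψ = hd U ψ := by
    intro ψ
    rw [AddMonoidHom.finsetSum_apply]
    funext l
    rw [Finset.sum_apply]
    cases l with
    | nil =>
      rw [hd_nil]
      exact Finset.sum_eq_zero fun v _ => hd_nil (P v) ψ
    | cons y l =>
      by_cases hy : y ∈ U
      · rw [hd_cons_mem _ hy, Finset.sum_eq_single_of_mem (c y) (hc' y hy).1]
        · exact hd_cons_mem (P := P (c y)) _ ⟨hy, rfl⟩ l
        · exact fun v _ hv => hd_cons_notMem (P := P v) _ (fun h => hv h.2.symm) l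
      · rw [hd_cons_notMem _ hy]
        exact Finset.sum_eq_zero fun v _ => hd_cons_notMem (P := P v) _ (fun h => hy h.1) l
  let C : Fam X →+ Fam X := cone I fun v => hdH (P v)
  let t : ℕ → Fam X := fun j => (fun b => cobF (C b))^[j] (Finsupp.single ∅ φ)
  have ht : ∀ j, t (j + 1) = cobF (C (t j)) := fun j => Function.iterate_succ_apply' _ _ _
  -- support invariant
  let Q : ℕ → ℕ → Finset X → Co X → Prop := fun m j σ ψ => (ψ ≠ 0 → σ ⊆ I ∧ σ.card = j) ∧
    ∀ x, x ∉ K ∩ ⋂ v ∈ σ, Metric.closedBall v (δ / 2) → LZ m ψ x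
  have hQC : ∀ m j (b : Fam X), (∀ σ, Q m j σ (b σ)) → ∀ σ, Q m (j + 1) σ (C b σ) := by
    intro m j b hb
    refine cone_prop I _ (P := Q m (j + 1)) (fun τ => ⟨fun h => absurd rfl h,
      fun x _ => LZ.zero _ _⟩) (fun τ x y hx hy => ⟨fun hxy => ?_,
        fun z hz => (hx.2 z hz).add (hy.2 z hz)⟩) fun σ hσ v hv hvσ => ⟨fun _ => ?_, fun x hx => ?_⟩
    · by_cases h0 : x = 0
      · exact hy.1 (by simpa [h0] using hxy)
      · exact hx.1 h0
    · obtain ⟨h1, h2⟩ := (hb σ).1 hσ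
      exact ⟨Finset.insert_subset hv h1, by rw [Finset.card_insert_of_notMem hvσ, h2]⟩
    · by_cases h1 : x ∈ Metric.closedBall v (δ / 2)
      · refine ((hb σ).2 x fun h => hx ⟨h.1, ?_⟩).hd _
        rw [Finset.set_biInter_insert]
        exact ⟨h1, h.2⟩
      · refine LZ.hd_of_notMem_closure _ _ fun h => h1 ?_
        refine closure_minimal (fun y hy => ?_) Metric.isClosed_closedBall h
        exact Metric.ball_subset_closedBall (hy.2 ▸ (hc' y hy.1).2)
  have hQt : ∀ j σ, Q (n + j) j σ (t j σ) := by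
    intro j
    induction j with
    | zero =>
      intro σ
      change Q n 0 σ (Finsupp.single ∅ φ σ)
      rw [Finsupp.single_apply]
      split_ifs with h
      · subst h
        exact ⟨fun _ => ⟨Finset.empty_subset _, rfl⟩, fun x hx => hKφ x (by simpa using hx)⟩
      · exact ⟨fun h => absurd rfl h, fun x _ => LZ.zero _ _⟩
    | succ j ih =>
      intro σ
      have := hQC _ _ _ ih σ
      rw [ht, cobF_apply]
      exact ⟨fun h => this.1 fun h0 => h (by rw [h0, cob_zero']), fun x hx => (this.2 x hx).cob⟩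
  have hstep : ∀ j, Nul (n + j) (bd (t j)) → Nul (n + j) (bd (C (t j)) + t j) := by
    intro j h
    have h1 := bd_cone co_add_self I (fun v => hdH (P v)) (t j)
    have h2 : Nul (n + j) (Finsupp.mapRange.addMonoidHom (∑ v ∈ I, hdH (P v)) (t j) + t j) := by
      intro σ x
      change LZ _ ((∑ v ∈ I, hdH (P v)) (t j σ) + t j σ) x
      rw [hsum]
      by_cases hx : x ∈ K
      · exact LZ.hd_add_of_mem_nhds (by omega) _ (hUo.mem_nhds (hI hx))
      · have := (hQt j σ).2 x fun h => hx h.1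
        exact (this.hd _).add this
    have h3 := h2.add (h.cone I P)
    rw [← h1, add_right_comm, add_assoc (bd _), fam_add_self, add_zero] at h3
    exact h3
  have hbt : ∀ j, Nul (n + j) (bd (t j)) ∧ Nul (n + j + 1) (cobF (t j)) := by
    intro j
    induction j with
    | zero =>
      constructor
      · change Nul n (bd (Finsupp.single ∅ φ))
        rw [bd_single, Finset.sum_empty]
        exact Nul.zero _
      · intro σ x
        change LZ (n + 1) (cob (Finsupp.single ∅ φ σ)) x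
        rw [Finsupp.single_apply]
        split_ifs
        · exact hc x
        · rw [cob_zero']; exact LZ.zero _ _
    | succ j ih =>
      rw [ht, cobF_cobF]
      refine ⟨?_, Nul.zero _⟩
      have := (hstep j ih.1).cobF.add ih.2
      rwa [map_add, add_assoc (cobF _), fam_add_self, add_zero, ← bd_cobF] at this
  refine ⟨fun j => C (t j), t, I.card + 1, rfl, ht, fun j => hstep j (hbt j).1,
    fun j σ h => ((hQC _ _ _ (hQt j) σ).1 h).2, fun j σ => ?_, fun j hj => ?_⟩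
  · refine ⟨_, hK.inter_right (isClosed_biInter fun _ _ => Metric.isClosed_closedBall),
      fun x hx => ?_, (hQC _ _ _ (hQt j) σ).2⟩
    exact mem_iInter₂.2 fun v hv =>
      Metric.closedBall_subset_ball (half_lt_self hδ) (mem_iInter₂.1 hx.2 v hv)
  · ext σ : 1
    by_contra h
    obtain ⟨h1, h2⟩ := (hQt j σ).1 h
    have := Finset.card_le_card h1
    omega

/-- the nested cells. -/
theorem cells (hu : ∀ ε : ℝ, 0 < ε → ∃ δ : ℝ, 0 < δ ∧ ∀ x : X, ∃ V, IsCell V ∧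
      Metric.ball x δ ⊆ V ∧ V ⊆ Metric.ball x ε) :
    ∃ (ε : ℝ) (O : Finset X → Set X), 0 < ε ∧ (∀ σ, CE (O σ)) ∧
      (∀ σ : Finset X, 2 ≤ σ.card → ∀ w ∈ σ, O σ ⊆ O (σ.erase w)) ∧
      ∀ σ : Finset X, 1 ≤ σ.card → σ.card ≤ 5 → (∀ a ∈ σ, ∀ b ∈ σ, dist a b < ε) →
        IsCell (O σ) ∧ ⋂ x ∈ σ, Metric.ball x ε ⊆ O σ := by
  choose D hD V hV using hu
  let e : ℕ → {ε : ℝ // 0 < ε} := fun j =>
    (fun ε : {ε : ℝ // 0 < ε} => (⟨D ε.1 ε.2 / 2, half_pos (hD ε.1 ε.2)⟩ : {ε : ℝ // 0 < ε}))^[j]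
      ⟨1, one_pos⟩
  have he : ∀ j, (e (j + 1)).1 = D (e j).1 (e j).2 / 2 := fun j =>
    congrArg Subtype.val (Function.iterate_succ_apply' _ _ _)
  obtain ⟨ε, hε, hεe⟩ : ∃ ε : ℝ, 0 < ε ∧ ∀ j ≤ 6, ε ≤ (e j).1 := by
    refine ⟨(Finset.range 7).inf' ⟨0, by simp⟩ fun j => (e j).1,
      (Finset.lt_inf'_iff _).2 fun j _ => (e j).2, fun j hj => ?_⟩
    exact Finset.inf'_le _ (Finset.mem_range.2 (by omega))
  let G : Finset X → Prop := fun σ => σ.Nonempty ∧ σ.card ≤ 5 ∧ ∀ a ∈ σ, ∀ b ∈ σ, dist a b < ε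
  let O : Finset X → Set X := fun σ =>
    if h : G σ then V (e σ.card).1 (e σ.card).2 h.1.choose else ∅
  refine ⟨ε, O, hε, fun σ => ?_, fun σ h2 w hw => ?_, fun σ h1 h5 hs => ?_⟩
  · by_cases h : G σ
    · exact Or.inl (by simp only [O, dif_pos h]; exact (hV _ _ _).1)
    · exact Or.inr (dif_neg h)
  · by_cases h : G σ
    · have hcard := Finset.card_erase_of_mem hw
      have h' : G (σ.erase w) := ⟨Finset.card_pos.1 (by omega), by have := h.2.1; omega,
        fun a ha b hb => h.2.2 a (Finset.mem_of_mem_erase ha) b (Finset.mem_of_mem_erase hb)⟩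
      simp only [O, dif_pos h, dif_pos h']
      refine (hV _ _ _).2.2.trans (Subset.trans (fun y hy => ?_) (hV _ _ _).2.1)
      have h3 := h.2.2 _ h.1.choose_spec _ (Finset.mem_of_mem_erase h'.1.choose_spec)
      have h4 : σ.card = (σ.erase w).card + 1 := by omega
      have h5 := he (σ.erase w).card
      have h6 := hεe σ.card (by have := h.2.1; omega)
      rw [← h4] at h5
      rw [Metric.mem_ball] at hy ⊢
      linarith [dist_triangle y h.1.choose h'.1.choose]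
    · simp only [O, dif_neg h]
      exact empty_subset _
  · have h : G σ := ⟨Finset.card_pos.1 h1, h5, hs⟩
    simp only [O, dif_pos h]
    refine ⟨(hV _ _ _).1, Subset.trans (fun y hy => ?_) (hV _ _ _).2.1⟩
    have h1 := mem_iInter₂.1 hy _ h.1.choose_spec
    have h2 := he σ.card
    have h3 := hεe (σ.card + 1) (by omega)
    have h4 := hD (e σ.card).1 (e σ.card).2
    rw [Metric.mem_ball] at h1 ⊢
    linarith

end Metric

end ZigAux

open ZigAux in
theorem zigP : ZigP := by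
  intro G X _ _ _ hT hC hF n h2 h4 φ hφ
  obtain ⟨ε, O, hε, hCE, hO, hcell⟩ := cells hT.ucell
  obtain ⟨j1, hj1⟩ : ∃ j1, n + (j1 + 1) = 5 := ⟨4 - n, by omega⟩
  obtain ⟨δF, hδF, hfill⟩ := fillS hF (j1 + 2) hε
  obtain ⟨δ, hδ, hδ1, hδ2⟩ : ∃ δ : ℝ, 0 < δ ∧ 2 * δ ≤ δF ∧ 2 * δ ≤ ε :=
    ⟨min δF ε / 2, half_pos (lt_min hδF hε), by linarith [min_le_left δF ε],
      by linarith [min_le_right δF ε]⟩
  obtain ⟨a, t, N, ht0, ht, hat, hacard, haCS, hN⟩ := up (by omega) hφ hδ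
  set O1 : Finset X → Set X := fun σ => ⋂ x ∈ σ, Metric.ball x δ with hO1
  have hsmall : ∀ σ, (O1 σ).Nonempty → ∀ p ∈ σ, ∀ q ∈ σ, dist p q < 2 * δ := by
    rintro σ ⟨y, hy⟩ p hp q hq
    have h1 := mem_iInter₂.1 hy p hp
    have h2 := mem_iInter₂.1 hy q hq
    rw [Metric.mem_ball] at h1 h2
    linarith [dist_triangle_left p q y]
  have hO1O : ∀ σ : Finset X, 1 ≤ σ.card → σ.card ≤ 5 → O1 σ ⊆ O σ := by
    intro σ h1 h5 y hy
    refine (hcell σ h1 h5 fun p hp q hq => (hsmall σ ⟨y, hy⟩ p hp q hq).trans_le hδ2).2 ?_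
    exact mem_iInter₂.2 fun x hx => Metric.ball_subset_ball (by linarith) (mem_iInter₂.1 hy x hx)
  have haO : ∀ j, j + 1 ≤ 5 → ∀ σ, CS (n + j) (O σ) (a j σ) := by
    intro j hj σ
    by_cases h0 : a j σ = 0
    · rw [h0]; exact CS.zero _ _
    · have := hacard j σ h0
      exact (haCS j σ).mono (hO1O σ (by omega) (by omega))
  -- descent with `high`
  have hA : ∀ k, St (n + (j1 + 1 + (N - k))) (j1 + 1 + (N - k)) O1 (t (j1 + 1 + (N - k))) := by
    intro k
    induction k with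
    | zero =>
      refine ⟨0, fun σ h => absurd rfl h, fun σ => Zc_zero _ _, ?_⟩
      rw [hN _ (by omega), map_zero, add_zero]
      exact Nul.zero _
    | succ k ih =>
      by_cases hk : N ≤ k
      · rwa [show N - (k + 1) = N - k by omega]
      · rw [show N - k = (N - (k + 1)) + 1 by omega, ← add_assoc (j1 + 1), ← add_assoc n] at ih
        obtain ⟨a', h1, h2', h3⟩ := ih
        rw [ht] at h3
        refine down (fun σ _ w _ => ?_) (hacard _) (haCS _) (hat _) h1 (fun σ => ?_) h3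
        · exact biInter_subset_biInter_left fun x hx => Finset.mem_of_mem_erase hx
        · exact hC.high _ (isOpen_biInter_finset fun _ _ => Metric.isOpen_ball) _ (by omega) _
            (h2' σ)
  have hA' := hA N
  rw [Nat.sub_self, add_zero, hj1, ht] at hA'
  obtain ⟨a', h1, h2', h3⟩ := hA'
  have hZ : ∀ σ, Zc 5 (O σ) (a' σ) := by
    intro σ
    by_cases h0 : a' σ = 0
    · rw [h0]; exact Zc_zero _ _
    · have := h1 σ h0
      exact (h2' σ).mono (hO1O σ (by omega) (by omega))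
  let z : Finset X →₀ F2 := Finsupp.onFinset a'.support (fun σ => deg (O σ) (a' σ)) fun σ h => by
    rw [Finsupp.mem_support_iff]
    intro h0
    exact h (by rw [h0, deg_zero])
  have hz : ∀ σ, z σ = deg (O σ) (a' σ) := fun σ => rfl
  have hn4 : n + j1 = 4 := by omega
  obtain ⟨c, hc1, hc2⟩ := hfill z (fun σ hσ => by
      refine ⟨h1 σ fun h0 => hσ (by rw [hz, h0, deg_zero]), fun p hp q hq =>
        (hsmall σ ?_ p hp q hq).trans_le hδ1⟩
      rw [nonempty_iff_ne_empty]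
      intro he
      have := (h2' σ).1
      rw [he] at this
      exact hσ (deg_eq_zero.2 (Bc.of_LZ (LZ_of_CS_empty this) _)))
    (by
      ext τ
      rw [← (deg_bd hC hCE (fun σ hσ => hO σ (by have := h1 σ hσ; omega)) hZ hz τ).2,
        Finsupp.zero_apply, deg_eq_zero]
      exact Bc.of_cob (n := 4) (by omega) (hn4 ▸ haO j1 (by omega) τ) (h3 τ))
  have hγ : ∀ ρ, ∃ γ : Co X, (γ ≠ 0 → c ρ ≠ 0) ∧ Zc 5 (O ρ) γ ∧ c ρ = deg (O ρ) γ := by
    intro ρ
    by_cases h0 : c ρ = 0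
    · exact ⟨0, fun h => absurd rfl h, Zc_zero _ _, by rw [h0, deg_zero]⟩
    · obtain ⟨h5, h6⟩ := hc1 ρ h0
      obtain ⟨γ, h7, h8, -⟩ := hC.two _ (hcell ρ (by omega) (by omega) h6).1
      refine ⟨γ, fun _ => h0, h7, ?_⟩
      rw [deg, if_neg h8]
      revert h0
      generalize c ρ = u
      decide +revert
  choose γ hγ1 hγ2 hγ3 using hγ
  let Γ : Fam X := Finsupp.onFinset c.support γ fun ρ h => Finsupp.mem_support_iff.2 (hγ1 ρ h)
  have hΓ := deg_bd hC hCE (a := Γ) (fun σ hσ => hO σ (by have := (hc1 σ (hγ1 σ hσ)).1; omega))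
    hγ2 hγ3
  have hB : ∀ σ, Bc 5 (O σ) ((a' + ZigAux.bd Γ) σ) := by
    intro σ
    rw [← deg_eq_zero, Finsupp.add_apply, deg_add hC (hCE σ) (hZ σ) (hΓ σ).1, (hΓ σ).2, hc2, hz,
      F2.add_self]
  have hS : St (n + j1) j1 O (t j1) := by
    refine down (a' := a' + ZigAux.bd Γ) (fun σ hσ => hO σ (by omega)) (hacard _) (haO j1 (by omega))
      (hat _) (fun σ hσ => ?_) (by rw [hn4]; exact hB) ?_
    · by_cases h0 : a' σ = 0
      · exact bd_card (j := j1 + 2) (fun σ hσ => (hc1 σ (hγ1 σ hσ)).1) σ (by simpa [h0] using hσ)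
      · exact h1 σ h0
    · rw [map_add, bd_bd co_add_self, add_zero, hn4]
      exact h3
  have hvan : ∀ m, 1 ≤ m → m ≠ 5 → ∀ σ, Van m (O σ) := by
    intro m hm1 hm5 σ ψ hψ
    rcases hCE σ with h | h
    · exact hC.van _ h m hm1 hm5 ψ hψ
    · rw [h] at hψ
      exact Bc.of_LZ (LZ_of_CS_empty hψ.1) _
  have hD : ∀ k, k ≤ j1 → St (n + (j1 - k)) (j1 - k) O (t (j1 - k)) := by
    intro k
    induction k with
    | zero => exact fun _ => hS
    | succ k ih =>
      intro hk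
      have ih := ih (by omega)
      rw [show j1 - k = (j1 - (k + 1)) + 1 by omega, ← add_assoc n] at ih
      obtain ⟨a', h1, h2', h3⟩ := ih
      rw [ht] at h3
      exact down (fun σ hσ => hO σ (by omega)) (hacard _) (haO _ (by omega)) (hat _) h1
        (fun σ => hvan _ (by omega) (by omega) σ _ (h2' σ)) h3
  have hD' := hD j1 le_rfl
  rw [Nat.sub_self, add_zero, ht0] at hD'
  obtain ⟨a'', -, h6, h7⟩ := hD'
  obtain ⟨m, rfl⟩ : ∃ m, n = m + 1 := ⟨n - 1, by omega⟩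
  exact last (by omega) (fun σ => hvan _ (by omega) (by omega) σ _ (h6 σ)) h7

end Crest.Agent.R224
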