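import Crest.Agent.R224.Chain

/-! Row 224: finite-set chains with coefficients (for the Čech zigzag). -/

namespace Crest.Agent.R224.ZigAux

open Crest.Agent.Lib.KyFan Set Filter Topology
open scoped Classical

variable {X : Type}

section Bd
variable {A B : Type} [AddCommGroup A] [AddCommGroup B]

/-- boundary of finite-set chains (mod two). -/
noncomputable def bd : (Finset X →₀ A) →+ (Finset X →₀ A) :=
  Finsupp.liftAddHom fun σ => ∑ w ∈ σ, Finsupp.singleAddHom (σ.erase w)

theorem bd_single (σ : Finset X) (a : A) :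
    bd (Finsupp.single σ a) = ∑ w ∈ σ, Finsupp.single (σ.erase w) a := by
  simp [bd]

theorem bd_apply (a : Finset X →₀ A) {S : Finset (Finset X)} (hS : a.support ⊆ S) (τ : Finset X) :
    bd a τ = ∑ σ ∈ S, ∑ w ∈ σ, if σ.erase w = τ then a σ else 0 := by
  have h1 : a = ∑ σ ∈ S, Finsupp.single σ (a σ) := by
    conv_lhs => rw [← a.sum_single]
    exact Finsupp.sum_of_support_subset a hS _ (by simp)
  conv_lhs => rw [h1]
  simp only [map_sum, bd_single, Finsupp.finsetSum_apply, Finsupp.single_apply]

theorem bd_prop {P : Finset X → A → Prop} (h0 : ∀ τ, P τ 0)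
    (hadd : ∀ τ x y, P τ x → P τ y → P τ (x + y)) {a : Finset X →₀ A}
    (h : ∀ σ, a σ ≠ 0 → ∀ w ∈ σ, P (σ.erase w) (a σ)) (τ : Finset X) : P τ (bd a τ) := by
  rw [bd_apply a subset_rfl]
  refine Finset.sum_induction _ (P τ) (hadd τ) (h0 τ) fun σ hσ =>
    Finset.sum_induction _ (P τ) (hadd τ) (h0 τ) fun w hw => ?_
  split_ifs with he
  · exact he ▸ h σ (Finsupp.mem_support_iff.1 hσ) w hw
  · exact h0 τ

theorem bd_bd (h2 : ∀ x : A, x + x = 0) (a : Finset X →₀ A) : bd (bd a) = 0 := by
  induction a using Finsupp.induction_linear with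
  | zero => simp
  | add f g hf hg => simp [hf, hg]
  | single σ a =>
    simp only [bd_single, map_sum]
    rw [Finset.sum_sigma']
    refine Finset.sum_involution (fun p _ => ⟨p.2, p.1⟩) ?_ ?_ ?_ ?_
    · intro p _
      rw [Finset.erase_right_comm, ← Finsupp.single_add, h2, Finsupp.single_zero]
    · intro p hp _ he
      have h1 := congrArg Sigma.fst he
      simp only [Finset.mem_sigma, Finset.mem_erase] at hp
      exact hp.2.1 h1
    · intro p hp
      simp only [Finset.mem_sigma, Finset.mem_erase] at hp ⊢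
      exact ⟨hp.2.2, hp.2.1.symm, hp.1⟩
    · intro p _
      rfl

theorem bd_map (f : A →+ B) (a : Finset X →₀ A) :
    bd (Finsupp.mapRange.addMonoidHom f a) = Finsupp.mapRange.addMonoidHom f (bd a) := by
  induction a using Finsupp.induction_linear with
  | zero => simp
  | add f g hf hg => rw [map_add, map_add, map_add, map_add, hf, hg]
  | single σ a => simp [bd_single, map_sum]

theorem bd_card {a : Finset X →₀ A} {j : ℕ} (h : ∀ σ, a σ ≠ 0 → σ.card = j + 1) (τ : Finset X)
    (hτ : bd a τ ≠ 0) : τ.card = j := by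
  have := bd_prop (P := fun τ x => x ≠ 0 → τ.card = j) (by simp) (fun τ x y hx hy hxy => by
    by_cases h0 : x = 0
    · exact hy (by simpa [h0] using hxy)
    · exact hx h0) (a := a) (fun σ hσ w hw _ => by
      rw [Finset.card_erase_of_mem hw, h σ hσ]; rfl) τ
  exact this hτ

/-- cone operator. -/
noncomputable def cone (I : Finset X) (h : X → A →+ A) : (Finset X →₀ A) →+ (Finset X →₀ A) :=
  Finsupp.liftAddHom fun σ => ∑ v ∈ I \ σ, (Finsupp.singleAddHom (insert v σ)).comp (h v)

theorem cone_single (I : Finset X) (h : X → A →+ A) (σ : Finset X) (a : A) :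
    cone I h (Finsupp.single σ a) = ∑ v ∈ I \ σ, Finsupp.single (insert v σ) (h v a) := by
  simp [cone]

theorem cone_prop (I : Finset X) (h : X → A →+ A) {P : Finset X → A → Prop} (h0 : ∀ τ, P τ 0)
    (hadd : ∀ τ x y, P τ x → P τ y → P τ (x + y)) {a : Finset X →₀ A}
    (H : ∀ σ, a σ ≠ 0 → ∀ v ∈ I, v ∉ σ → P (insert v σ) (h v (a σ))) (τ : Finset X) :
    P τ (cone I h a τ) := by
  have h1 : a = ∑ σ ∈ a.support, Finsupp.single σ (a σ) := a.sum_single.symm
  rw [h1]
  simp only [map_sum, cone_single, Finsupp.finsetSum_apply, Finsupp.single_apply]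
  refine Finset.sum_induction _ (P τ) (hadd τ) (h0 τ) fun σ hσ =>
    Finset.sum_induction _ (P τ) (hadd τ) (h0 τ) fun v hv => ?_
  split_ifs with he
  · exact he ▸ H σ (Finsupp.mem_support_iff.1 hσ) v (Finset.mem_sdiff.1 hv).1
      (Finset.mem_sdiff.1 hv).2
  · exact h0 τ

theorem bd_cone (h2 : ∀ x : A, x + x = 0) (I : Finset X) (h : X → A →+ A) (a : Finset X →₀ A) :
    bd (cone I h a) + cone I h (bd a) = Finsupp.mapRange.addMonoidHom (∑ v ∈ I, h v) a := by
  induction a using Finsupp.induction_linear with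
  | zero => simp
  | add f g hf hg => rw [map_add, map_add, map_add, map_add, map_add, ← hf, ← hg]; abel
  | single σ a =>
    have e1 : bd (cone I h (Finsupp.single σ a)) = ∑ v ∈ I \ σ, Finsupp.single σ (h v a) +
        ∑ v ∈ I \ σ, ∑ w ∈ σ, Finsupp.single (insert v (σ.erase w)) (h v a) := by
      rw [cone_single, map_sum, ← Finset.sum_add_distrib]
      refine Finset.sum_congr rfl fun v hv => ?_
      have hv' := (Finset.mem_sdiff.1 hv).2
      rw [bd_single, Finset.sum_insert hv', Finset.erase_insert hv']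
      congr 1
      refine Finset.sum_congr rfl fun w hw => ?_
      rw [Finset.erase_insert_of_ne (by rintro rfl; exact hv' hw)]
    have e2 : cone I h (bd (Finsupp.single σ a)) = ∑ v ∈ I ∩ σ, Finsupp.single σ (h v a) +
        ∑ v ∈ I \ σ, ∑ w ∈ σ, Finsupp.single (insert v (σ.erase w)) (h v a) := by
      rw [bd_single, map_sum, Finset.sum_comm, Finset.inter_comm, ← Finset.filter_mem_eq_inter,
        Finset.sum_filter, ← Finset.sum_add_distrib]
      refine Finset.sum_congr rfl fun w hw => ?_
      rw [cone_single]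
      by_cases hwI : w ∈ I
      · have : I \ σ.erase w = insert w (I \ σ) := by
          ext v
          simp only [Finset.mem_sdiff, Finset.mem_erase, Finset.mem_insert]
          by_cases hv : v = w
          · simp [hv, hwI]
          · simp [hv]
        rw [this, Finset.sum_insert (by simp [hw]), Finset.insert_erase hw, if_pos hwI]
      · have : I \ σ.erase w = I \ σ := by
          ext v
          simp only [Finset.mem_sdiff, Finset.mem_erase]
          by_cases hv : v = w
          · simp [hv, hwI]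
          · simp [hv]
        rw [this, if_neg hwI, zero_add]
    have e3 : ∀ x : Finset X →₀ A, x + x = 0 := fun x => by ext τ; simp [h2]
    rw [e1, e2, add_add_add_comm, e3, add_zero, add_comm, Finset.sum_inter_add_sum_sdiff]
    simp [AddMonoidHom.finsetSum_apply, Finsupp.single_finsetSum]

end Bd

section Fill

theorem lin_bd (f : Finset X → F2) (z : Finset X →₀ F2) :
    Finsupp.linearCombination F2 f (bd z) =
      Finsupp.linearCombination F2 (fun σ => ∑ w ∈ σ, f (σ.erase w)) z := by
  induction z using Finsupp.induction_linear with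
  | zero => simp
  | add f g hf hg => rw [map_add, map_add, map_add, hf, hg]
  | single σ a => simp [bd_single, map_sum, Finset.mul_sum]

theorem eq_of_lin {ι : Type} {z z' : ι →₀ F2}
    (h : ∀ f : ι → F2, Finsupp.linearCombination F2 f z = Finsupp.linearCombination F2 f z') :
    z = z' := by
  ext i
  have key : ∀ z : ι →₀ F2, Finsupp.linearCombination F2 (Pi.single i 1 : ι → F2) z = z i := by
    intro z
    induction z using Finsupp.induction_linear with
    | zero => simp
    | add f g hf hg => rw [map_add, hf, hg, Finsupp.add_apply]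
    | single σ a => simp [Pi.single_apply, Finsupp.single_apply]
  rw [← key, ← key, h]

/-- lists to sets. -/
noncomputable def toS : Ch F2 X →ₗ[F2] (Finset X →₀ F2) :=
  Finsupp.linearCombination F2 fun l => if l.Nodup then Finsupp.single l.toFinset 1 else 0

theorem lin_toS (f : Finset X → F2) (c : Ch F2 X) :
    Finsupp.linearCombination F2 f (toS c) =
      ev (fun l => if l.Nodup then f l.toFinset else 0) c := by
  refine ChainAux.ext (Φ := Finsupp.linearCombination F2 f ∘ₗ toS) fun l _ => ?_
  by_cases h : l.Nodup <;> simp [toS, ev_single, h]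

theorem bd_toS (c : Ch F2 X) : bd (toS c) = toS (dC c) := by
  refine eq_of_lin fun f => ?_
  rw [lin_bd, lin_toS, lin_toS, ev_dC]
  congr 2
  funext l
  by_cases h : l.Nodup
  · rw [if_pos h, cob_nodup _ h]
    refine Finset.sum_congr rfl fun a _ => ?_
    rw [if_pos (h.erase a)]
    congr 1
    ext x
    simp [h.mem_erase_iff]
  · rw [if_neg h]
    obtain ⟨a, ha⟩ := List.exists_duplicate_iff_not_nodup.2 h
    have hs := List.duplicate_iff_sublist.1 ha
    obtain ⟨l', hl'⟩ := hs.exists_perm_append
    rw [cob_perm _ hl']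
    · exact (cob_dup a l' fun m => by simp).symm
    · intro l m hp
      simp only [hp.nodup_iff, List.toFinset_eq_of_perm _ _ hp]

theorem exists_sort (X : Type) : ∃ s : Finset X → List X, (∀ σ, (s σ).Nodup) ∧
    (∀ σ x, x ∈ s σ ↔ x ∈ σ) ∧ ∀ σ a, (s σ).erase a = s (σ.erase a) := by
  let r : X → X → Prop := fun a b => ¬ WellOrderingRel b a
  have : IsTrans X r := ⟨fun a b c h1 h2 h3 => by
    rcases trichotomous_of WellOrderingRel a b with h | h | h
    · exact h2 (_root_.trans h3 h)
    · exact h2 (h ▸ h3)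
    · exact h1 h⟩
  have : Std.Antisymm r := ⟨fun a b h1 h2 => by
    rcases trichotomous_of WellOrderingRel a b with h | h | h
    · exact absurd h h2
    · exact h
    · exact absurd h h1⟩
  have : Std.Total r := ⟨fun a b => by
    by_cases h : WellOrderingRel b a
    · exact Or.inr (asymm h)
    · exact Or.inl h⟩
  refine ⟨fun σ => σ.sort r, fun σ => Finset.sort_nodup _ _, fun σ x => Finset.mem_sort _, ?_⟩
  intro σ a
  refine List.Perm.eq_of_pairwise' (r := r) ?_ (Finset.pairwise_sort _ _) ?_
  · exact (Finset.pairwise_sort σ r).sublist List.erase_sublist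
  · refine (List.perm_ext_iff_of_nodup ((Finset.sort_nodup _ _).erase a)
      (Finset.sort_nodup _ _)).2 fun x => ?_
    simp [(Finset.sort_nodup σ r).mem_erase_iff]

theorem fillS [MetricSpace X] (hF : FillX F2 X) (j : ℕ) {ε : ℝ} (hε : 0 < ε) :
    ∃ δ : ℝ, 0 < δ ∧ ∀ z : Finset X →₀ F2,
      (∀ σ, z σ ≠ 0 → σ.card = j ∧ ∀ a ∈ σ, ∀ b ∈ σ, dist a b < δ) → bd z = 0 →
      ∃ c : Finset X →₀ F2, (∀ σ, c σ ≠ 0 → σ.card = j + 1 ∧ ∀ a ∈ σ, ∀ b ∈ σ, dist a b < ε) ∧
        bd c = z := by
  obtain ⟨δ, hδ, H⟩ := hF j ε hε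
  refine ⟨δ, hδ, fun z hz hb => ?_⟩
  obtain ⟨s, hs1, hs2, hs⟩ := exists_sort X
  have hs3 : ∀ σ, (s σ).toFinset = σ := fun σ => by ext x; simp [hs2]
  let S : (Finset X →₀ F2) →ₗ[F2] Ch F2 X := Finsupp.lmapDomain F2 F2 s
  have hev : ∀ (φ : Co X) (z : Finset X →₀ F2),
      ev φ (S z) = Finsupp.linearCombination F2 (fun σ => φ (s σ)) z := by
    intro φ z
    induction z using Finsupp.induction_linear with
    | zero => simp
    | add f g hf hg => rw [map_add, map_add, map_add, hf, hg]
    | single σ a => simp [S, ev_single]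
  obtain ⟨c, hc, hdc⟩ := H (S z) (by
      intro l hl
      obtain ⟨σ, hσ, rfl⟩ := Finset.mem_image.1 (Finsupp.mapDomain_support hl)
      obtain ⟨h1, h2⟩ := hz σ (Finsupp.mem_support_iff.1 hσ)
      exact ⟨by rw [← List.toFinset_card_of_nodup (hs1 σ), hs3, h1],
        fun a ha b hb => h2 a ((hs2 _ _).1 ha) b ((hs2 _ _).1 hb)⟩)
    (by
      refine eq_of_lin fun φ => ?_
      change ev φ _ = _
      rw [ev_dC, hev, map_zero, ← map_zero (Finsupp.linearCombination F2 fun σ => φ (s σ)), ← hb,
        lin_bd]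
      congr 2
      funext σ
      rw [cob_nodup _ (hs1 σ), hs3]
      exact Finset.sum_congr rfl fun a _ => congrArg φ (hs σ a))
  refine ⟨toS c, fun σ hσ => ?_, ?_⟩
  · rw [toS, Finsupp.linearCombination_apply, Finsupp.sum, Finsupp.finsetSum_apply] at hσ
    obtain ⟨l, hl, h⟩ := Finset.exists_ne_zero_of_sum_ne_zero hσ
    by_cases hn : l.Nodup
    · have : l.toFinset = σ := by
        by_contra hne
        simp [hn, hne] at h
      subst this
      obtain ⟨h1, h2⟩ := hc l hl
      exact ⟨by rw [List.toFinset_card_of_nodup hn, h1], fun a ha b hb =>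
        h2 a (by simpa using ha) b (by simpa using hb)⟩
    · simp [hn] at h
  · rw [bd_toS, hdc]
    refine eq_of_lin fun f => ?_
    rw [lin_toS, hev]
    congr 2
    funext σ
    simp [hs1, hs3]

end Fill

end Crest.Agent.R224.ZigAux
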